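import Crest.Agent.X261.Jet.TbI
import Crest.Agent.X261.Bog.Cov
import Crest.Agent.R271.Null_821

/-!
# Row 261, JET/Tube (helper63), file `TbE`: the frame `dπ = u e`, fibre-null polyvector fields

* `eps_of_gen`, `exists_eps` : the structure `Eps` on a tube;
* `flat_of_pos`   : holomorphic functions vanishing on a set of positive measure are flat somewhere;
* `ident_ch`      : identity theorem for families given in the charts;
* `Eps.isV`       : the Berezin dual of `e` is a polyvector field;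
* `par1`, `par`   : a holomorphic polyvector field killed by the `dπ_k` on a set of positive measure
                    is a holomorphic multiple of the dual of `e` in degree `n - p`.
-/

set_option autoImplicit false
set_option linter.unusedSectionVars false

open Set Filter Topology Complex Matrix MeasureTheory Metric
open scoped ContDiff Matrix ComplexConjugate ENNReal

namespace Crest.Agent.X261.Jet.Tb

open Crest.Agent.R275 Crest.Agent.R275.Geo Crest.Agent.R275.Core144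
open Crest.Agent.R273.Defs_333 Crest.Agent.R273.Fock_243 Crest.Agent.R273.Vm_333
open Crest.Agent.R273.UCov_914
open Crest.Agent.R273.BKNa_37 (IsV J_J)
open Crest.Agent.R273.Berezin_505 (Sb Sbi)
open Crest.Agent.R281.Kd_22 (Hm Cop hm_of_holAt holAt_of_hm ev_not_flat ev_iff cancel)
open Crest.Agent.X261.Top (dW Fol upF)
open Crest.Agent.X261.Bog (Par rt rt_ev div_cop cop_of_comb exists_not_flat cop_not_flat)

noncomputable section

variable {n p : ℕ} {M : Type} [TopologicalSpace M] {A : Atl n M} {T : Set M} {π : M → Cn p}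
  {L N : LB A} {e : A.ι → M → FI n → ℂ} {u : A.ι → M → ℂ}

/-! ### the frame -/

theorem eps_of_gen (H : Sbm A T π) (hol : ∀ i S, HolAt A i univ fun x => e i x S)
    (deg : ∀ i x, Dg p (e i x))
    (tr : ∀ i j, ∀ x ∈ (A.e i).source ∩ (A.e j).source,
      e i x = (L.g i j x)⁻¹ • (Gam (Jm A i j x)ᵀ *ᵥ e j x))
    (cop : ∀ i, ∀ x ∈ (A.e i).source, Cop A (fun S y => e i y S) x)
    (gen : ∀ i, ∀ y ∈ T, y ∈ (A.e i).source → ∃ c : ℂ, c ≠ 0 ∧ e i y = c • dW A i π y) :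
    ∃ u, Eps L T π e u := by
  choose! c hc0 hc using gen
  have he : ∀ i, ∀ y ∈ T, y ∈ (A.e i).source → dW A i π y = (c i y)⁻¹ • e i y :=
    fun i y hy hi => by rw [hc i y hy hi, smul_smul, inv_mul_cancel₀ (hc0 i y hy hi), one_smul]
  refine ⟨fun i y => (c i y)⁻¹, hol, deg, tr, cop, ⟨fun i => ?_,
    fun i y hy hi => inv_ne_zero (hc0 i y hy hi), fun i j y hy hij => ?_⟩, he⟩
  · refine holAt_of_hm fun x hi hx => ?_
    obtain ⟨S, hS⟩ := Function.ne_iff.1 (H.dW_ne hx hi)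
    have h1 := hm_of_holAt (H.dW_hol i S) H.opn hi hx
    have h2 := hm_of_holAt (hol i S) isOpen_univ hi (mem_univ x)
    have h3 : e i x S ≠ 0 := by
      rw [hc i x hx hi]
      exact mul_ne_zero (hc0 i x hx hi) hS
    refine (h1.mul (h2.inv h3)).congr ?_
    filter_upwards [H.opn.mem_nhds hx, (A.e i).open_source.mem_nhds hi, h2.ev_ne h3]
      with y a b d
    rw [he i y a b, Pi.smul_apply, smul_eq_mul, mul_inv_cancel_right₀ d]
  · have h1 := H.dW_tr hy hij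
    have h2 : Gam (Jm A i j y)ᵀ *ᵥ e j y ≠ 0 := fun h => H.dW_ne hy hij.1 (by
      rw [he i y hy hij.1, tr i j y hij, h, smul_zero, smul_zero])
    rw [he i y hy hij.1, he j y hy hij.2, Matrix.mulVec_smul, tr i j y hij, smul_smul] at h1
    have h3 : (c i y)⁻¹ * (L.g i j y)⁻¹ = (c j y)⁻¹ := smul_left_injective ℂ h2 h1
    rw [← h3, mul_left_comm, mul_inv_cancel₀ (L.ne_zero i j y), mul_one]

section Cover

variable {X : Type} [TopologicalSpace X] {B : Atl n X} {G : Type} [Group G] {D : MonD B G}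

/-- coprimality on the cover -/
theorem cop_cov {κ : Type*} {t : κ → X → ℂ} {y : D.cov G} (h : Cop B t (D.pr y)) :
    Cop (D.atl G) (fun j z => t j (D.pr z)) y := by
  obtain ⟨q, hq⟩ := (D.atl G).cover y
  obtain ⟨x, hx, rfl⟩ : ∃ x ∈ (B.e q.1).source, D.pt q.1 q.2 x = y :=
    ⟨D.pr y, hq.1, D.pt_of_mem hq⟩
  intro k hk hkt
  refine h (fun x => k (D.pt q.1 q.2 x)) ((Bog.hm_pt D hx).1 hk) fun j => ?_
  obtain ⟨m, hm, h1⟩ := hkt j
  exact ⟨fun x => m (D.pt q.1 q.2 x), (Bog.hm_pt D hx).1 hm, (Bog.ev_pt D hx).1 h1⟩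

theorem exists_eps (F : Fol D p) {x : D.cov G} (hx : x ∈ F.T.M0) :
    ∃ u, Eps (D.pullLB G F.L) (F.T.T x) (F.T.π x) (upF D F.e) u := by
  refine eps_of_gen (tub_of_tube F.T hx).toSbm (fun q S => F.tom.hol q.1 S)
    (fun q y => F.tom.deg q.1 _) (fun i j y hy => ?_)
    (fun q y hy => cop_cov (F.cop q.1 _ hy.1)) (F.gen x hx)
  rw [D.pullLB_g _ hy]
  exact F.tom.tr i.1 j.1 _ ⟨hy.1.1, hy.2.1⟩

end Cover

/-! ### the dual polyvector field -/

theorem hm_mulVec {x : M} (B : Matrix (FI n) (FI n) ℂ) {v : M → FI n → ℂ}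
    (hv : ∀ S, Hm A (fun y => v y S) x) (S : FI n) : Hm A (fun y => (B *ᵥ v y) S) x :=
  Bog.hm_sum Finset.univ (f := fun S' y => B S S' * v y S') fun S' _ => (Hm.const _ x).mul (hv S')

theorem hm_prj {x : M} (r : ℕ) {v : M → FI n → ℂ} (hv : ∀ S, Hm A (fun y => v y S) x)
    (S : FI n) : Hm A (fun y => prj r (v y) S) x := by
  unfold prj
  split_ifs
  · exact hv S
  · exact Hm.const 0 x

namespace Eps

variable (E0 : Eps L T π e u) {i j : A.ι} {x : M}
include E0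

theorem hm (hi : x ∈ (A.e i).source) (S : FI n) : Hm A (fun y => e i y S) x :=
  hm_of_holAt (E0.hol i S) isOpen_univ hi (mem_univ x)

theorem hm_Sbi (hi : x ∈ (A.e i).source) (S : FI n) : Hm A (fun y => (Sbi ℂ n *ᵥ e i y) S) x :=
  hm_mulVec _ (E0.hm hi) S

theorem hol_Sbi (i : A.ι) (S : FI n) : HolAt A i univ fun y => (Sbi ℂ n *ᵥ e i y) S :=
  holAt_of_hm fun _ hi _ => E0.hm_Sbi hi S

theorem cop_Sbi (hi : x ∈ (A.e i).source) : Cop A (fun S y => (Sbi ℂ n *ᵥ e i y) S) x :=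
  cop_of_comb (E0.cop i x hi) (fun S S' _ => Sb ℂ n S S') (fun _ _ => Hm.const _ x) fun S =>
    Eventually.of_forall fun y => (congrFun (Sb_Sbi (e i y)) S).symm

theorem nf_Sbi (hi : x ∈ (A.e i).source) : ¬ ∀ᶠ y in 𝓝 x, Sbi ℂ n *ᵥ e i y = 0 := fun h =>
  cop_not_flat (E0.cop_Sbi hi) fun S => h.mono fun _ hy => congrFun hy S

theorem dg_Sbi {r : ℕ} (hr : p + r = n) : Dg r (Sbi ℂ n *ᵥ e i x) := (E0.deg i x).Sbi hr

theorem tr_Sbi (hij : x ∈ (A.e i).source ∩ (A.e j).source) :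
    Sbi ℂ n *ᵥ e i x =
      ((KB A).g i j x * (L.g i j x)⁻¹) • (Gam (Jm A j i x) *ᵥ (Sbi ℂ n *ᵥ e j x)) := by
  rw [E0.tr i j x hij, Matrix.mulVec_smul, Gam_Sbi (J_J hij), KB_g hij, smul_smul, mul_comm]

/-- the Berezin dual of `e` is a polyvector field with values in `K ⊗ L⁻¹` -/
theorem isV {N' : LB A} (h : ∀ i j, ∀ x ∈ (A.e i).source ∩ (A.e j).source,
    ((KB A)⁻¹ * N').g i j x = (L.g i j x)⁻¹) : IsV N' fun i x => Sbi ℂ n *ᵥ e i x where
  sm i S := by
    have h1 := (E0.hol_Sbi i S).contDiffOn isOpen_univ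
    rwa [preimage_univ, inter_univ] at h1
  tr i j x hij := by
    rw [E0.tr_Sbi hij, ← h i j x hij, LB.mul_g, LB.inv_g,
      mul_inv_cancel_left₀ ((KB A).ne_zero i j x)]

end Eps

/-! ### identity theorems -/

theorem ident_ch [PreconnectedSpace M] {κ : Type*} [Finite κ] {f : A.ι → M → κ → ℂ}
    (hf : ∀ i, ∀ x ∈ (A.e i).source, ∀ S, Hm A (fun y => f i y S) x)
    (tr : ∀ i j, ∀ x ∈ (A.e i).source ∩ (A.e j).source, f j x = 0 → f i x = 0)
    {i₀ : A.ι} {x₀ : M} (h₀ : x₀ ∈ (A.e i₀).source) (h : ∀ᶠ y in 𝓝 x₀, f i₀ y = 0) (i : A.ι) :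
    ∀ x ∈ (A.e i).source, f i x = 0 := by
  let Z : Set M := {x | ∃ i, x ∈ (A.e i).source ∧ ∀ᶠ y in 𝓝 x, f i y = 0}
  have hZ : ∀ {i : A.ι} {x : M}, x ∈ (A.e i).source → x ∈ Z → ∀ᶠ y in 𝓝 x, f i y = 0 := by
    rintro i x hx ⟨j, hj, h⟩
    filter_upwards [h, (A.e i).open_source.mem_nhds hx, (A.e j).open_source.mem_nhds hj]
      with y h1 h2 h3 using tr i j y ⟨h2, h3⟩ h1
  have hZo : IsOpen Z := by
    rw [isOpen_iff_mem_nhds]
    rintro x ⟨j, hj, h⟩
    filter_upwards [eventually_eventually_nhds.2 h, (A.e j).open_source.mem_nhds hj] with y h1 h2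
    exact ⟨j, h2, h1⟩
  have hZc : IsClosed Z := by
    rw [← isOpen_compl_iff, isOpen_iff_mem_nhds]
    intro x hx
    obtain ⟨j, hj⟩ := A.cover x
    obtain ⟨S, hS⟩ := exists_not_flat (τ := f j) fun h => hx ⟨j, hj, h⟩
    filter_upwards [ev_not_flat (hf j x hj S) hS, (A.e j).open_source.mem_nhds hj] with y h1 h2 hy
    exact h1 ((hZ h2 hy).mono fun w hw => by rw [hw]; rfl)
  have h1 : Z = univ := IsClopen.eq_univ ⟨hZc, hZo⟩ ⟨x₀, i₀, h₀, h⟩
  exact fun x hx => (hZ hx (h1 ▸ mem_univ x)).self_of_nhds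

/-- a field parallel to the dual of `e` is a holomorphic multiple of it -/
theorem mul_of_par (E0 : Eps L T π e u) {L1 : LB A}
    (hL : ∀ i j, ∀ x ∈ (A.e i).source ∩ (A.e j).source,
      L1.g i j x = ((KB A)⁻¹ * N).g i j x * L.g i j x)
    {V : A.ι → M → FI n → ℂ} (tr : ∀ i j, ∀ x ∈ (A.e i).source ∩ (A.e j).source,
      V i x = N.g i j x • (Gam (Jm A j i x) *ᵥ V j x))
    (hm : ∀ i, ∀ x ∈ (A.e i).source, ∀ S, Hm A (fun y => V i y S) x)
    (hp : ∀ i, ∀ x ∈ (A.e i).source, Par (V i x) (Sbi ℂ n *ᵥ e i x)) :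
    ∃ s, IsHS L1 univ s ∧ ∀ i, ∀ x ∈ (A.e i).source, V i x = s i x • (Sbi ℂ n *ᵥ e i x) := by
  classical
  let s : A.ι → M → ℂ := fun i x =>
    if x ∈ (A.e i).source then rt A (V i) (fun y => Sbi ℂ n *ᵥ e i y) x else 0
  have key : ∀ i, ∀ x ∈ (A.e i).source, ∀ c : M → ℂ, Hm A c x →
      (∀ᶠ y in 𝓝 x, V i y = c y • (Sbi ℂ n *ᵥ e i y)) → c =ᶠ[𝓝 x] s i := by
    intro i x hi c h1 h2
    filter_upwards [rt_ev (E0.hm_Sbi hi) (E0.nf_Sbi hi) h1 h2, (A.e i).open_source.mem_nhds hi]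
      with y h3 h4
    rw [← h3]
    exact (if_pos h4).symm
  have h1 : ∀ i, ∀ x ∈ (A.e i).source, Hm A (s i) x ∧ V i x = s i x • (Sbi ℂ n *ᵥ e i x) := by
    intro i x hi
    obtain ⟨c, h1, h2⟩ := div_cop (E0.hm_Sbi hi) (hm i x hi) (E0.cop_Sbi hi)
      (((A.e i).open_source.eventually_mem hi).mono (hp i))
    have h3 := key i x hi c h1 h2
    exact ⟨h1.congr h3, h3.self_of_nhds ▸ h2.self_of_nhds⟩
  refine ⟨s, ⟨fun i => holAt_of_hm fun x hi _ => (h1 i x hi).1, fun i x hx => if_neg hx,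
    fun i j x hij _ => ?_⟩, fun i x hi => (h1 i x hi).2⟩
  refine (key i x hij.1 (fun y => L1.g i j y * s j y)
    ((hm_of_holAt (L1.hol i j) (A.e j).open_source hij.1 hij.2).mul (h1 j x hij.2).1)
    ?_).self_of_nhds.symm
  filter_upwards [((A.e i).open_source.inter (A.e j).open_source).mem_nhds hij] with y hy
  rw [tr i j y hy, (h1 j y hy.2).2, E0.tr_Sbi hy, hL i j y hy, Matrix.mulVec_smul, smul_smul,
    smul_smul, LB.mul_g, LB.inv_g]
  congr 1
  have h2 := (KB A).ne_zero i j y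
  have h3 := L.ne_zero i j y
  field_simp

variable [Countable A.ι]

include A in
theorem sec_cnt : SecondCountableTopology M := by
  have : ∀ i, SecondCountableTopology (A.e i).source := fun i =>
    (A.e i).secondCountableTopology_source
  exact TopologicalSpace.secondCountableTopology_of_countable_cover
    (fun i => (A.e i).open_source) (eq_univ_of_forall fun x => mem_iUnion.2 (A.cover x))

variable [T2Space M] [MeasurableSpace M] [BorelSpace M]

/-- the zero set of a non flat holomorphic function is locally null -/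
theorem null_nhds (vol : HM (KB A)⁻¹) {f : M → ℂ} {x : M} (hf : Hm A f x)
    (h0 : ¬ ∀ᶠ y in 𝓝 x, f y = 0) : ∃ O ∈ 𝓝 x, vm vol (O ∩ {y | f y = 0}) = 0 := by
  borelize (Cn n)
  let μ : Measure (Cn n) := Measure.addHaar
  obtain ⟨i, hi⟩ := A.cover x
  obtain ⟨r, hr, h1⟩ := R271.Local821.eventually_null_zero μ (hf i hi)
    (not_eventually.1 fun h => h0 ((ev_iff hi).2 h))
  obtain ⟨W, hW, C, -, h2⟩ := leG_chart vol μ hi _ (ball_mem_nhds _ hr)
  obtain ⟨O, h3, hO, hx⟩ := _root_.mem_nhds_iff.1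
    (inter_mem (inter_mem hW ((A.e i).open_source.mem_nhds hi)) (Bog.hm_ev_cont hf))
  refine ⟨O, hO.mem_nhds hx, ?_⟩
  have h4 : MeasurableSet (O ∩ {y | f y = 0}) := by
    have h5 : ContinuousOn f O := fun y hy => (h3 hy).2.continuousWithinAt
    have h6 := hO.measurableSet.diff
      (h5.isOpen_inter_preimage hO (isOpen_compl_singleton (x := (0 : ℂ)))).measurableSet
    convert h6 using 1
    ext y
    simp only [mem_inter_iff, Set.mem_sdiff, mem_preimage, mem_compl_iff, mem_singleton_iff]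
    exact ⟨fun h => ⟨h.1, fun h' => h'.2 h.2⟩, fun h => ⟨h.1, by_contra fun h' => h.2 ⟨h.1, h'⟩⟩⟩
  have h5 := h2 (indicator {z | f ((A.e i).symm z) = 0} 1)
  rw [lintegral_congr_ae (g := fun _ => 0) (h1.mono fun z hz =>
    indicator_of_notMem (s := {z | f ((A.e i).symm z) = 0}) hz 1), lintegral_zero, mul_zero] at h5
  refine nonpos_iff_eq_zero.1 (le_trans ?_ h5)
  rw [← setLIntegral_one]
  refine le_trans (le_of_eq (setLIntegral_congr_fun h4 fun y hy => ?_))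
    (lintegral_mono_set fun y hy => (h3 hy.1).1.1)
  refine (indicator_of_mem (s := {z | f ((A.e i).symm z) = 0}) ?_ (1 : Cn n → ℝ≥0∞)).symm
  show f ((A.e i).symm (A.e i y)) = 0
  rw [(A.e i).left_inv (h3 hy.1).1.2]
  exact hy.2

/-- holomorphic functions vanishing on a set of positive measure are flat at one of its points -/
theorem flat_of_pos (vol : HM (KB A)⁻¹) {κ : Type*} [Finite κ] {f : M → κ → ℂ} {E : Set M}
    (hE : vm vol E ≠ 0) (hf : ∀ x ∈ E, ∀ j, Hm A (fun y => f y j) x)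
    (h0 : ∀ᵐ x ∂(vm vol), x ∈ E → f x = 0) : ∃ x ∈ E, ∀ᶠ y in 𝓝 x, f y = 0 := by
  have := sec_cnt (A := A)
  by_contra hcon
  refine hE (measure_null_of_locally_null E fun x hx => ?_)
  obtain ⟨j, hj⟩ := exists_not_flat (τ := f) fun h => hcon ⟨x, hx, h⟩
  obtain ⟨O, h1, h2⟩ := null_nhds vol (hf x hx j) hj
  refine ⟨E ∩ O, inter_mem_nhdsWithin E h1, measure_mono_null (fun y hy => ?_)
    (measure_union_null h2 (ae_iff.1 h0))⟩
  by_cases h : f y = 0
  · exact Or.inl ⟨hy.2, congrFun h j⟩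
  · exact Or.inr fun h' => h (h' hy.1)

/-- **fibre-null holomorphic polyvector fields**, one chart form -/
theorem par1 [PreconnectedSpace M] (H : Sbm A T π) (E0 : Eps L T π e u) {r : ℕ} (hr : p + r = n)
    {L1 : LB A} (hL : ∀ i j, ∀ x ∈ (A.e i).source ∩ (A.e j).source,
      L1.g i j x = ((KB A)⁻¹ * N).g i j x * L.g i j x)
    {V : A.ι → M → FI n → ℂ} (hV : IsV N V) (hol : ∀ i S, HolAt A i univ fun x => V i x S)
    (vol : HM (KB A)⁻¹) {E : Set M} (hE : vm vol E ≠ 0) {i : A.ι}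
    (hET : E ⊆ T ∩ (A.e i).source)
    (null : ∀ k, ∀ᵐ x ∂(vm vol), x ∈ E → iW (dp A i π x k) *ᵥ V i x = 0) :
    ∃ s, IsHS L1 univ s ∧ ∀ i, ∀ x ∈ (A.e i).source,
      prj r (V i x) = s i x • (Sbi ℂ n *ᵥ e i x) := by
  have hm : ∀ i, ∀ x ∈ (A.e i).source, ∀ S, Hm A (fun y => prj r (V i y) S) x :=
    fun i x hi => hm_prj r fun S => hm_of_holAt (hol i S) isOpen_univ hi (mem_univ x)
  have tr : ∀ i j, ∀ x ∈ (A.e i).source ∩ (A.e j).source,
      prj r (V i x) = N.g i j x • (Gam (Jm A j i x) *ᵥ prj r (V j x)) := fun i j x hij => by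
    rw [hV.tr i j x hij, prj_smul, Gam_prj]
  refine mul_of_par E0 hL tr hm ?_
  let f : A.ι → M → FI n × FI n → ℂ := fun i y S =>
    prj r (V i y) S.1 * (Sbi ℂ n *ᵥ e i y) S.2 - prj r (V i y) S.2 * (Sbi ℂ n *ᵥ e i y) S.1
  have hf : ∀ i y, f i y = 0 ↔ Par (prj r (V i y)) (Sbi ℂ n *ᵥ e i y) := fun i y =>
    ⟨fun h S S' => sub_eq_zero.1 (congrFun h (S, S')),
      fun h => funext fun S => sub_eq_zero.2 (h S.1 S.2)⟩
  have hfm : ∀ i, ∀ x ∈ (A.e i).source, ∀ S, Hm A (fun y => f i y S) x := fun i x hi S =>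
    ((hm i x hi _).mul (E0.hm_Sbi hi _)).sub ((hm i x hi _).mul (E0.hm_Sbi hi _))
  obtain ⟨x₀, h1, h2⟩ := flat_of_pos vol (f := f i) hE (fun x hx => hfm i x (hET hx).2) (by
    filter_upwards [eventually_all.2 null] with x hx hxE
    obtain ⟨w, hw⟩ := H.dual (hET hxE).1 (hET hxE).2
    obtain ⟨c, hc⟩ := eq_smul_Sbi hr hw (dg_prj r (V i x)) fun k => iW_prj (hx k hxE) r
    rw [hf, hc, ← dW_dp, E0.eq i x (hET hxE).1 (hET hxE).2, Matrix.mulVec_smul, smul_smul]
    exact Bog.par_smul _ _)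
  refine fun j x hj => (hf j x).1 (ident_ch hfm (fun i j x hij h => ?_) (hET h1).2 h2 j x hj)
  rw [hf] at h ⊢
  rw [tr i j x hij, E0.tr_Sbi hij]
  intro S S'
  have h3 := h.mulVec (Gam (Jm A j i x)) S S'
  simp only [Pi.smul_apply, smul_eq_mul]
  linear_combination (N.g i j x * ((KB A).g i j x * (L.g i j x)⁻¹)) * h3

/-- **fibre-null holomorphic polyvector fields** -/
theorem par [PreconnectedSpace M] (H : Sbm A T π) (E0 : Eps L T π e u) {r : ℕ} (hr : p + r = n)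
    {L1 : LB A} (hL : ∀ i j, ∀ x ∈ (A.e i).source ∩ (A.e j).source,
      L1.g i j x = ((KB A)⁻¹ * N).g i j x * L.g i j x)
    {V : A.ι → M → FI n → ℂ} (hV : IsV N V) (hol : ∀ i S, HolAt A i univ fun x => V i x S)
    (vol : HM (KB A)⁻¹) {E : Set M} (hE : vm vol E ≠ 0) (hET : E ⊆ T)
    (null : ∀ i k, ∀ᵐ x ∂(vm vol), x ∈ E → x ∈ (A.e i).source →
      iW (dp A i π x k) *ᵥ V i x = 0) :
    ∃ s, IsHS L1 univ s ∧ ∀ i, ∀ x ∈ (A.e i).source,
      prj r (V i x) = s i x • (Sbi ℂ n *ᵥ e i x) := by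
  obtain ⟨i, hi⟩ : ∃ i, vm vol (E ∩ (A.e i).source) ≠ 0 := by
    by_contra hcon
    push Not at hcon
    refine hE (measure_mono_null (fun x hx => ?_) (measure_iUnion_null hcon))
    obtain ⟨i, hi⟩ := A.cover x
    exact mem_iUnion.2 ⟨i, hx, hi⟩
  exact par1 H E0 hr hL hV hol vol hi (fun x hx => ⟨hET hx.1, hx.2⟩) fun k =>
    (null i k).mono fun x hx h => hx h.1 h.2

end

end Crest.Agent.X261.Jet.Tb
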