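import Crest.Agent.X261.Jet.Main
import Crest.Agent.X261.Jet.TbE

/-!
# Row 261, package JET (helper6), file `Fin`: `Top.JetStmt` and `Sk.JetK`, unconditionally
-/

set_option autoImplicit false

namespace Crest.Agent.X261.Jet.Mn

theorem epsStmt : EpsStmt := by
  intro n p X _ B G _ D F x hx
  exact Tb.exists_eps F hx

theorem parStmt : ParStmt := by
  intro n p M _ A T π L N e u _ _ _ _ _ H E0 r hr L1 hL V hV hol vol E hE i hET null
  exact Tb.par1 H E0 hr hL hV hol vol hE hET null

theorem jetStmt : Top.JetStmt := jetStmt_of epsStmt parStmt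

theorem jetK : Sk.JetK := jetK_of epsStmt parStmt

end Crest.Agent.X261.Jet.Mn
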