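import Crest.Agent.X261.Psh.Mean
import Crest.Agent.X261.Psh.Loc
import Crest.Agent.X261.Psh.Hol71
import Crest.Agent.T223.Hm2_77

/-!
# Row 261, JET/Tube (helper66), file `TbB`: submersions, local comparison of measures

* `LeG μ x g ν y`, `GeG μ x g ν y` : the push-forward of `μ` by the germ of `g` at `x` is locally
  bounded above (below) by a multiple of `ν` (no measurability is needed);
* `exists_prod` : product charts for analytic submersions; `leG_subm`, `geG_subm`;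
* `leG_chart`, `geG_chart` : the volume `vm vol` against a Haar measure in a chart;
* `psh_smax` : strong maximum principle; `const_comp` : the abstract compactness argument.
-/

set_option autoImplicit false
set_option linter.unusedSectionVars false

open Set Filter Topology MeasureTheory Metric Module
open scoped ENNReal NNReal

namespace Crest.Agent.X261.Jet.Tb

noncomputable section

/-! ### germs of maps between measured spaces -/

section Germ

variable {X Y Z : Type*} [TopologicalSpace X] [TopologicalSpace Y] [TopologicalSpace Z]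
  [MeasurableSpace X] [MeasurableSpace Y] [MeasurableSpace Z]

/-- `g_* μ ≤ C ν` near `x` -/
def LeG (μ : Measure X) (x : X) (g : X → Y) (ν : Measure Y) (y : Y) : Prop :=
  ∀ W ∈ 𝓝 y, ∃ N ∈ 𝓝 x, ∃ C : ℝ≥0∞, C < ⊤ ∧ ∀ Φ : Y → ℝ≥0∞,
    ∫⁻ z in N, Φ (g z) ∂μ ≤ C * ∫⁻ w in W, Φ w ∂ν

/-- `ν ≤ C g_* μ` near `y` -/
def GeG (μ : Measure X) (x : X) (g : X → Y) (ν : Measure Y) (y : Y) : Prop :=
  ∀ N ∈ 𝓝 x, ∃ W ∈ 𝓝 y, ∃ C : ℝ≥0∞, C < ⊤ ∧ ∀ Φ : Y → ℝ≥0∞,
    ∫⁻ w in W, Φ w ∂ν ≤ C * ∫⁻ z in N, Φ (g z) ∂μ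

variable {μ : Measure X} {ν : Measure Y} {ρ : Measure Z} {x : X} {y : Y} {z : Z}
  {g g' : X → Y} {k : Y → Z}

theorem LeG.comp (h' : LeG ν y k ρ z) (h : LeG μ x g ν y) : LeG μ x (fun a => k (g a)) ρ z := by
  intro W hW
  obtain ⟨N, hN, C, hC, H⟩ := h' W hW
  obtain ⟨N', hN', C', hC', H'⟩ := h N hN
  refine ⟨N', hN', C' * C, ENNReal.mul_lt_top hC' hC, fun Φ => ?_⟩
  refine (H' fun b => Φ (k b)).trans ?_
  rw [mul_assoc]
  gcongr
  exact H Φ

theorem GeG.comp (h' : GeG ν y k ρ z) (h : GeG μ x g ν y) : GeG μ x (fun a => k (g a)) ρ z := by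
  intro N hN
  obtain ⟨W, hW, C, hC, H⟩ := h N hN
  obtain ⟨W', hW', C', hC', H'⟩ := h' W hW
  refine ⟨W', hW', C' * C, ENNReal.mul_lt_top hC' hC, fun Φ => ?_⟩
  refine (H' Φ).trans ?_
  rw [mul_assoc]
  gcongr
  exact H fun b => Φ (k b)

variable [OpensMeasurableSpace X]

theorem lint_congr_on {O N : Set X} (hO : IsOpen O) (hN : N ⊆ O) {F F' : X → ℝ≥0∞}
    (h : ∀ a ∈ O, F a = F' a) : ∫⁻ a in N, F a ∂μ = ∫⁻ a in N, F' a ∂μ :=
  lintegral_congr_ae (Filter.Eventually.mono (ae_mono (Measure.restrict_mono hN le_rfl)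
    (ae_restrict_mem hO.measurableSet)) fun a ha => h a ha)

theorem lint_mono_on {O N : Set X} (hO : MeasurableSet O) (hN : N ⊆ O) {F F' : X → ℝ≥0∞}
    (h : ∀ a ∈ O, F a ≤ F' a) : ∫⁻ a in N, F a ∂μ ≤ ∫⁻ a in N, F' a ∂μ :=
  lintegral_mono_ae (Filter.Eventually.mono (ae_mono (Measure.restrict_mono hN le_rfl)
    (ae_restrict_mem hO)) fun a ha => h a ha)

theorem LeG.congr (h : LeG μ x g ν y) (e : g =ᶠ[𝓝 x] g') : LeG μ x g' ν y := by
  intro W hW
  obtain ⟨N, hN, C, hC, H⟩ := h W hW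
  obtain ⟨O, h1, h2, h3⟩ := eventually_nhds_iff.1 e
  refine ⟨N ∩ O, inter_mem hN (h2.mem_nhds h3), C, hC, fun Φ => le_trans ?_ (H Φ)⟩
  rw [lint_congr_on h2 inter_subset_right (F' := fun a => Φ (g a)) fun a ha => by rw [h1 a ha]]
  exact lintegral_mono_set inter_subset_left

theorem GeG.congr (h : GeG μ x g ν y) (e : g =ᶠ[𝓝 x] g') : GeG μ x g' ν y := by
  intro N hN
  obtain ⟨O, h1, h2, h3⟩ := eventually_nhds_iff.1 e
  obtain ⟨W, hW, C, hC, H⟩ := h (N ∩ O) (inter_mem hN (h2.mem_nhds h3))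
  refine ⟨W, hW, C, hC, fun Φ => (H Φ).trans ?_⟩
  rw [lint_congr_on h2 inter_subset_right (F' := fun a => Φ (g' a)) fun a ha => by rw [h1 a ha]]
  gcongr
  exact inter_subset_left

/-- from points to compact sets -/
theorem lint_cpt {K : Set X} (hK : IsCompact K) (h : ∀ a ∈ K, LeG μ a g ν (g a)) {W : Set Y}
    (hW : ∀ a ∈ K, W ∈ 𝓝 (g a)) :
    ∃ C : ℝ≥0∞, C < ⊤ ∧ ∀ Φ : Y → ℝ≥0∞, ∫⁻ a in K, Φ (g a) ∂μ ≤ C * ∫⁻ w in W, Φ w ∂ν := by
  refine hK.induction_on (p := fun K => ∃ C : ℝ≥0∞, C < ⊤ ∧ ∀ Φ : Y → ℝ≥0∞,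
    ∫⁻ a in K, Φ (g a) ∂μ ≤ C * ∫⁻ w in W, Φ w ∂ν) ⟨0, by simp, fun Φ => by simp⟩ ?_ ?_ ?_
  · rintro s t hst ⟨C, hC, H⟩
    exact ⟨C, hC, fun Φ => (lintegral_mono_set hst).trans (H Φ)⟩
  · rintro s t ⟨C, hC, H⟩ ⟨C', hC', H'⟩
    refine ⟨C + C', ENNReal.add_lt_top.2 ⟨hC, hC'⟩, fun Φ => (lintegral_union_le _ _ _).trans ?_⟩
    rw [add_mul]
    exact add_le_add (H Φ) (H' Φ)
  · intro a ha
    obtain ⟨N, hN, H⟩ := h a ha W (hW a ha)
    exact ⟨N, mem_nhdsWithin_of_mem_nhds hN, H⟩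

end Germ

/-! ### Lipschitz maps and Haar measures -/

section Haar

variable {E E' : Type*} [NormedAddCommGroup E] [NormedSpace ℝ E] [FiniteDimensional ℝ E]
  [MeasurableSpace E] [BorelSpace E] [NormedAddCommGroup E'] [NormedSpace ℝ E']
  [FiniteDimensional ℝ E'] [MeasurableSpace E'] [BorelSpace E']
  (μ : Measure E) [μ.IsAddHaarMeasure] (μ' : Measure E') [μ'.IsAddHaarMeasure]

theorem lip_le (hd : finrank ℝ E = finrank ℝ E') {Θ : E → E'} {N : Set E} {c : ℝ≥0}
    (h : LipschitzOnWith c Θ N) : ∃ C : ℝ≥0∞, C < ⊤ ∧ ∀ S ⊆ N, μ' (Θ '' S) ≤ C * μ S := by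
  have h1 := Measure.isAddLeftInvariant_eq_smul μ' (μH[finrank ℝ E'] : Measure E')
  have h2 := Measure.isAddLeftInvariant_eq_smul (μH[finrank ℝ E] : Measure E) μ
  set a := μ'.addHaarScalarFactor (μH[finrank ℝ E'] : Measure E')
  set b := (μH[finrank ℝ E] : Measure E).addHaarScalarFactor μ
  refine ⟨a * ((c : ℝ≥0∞) ^ (finrank ℝ E : ℝ) * b), ?_, fun S hS => ?_⟩
  · exact ENNReal.mul_lt_top ENNReal.coe_lt_top (ENNReal.mul_lt_top
      (ENNReal.rpow_lt_top_of_nonneg (Nat.cast_nonneg _) ENNReal.coe_ne_top) ENNReal.coe_lt_top)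
  · have h3 := (h.mono hS).hausdorffMeasure_image_le (d := finrank ℝ E) (Nat.cast_nonneg _)
    have h4 : μ' (Θ '' S) = a * μH[finrank ℝ E] (Θ '' S) := by
      rw [hd]
      conv_lhs => rw [h1]
      rfl
    have h5 : μH[finrank ℝ E] S = b * μ S := by
      conv_lhs => rw [h2]
      rfl
    rw [h4, mul_assoc, mul_assoc, ← h5]
    gcongr

theorem lint_lip (hd : finrank ℝ E = finrank ℝ E') {Θ : E → E'} {N : Set E} {c : ℝ≥0}
    (h : LipschitzOnWith c Θ N) (hN : MeasurableSet N) :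
    ∃ C : ℝ≥0∞, C < ⊤ ∧ ∀ W ⊆ Θ '' N, ∀ Φ : E' → ℝ≥0∞,
      ∫⁻ w in W, Φ w ∂μ' ≤ C * ∫⁻ z in N, Φ (Θ z) ∂μ := by
  obtain ⟨C, hC, H⟩ := lip_le μ μ' hd h
  refine ⟨C, hC, fun W hW Φ => ?_⟩
  have hm : AEMeasurable Θ (μ.restrict N) := h.continuousOn.aemeasurable hN
  have h1 : μ'.restrict W ≤ C • (μ.restrict N).map Θ := by
    rw [Measure.le_iff]
    intro s hs
    rw [Measure.restrict_apply hs, Measure.smul_apply, Measure.map_apply_of_aemeasurable hm hs,
      Measure.restrict_apply' hN, smul_eq_mul]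
    refine le_trans (measure_mono ?_) (H _ inter_subset_right)
    rintro w ⟨h1, h2⟩
    obtain ⟨z, hz, rfl⟩ := hW h2
    exact ⟨z, ⟨h1, hz⟩, rfl⟩
  refine (lintegral_mono' h1 le_rfl).trans ?_
  rw [lintegral_smul_measure, smul_eq_mul]
  gcongr
  exact lintegral_map_le _ _

end Haar

/-! ### product charts -/

section Subm

variable {V F : Type} [NormedAddCommGroup V] [NormedSpace ℂ V] [FiniteDimensional ℂ V]
  [NormedAddCommGroup F] [NormedSpace ℂ F] [FiniteDimensional ℂ F]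

/-- product chart for an analytic submersion -/
theorem exists_prod {g : V → F} {t : V} (hg : AnalyticAt ℂ g t)
    (hs : Function.Surjective (fderiv ℂ g t)) {N : Set V} (hN : N ∈ 𝓝 t) :
    ∃ (r : ℕ) (φ : OpenPartialHomeomorph V (F × (Fin r → ℂ))) (ρ : ℝ), 0 < ρ ∧ t ∈ φ.source ∧
      (∀ z, (φ z).1 = g z) ∧ AnalyticAt ℂ φ t ∧
      finrank ℂ V = finrank ℂ (F × (Fin r → ℂ)) ∧ ball (φ t) ρ ⊆ φ.target ∧
      ∀ q ∈ ball (φ t) ρ, AnalyticAt ℂ φ.symm q ∧ φ.symm q ∈ N := by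
  have : CompleteSpace V := FiniteDimensional.complete ℂ V
  set L := fderiv ℂ g t with hL
  obtain ⟨A, hA⟩ := (L : V →ₗ[ℂ] F).exists_rightInverse_of_surjective
    (LinearMap.range_eq_top.2 hs)
  have hA' : Function.RightInverse (LinearMap.toContinuousLinearMap A) L :=
    fun x => LinearMap.congr_fun hA x
  let κ : L.ker ≃L[ℂ] (Fin (finrank ℂ L.ker) → ℂ) := ContinuousLinearEquiv.ofFinrankEq (by simp)
  let e : V ≃L[ℂ] F × (Fin (finrank ℂ L.ker) → ℂ) :=
    (ContinuousLinearEquiv.equivOfRightInverse L _ hA').trans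
      ((ContinuousLinearEquiv.refl ℂ F).prodCongr κ)
  let P : V →L[ℂ] (Fin (finrank ℂ L.ker) → ℂ) := (ContinuousLinearMap.snd ℂ _ _).comp
    (e : V →L[ℂ] F × (Fin (finrank ℂ L.ker) → ℂ))
  have h1 : AnalyticAt ℂ (fun z => (g z, P z)) t := hg.prod (P.analyticAt t)
  have h2 : HasStrictFDerivAt (fun z => (g z, P z))
      (e : V →L[ℂ] F × (Fin (finrank ℂ L.ker) → ℂ)) t :=
    hg.hasStrictFDerivAt.prodMk P.hasStrictFDerivAt
  let φ := h2.toOpenPartialHomeomorph _
  have h3 : t ∈ φ.source := h2.mem_toOpenPartialHomeomorph_source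
  have h4 : AnalyticAt ℂ φ.symm (φ t) := φ.analyticAt_symm' h3 h1 h2.hasFDerivAt.fderiv
  have h5 : ∀ᶠ q in 𝓝 (φ t), φ.symm q ∈ N := by
    refine h4.continuousAt.eventually ?_
    rwa [φ.left_inv h3]
  obtain ⟨ρ, hρ, H⟩ := Metric.eventually_nhds_iff_ball.1
    ((h4.eventually_analyticAt.and h5).and (φ.open_target.mem_nhds (φ.map_source h3)))
  exact ⟨_, φ, ρ, hρ, h3, fun _ => rfl, h1, e.toLinearEquiv.finrank_eq, fun q hq => (H q hq).2,
    fun q hq => (H q hq).1⟩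

variable [MeasurableSpace V] [BorelSpace V] [MeasurableSpace F] [BorelSpace F]
  (μ : Measure V) [μ.IsAddHaarMeasure] (ν : Measure F) [ν.IsAddHaarMeasure]

theorem finrank_real_eq {V' : Type*} [NormedAddCommGroup V'] [NormedSpace ℂ V']
    [FiniteDimensional ℂ V'] (h : finrank ℂ V = finrank ℂ V') : finrank ℝ V = finrank ℝ V' := by
  rw [finrank_real_of_complex V, finrank_real_of_complex V', h]

theorem leG_subm {g : V → F} {t : V} (hg : AnalyticAt ℂ g t)
    (hs : Function.Surjective (fderiv ℂ g t)) : LeG μ t g ν (g t) := by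
  intro W hW
  obtain ⟨r, φ, ρ, hρ, h1, h2, h3, h4, h5, h6⟩ := exists_prod hg hs univ_mem
  have : (ν.prod (volume : Measure (Fin r → ℂ))).IsAddHaarMeasure :=
    Measure.prod.instIsAddHaarMeasure _ _
  obtain ⟨c, S, hS, hL⟩ :=
    (h6 _ (mem_ball_self hρ)).1.hasStrictFDerivAt.exists_lipschitzOnWith
  have hW' : Prod.fst ⁻¹' W ∈ 𝓝 (φ t) := continuous_fst.continuousAt.preimage_mem_nhds (by
    rwa [h2])
  obtain ⟨δ, hδ, hB⟩ := Metric.mem_nhds_iff.1 (inter_mem (inter_mem hS hW') (ball_mem_nhds _ hρ))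
  obtain ⟨C, hC, H⟩ := lint_lip (ν.prod (volume : Measure (Fin r → ℂ))) μ
    (finrank_real_eq h4).symm (hL.mono fun q hq => (hB hq).1.1) measurableSet_ball
  refine ⟨φ.symm '' ball (φ t) δ, ?_, C * volume (ball (φ t).2 δ),
    ENNReal.mul_lt_top hC measure_ball_lt_top, fun Φ => ?_⟩
  · have := φ.symm.image_mem_nhds (φ.map_source h1) (ball_mem_nhds _ hδ)
    rwa [φ.left_inv h1] at this
  · refine (H _ subset_rfl fun z => Φ (g z)).trans ?_
    rw [mul_assoc]
    gcongr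
    rw [lint_congr_on isOpen_ball subset_rfl (F' := fun q => Φ q.1) fun q hq => by
      rw [← h2, φ.right_inv (h5 (hB hq).2)], ← ball_prod_same, ← Measure.prod_restrict]
    refine (lintegral_prod_le _).trans ?_
    simp only [lintegral_const, Measure.restrict_apply_univ]
    rw [lintegral_mul_const' _ _ measure_ball_lt_top.ne, mul_comm]
    gcongr
    intro y hy
    exact (hB (a := (y, (φ t).2)) (by
      rw [← ball_prod_same]; exact ⟨hy, mem_ball_self hδ⟩)).1.2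

theorem geG_subm {g : V → F} {t : V} (hg : AnalyticAt ℂ g t)
    (hs : Function.Surjective (fderiv ℂ g t)) : GeG μ t g ν (g t) := by
  intro N hN
  obtain ⟨r, φ, ρ, hρ, h1, h2, h3, h4, h5, h6⟩ := exists_prod hg hs univ_mem
  have : (ν.prod (volume : Measure (Fin r → ℂ))).IsAddHaarMeasure :=
    Measure.prod.instIsAddHaarMeasure _ _
  obtain ⟨c, S, hS, hL⟩ := h3.hasStrictFDerivAt.exists_lipschitzOnWith
  obtain ⟨ε, hε, hB⟩ := Metric.mem_nhds_iff.1 (inter_mem hS hN)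
  obtain ⟨C, hC, H⟩ := lint_lip μ (ν.prod (volume : Measure (Fin r → ℂ)))
    (finrank_real_eq h4) (hL.mono fun q hq => (hB hq).1) measurableSet_ball
  obtain ⟨δ, hδ, hD⟩ := Metric.mem_nhds_iff.1 (φ.image_mem_nhds h1 (ball_mem_nhds _ hε))
  have h0 : volume (ball (φ t).2 δ) ≠ 0 := (measure_ball_pos _ _ hδ).ne'
  refine ⟨ball (g t) δ, ball_mem_nhds _ hδ, (volume (ball (φ t).2 δ))⁻¹ * C,
    ENNReal.mul_lt_top (ENNReal.inv_lt_top.2 (pos_iff_ne_zero.2 h0)) hC, fun Φ => ?_⟩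
  have h7 := H _ hD fun q => Φ q.1
  have h8 : volume (ball (φ t).2 δ) * ∫⁻ w in ball (g t) δ, Φ w ∂ν ≤
      ∫⁻ q in ball (φ t) δ, Φ q.1 ∂(ν.prod (volume : Measure (Fin r → ℂ))) := by
    rw [← ball_prod_same, ← Measure.prod_restrict, h2]
    refine le_trans (le_of_eq ?_) (lintegral_map_le Φ Prod.fst)
    rw [Measure.map_fst_prod, lintegral_smul_measure, Measure.restrict_apply_univ, smul_eq_mul]
  rw [mul_assoc, ← ENNReal.mul_le_iff_le_inv h0 measure_ball_lt_top.ne]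
  refine h8.trans (h7.trans ?_)
  simp only [h2]
  gcongr
  exact fun q hq => (hB hq).2

end Subm

/-! ### charts -/

section Chart

open Crest.Agent.R275.Geo Crest.Agent.R275.Core144 Crest.Agent.R273.Defs_333
open Crest.Agent.R273.Vm_333 Crest.Agent.T223.Hm

variable {n : ℕ} {M : Type} [TopologicalSpace M] {A : Atl n M} [Countable A.ι]
  [MeasurableSpace M] [BorelSpace M] (vol : HM (KB A)⁻¹) {i : A.ι} {x : M}

theorem lint_cz {O : Set (Fin n → ℂ)} (hO : IsOpen O) (hOT : O ⊆ Tz A i)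
    (Φ : (Fin n → ℂ) → ℝ≥0∞) :
    ∫⁻ y in (A.e i).source ∩ cz A i ⁻¹' O, Φ (cz A i y) ∂(vm vol) =
      ∫⁻ z in O, rz vol i z * Φ z := by
  have hm : MeasurableSet ((A.e i).source ∩ cz A i ⁻¹' O) :=
    ((contOn_cz i).isOpen_inter_preimage (A.e i).open_source hO).measurableSet
  have e1 : ∫⁻ z in O, rz vol i z * Φ z = ∫⁻ z, O.indicator Φ z ∂(nz vol i) := by
    rw [lintegral_indicator hO.measurableSet]
    unfold nz
    rw [setLIntegral_withDensity_eq_setLIntegral_mul_non_measurable₀ _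
      ((aem_rz vol i).restrict) _ hO.measurableSet
      (Eventually.of_forall fun _ => ENNReal.ofReal_lt_top),
      Measure.restrict_restrict hO.measurableSet, inter_eq_left.2 hOT]
    rfl
  have e2 : ∫⁻ y in (A.e i).source ∩ cz A i ⁻¹' O, Φ (cz A i y) ∂(vm vol) =
      ∫⁻ y in (A.e i).source, O.indicator Φ (cz A i y) ∂(vm vol) := by
    rw [← inter_eq_left.2 (inter_subset_left (s := (A.e i).source) (t := cz A i ⁻¹' O)),
      ← Measure.restrict_restrict hm, ← lintegral_indicator hm]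
    refine lint_congr_on (A.e i).open_source subset_rfl fun y hy => ?_
    by_cases h : cz A i y ∈ O
    · rw [indicator_of_mem h, indicator_of_mem (mem_inter hy h)]
    · rw [indicator_of_notMem h, indicator_of_notMem fun h' => h h'.2]
  rw [e1, e2]
  refine le_antisymm ?_ ?_
  · rw [← map_sz]
    refine (lintegral_map_le _ _).trans (le_of_eq (lintegral_congr_ae ?_))
    refine (nz_ac vol i).ae_le ?_
    filter_upwards [ae_restrict_mem (isOpen_Tz i).measurableSet] with z hz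
    rw [cz_sz hz]
  · rw [← map_cz]
    exact lintegral_map_le _ _

theorem ev_rz (hx : x ∈ (A.e i).source) : ∃ c : ℝ, 0 < c ∧ ∀ᶠ z in 𝓝 (cz A i x),
    z ∈ Tz A i ∧ ENNReal.ofReal c ≤ rz vol i z ∧ rz vol i z ≤ ENNReal.ofReal (3 * c) := by
  have h1 := (isOpen_Tz i).mem_nhds (cz_mem hx)
  have h2 := (contOn_vz vol i).continuousAt h1
  have h3 : 0 < vol.w i (sz A i (cz A i x)) := vol.pos i _ (sz_mem (cz_mem hx))
  refine ⟨vol.w i (sz A i (cz A i x)) / 2, half_pos h3, ?_⟩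
  filter_upwards [h1, h2.eventually (lt_mem_nhds (half_lt_self h3)),
    h2.eventually (gt_mem_nhds (show vol.w i (sz A i (cz A i x)) <
      3 * (vol.w i (sz A i (cz A i x)) / 2) by linarith))] with z a b c
  exact ⟨a, ENNReal.ofReal_le_ofReal b.le, ENNReal.ofReal_le_ofReal c.le⟩

theorem leG_cz (hx : x ∈ (A.e i).source) : LeG (vm vol) x (cz A i) volume (cz A i x) := by
  intro W hW
  obtain ⟨c, -, H⟩ := ev_rz vol hx
  obtain ⟨O, h1, h2, h3⟩ := _root_.mem_nhds_iff.1 (inter_mem hW H)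
  refine ⟨(A.e i).source ∩ cz A i ⁻¹' O, ((contOn_cz i).isOpen_inter_preimage
    (A.e i).open_source h2).mem_nhds ⟨hx, h3⟩, ENNReal.ofReal (3 * c), ENNReal.ofReal_lt_top,
    fun Φ => ?_⟩
  rw [lint_cz vol h2 fun z hz => (h1 hz).2.1, ← lintegral_const_mul' _ _ ENNReal.ofReal_ne_top]
  refine le_trans (lint_mono_on h2.measurableSet subset_rfl fun z hz => ?_)
    (lintegral_mono_set fun z hz => (h1 hz).1)
  gcongr
  exact (h1 hz).2.2.2

theorem geG_cz (hx : x ∈ (A.e i).source) : GeG (vm vol) x (cz A i) volume (cz A i x) := by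
  intro N hN
  obtain ⟨c, hc, H⟩ := ev_rz vol hx
  have hN' : sz A i ⁻¹' N ∈ 𝓝 (cz A i x) :=
    ((contOn_sz i).continuousAt ((isOpen_Tz i).mem_nhds (cz_mem hx))).preimage_mem_nhds
      (by rwa [sz_cz hx])
  obtain ⟨O, h1, h2, h3⟩ := _root_.mem_nhds_iff.1 (inter_mem hN' H)
  have h0 : ENNReal.ofReal c ≠ 0 := (ENNReal.ofReal_pos.2 hc).ne'
  refine ⟨O, h2.mem_nhds h3, (ENNReal.ofReal c)⁻¹, ENNReal.inv_lt_top.2 (pos_iff_ne_zero.2 h0),
    fun Φ => ?_⟩
  rw [← ENNReal.mul_le_iff_le_inv h0 ENNReal.ofReal_ne_top,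
    ← lintegral_const_mul' _ _ ENNReal.ofReal_ne_top]
  refine le_trans (lint_mono_on (F' := fun z => rz vol i z * Φ z) h2.measurableSet subset_rfl
    fun z hz => ?_) ?_
  · gcongr
    exact (h1 hz).2.2.1
  · rw [← lint_cz vol h2 fun z hz => (h1 hz).2.1]
    refine lintegral_mono_set fun y hy => ?_
    have := (h1 hy.2).1
    rwa [mem_preimage, sz_cz hy.1] at this

variable [MeasurableSpace (Cn n)] [BorelSpace (Cn n)] (μ : Measure (Cn n)) [μ.IsAddHaarMeasure]

theorem an_toLp (z : Fin n → ℂ) : AnalyticAt ℂ (fun z : Fin n → ℂ => (WithLp.toLp 2 z : Cn n)) z ∧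
    Function.Surjective (fderiv ℂ (fun z : Fin n → ℂ => (WithLp.toLp 2 z : Cn n)) z) := by
  let e := (EuclideanSpace.equiv (Fin n) ℂ).symm
  refine ⟨(e : (Fin n → ℂ) →L[ℂ] Cn n).analyticAt z, ?_⟩
  have : fderiv ℂ (fun z : Fin n → ℂ => (WithLp.toLp 2 z : Cn n)) z = e := e.fderiv
  rw [this]
  exact e.surjective

theorem leG_chart (hx : x ∈ (A.e i).source) : LeG (vm vol) x (A.e i) μ (A.e i x) :=
  (leG_subm volume μ (an_toLp _).1 (an_toLp _).2).comp (leG_cz vol hx)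

theorem geG_chart (hx : x ∈ (A.e i).source) : GeG (vm vol) x (A.e i) μ (A.e i x) :=
  (geG_subm volume μ (an_toLp _).1 (an_toLp _).2).comp (geG_cz vol hx)

end Chart

/-! ### maximum principle -/

section Max

open Crest.Agent.X261.Psh

/-- strong maximum principle -/
theorem psh_smax {E : Type*} [NormedAddCommGroup E] [NormedSpace ℂ E] [FiniteDimensional ℂ E]
    {D : Set E} {u : E → EReal} (h : IsPsh D u) (hD : IsOpen D) {z : E} (hz : z ∈ D)
    (hm : ∀ᶠ y in 𝓝 z, u y ≤ u z) : ∀ᶠ y in 𝓝 z, u y = u z := by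
  borelize E
  let μ : Measure E := Measure.addHaar
  induction hu : u z with
  | bot => exact hm.mono fun y hy => le_bot_iff.1 (hu ▸ hy)
  | top => exact absurd hu (h.lt_top z hz).ne
  | coe a =>
    rw [hu] at hm
    obtain ⟨r, hr, hB⟩ := Metric.mem_nhds_iff.1 (inter_mem (hD.mem_nhds hz) hm)
    have h1 := h.lint_ball μ hD (fun y hy => (hB hy).1) fun y hy => (hB hy).2
    rw [hu, cst_coe, sub_self, ENNReal.ofReal_zero, mul_zero, nonpos_iff_eq_zero] at h1
    replace h1 := (lintegral_eq_zero_iff' ((measurable_cst a).comp_aemeasurable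
        (h.aemeasurable hD μ measurableSet_ball fun y hy => (hB hy).1))).1 h1
    have h2 : ∀ᵐ y ∂μ, y ∈ ball z r → (a : EReal) ≤ u y := by
      refine (ae_restrict_iff' measurableSet_ball).1 (h1.mono fun y hy => ?_)
      have := le_of_cst_le (C := a) (a := u y) le_rfl (by
        rw [ENNReal.ofReal_zero]; exact le_of_eq hy)
      simpa using this
    filter_upwards [ball_mem_nhds z hr] with y hy
    refine le_antisymm (hB hy).2 ?_
    by_contra hlt
    push Not at hlt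
    have h3 : ∀ᶠ w in 𝓝 y, u w < a := by
      have := h.usc y (hB hy).1 _ hlt
      rwa [hD.nhdsWithin_eq (hB hy).1] at this
    have h4 : μ {w | w ∈ ball z r ∧ u w < a} = 0 := by
      refine measure_mono_null (fun w hw => ?_) (ae_iff.1 h2)
      exact fun hw' => absurd (hw' hw.1) (not_le.2 hw.2)
    exact (Measure.measure_pos_of_mem_nhds μ
      (Filter.Eventually.and (isOpen_ball.mem_nhds hy) h3)).ne' h4

/-- a function with the strong maximum principle on a compact, locally connected space is constant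
on the connected components -/
theorem const_comp {F : Type*} [TopologicalSpace F] [CompactSpace F] {u : F → EReal}
    (hu : UpperSemicontinuous u) (hc : ∀ x : F, ∃ P ∈ 𝓝 x, IsPreconnected P)
    (hm : ∀ x, (∀ᶠ y in 𝓝 x, u y ≤ u x) → ∀ᶠ y in 𝓝 x, u y = u x) (x : F) :
    connectedComponent x ∈ 𝓝 x ∧ ∀ y ∈ connectedComponent x, u y = u x := by
  have h1 : ∀ y ∈ connectedComponent x, connectedComponent x ∈ 𝓝 y := fun y hy => by
    obtain ⟨P, hP, hP'⟩ := hc y
    rw [connectedComponent_eq hy]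
    exact mem_of_superset hP (hP'.subset_connectedComponent (mem_of_mem_nhds hP))
  refine ⟨h1 x mem_connectedComponent, ?_⟩
  obtain ⟨a, ha, hmax⟩ := (hu.upperSemicontinuousOn (connectedComponent x)).exists_isMaxOn
    connectedComponent_nonempty isClosed_connectedComponent.isCompact
  have h2 : connectedComponent x ⊆ {y | y ∈ connectedComponent x ∧ u y = u a} := by
    refine isPreconnected_connectedComponent.subset_of_closure_inter_subset ?_ ⟨a, ha, ha, rfl⟩ ?_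
    · rw [isOpen_iff_mem_nhds]
      rintro y ⟨hy, hy'⟩
      filter_upwards [h1 y hy, hm y (by
        filter_upwards [h1 y hy] with w hw
        rw [hy']; exact hmax hw)] with w hw hw'
      exact ⟨hw, hw'.trans hy'⟩
    · rintro y ⟨hy, hy'⟩
      refine ⟨hy', le_antisymm (hmax hy') ?_⟩
      by_contra hlt
      push Not at hlt
      obtain ⟨w, hw, hw'⟩ := mem_closure_iff_nhds.1 hy _ (hu y _ hlt)
      exact absurd hw'.2 (ne_of_lt hw)
  intro y hy
  rw [(h2 hy).2, (h2 mem_connectedComponent).2]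

end Max

end

end Crest.Agent.X261.Jet.Tb
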