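import Crest.Agent.X261.Jet.TbA
import Crest.Agent.X261.Jet.TbB
import Crest.Agent.R273.BKNa_37
import Crest.Agent.R273.PullF_155

/-!
# Row 261, JET/Tube (helper66), file `TbC`: holomorphic submersions with compact fibres

* `Sbm A T π` : `π` is a holomorphic submersion on the open set `T`; `dp` : its differentials;
  `Sbm.dual`, `dW_ne`, `dW_tr`, `dW_hol`, `dW_closed`, `eW_dl_comp`;
* `PC` : product charts; `Sbm.leG`, `Sbm.geG` : local comparison of `π_* vol` and Lebesgue measure;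
* `PshM A T u` : psh functions on `T`; `Sbm.psh_lc`, `Sbm.hol_lc` : psh and holomorphic functions
  are locally constant on compact fibres; `Sbm.fac` : `f = F ∘ π` locally;
* `Tub A T π` : proper over the unit ball; `Tub.basic` : psh functions come from the ball.
-/

set_option autoImplicit false
set_option linter.unusedSectionVars false

open Set Filter Topology Complex Matrix MeasureTheory Metric
open scoped ContDiff Matrix ComplexConjugate ENNReal

namespace Crest.Agent.X261.Jet.Tb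

open Crest.Agent.R275 Crest.Agent.R275.Geo Crest.Agent.R275.Core144
open Crest.Agent.R275.OmT75 (dl dj dj_holo dj_comp dj_congr dl_chain)
open Crest.Agent.R273.Defs_333 Crest.Agent.R273.Vm_333
open Crest.Agent.R273.Fock_243 Crest.Agent.R273.GamR_155
open Crest.Agent.R273.Calc_243 (dS dV dM Sm SmV SmM dS_congr dS_comm dV_mulVec)
open Crest.Agent.R273.BKNa_37 (dl_eq_dS)
open Crest.Agent.R281.ThnM_280 (Crit surj_of_not_crit)
open Crest.Agent.X261.Top (wdg dW HolV Tube)
open Crest.Agent.X261.Psh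

noncomputable section

variable {n p : ℕ} {M : Type} [TopologicalSpace M] {A : Atl n M} {T : Set M} {π : M → Cn p}
  {i j : A.ι} {x : M}

/-- holomorphic submersions -/
structure Sbm (A : Atl n M) (T : Set M) (π : M → Cn p) : Prop where
  opn : IsOpen T
  hol : HolV A T π
  subm : Crit A T π = ∅

/-- the differentials of the components -/
def dp (A : Atl n M) (i : A.ι) (π : M → Cn p) (x : M) : Fin p → Fin n → ℂ :=
  fun k a => dl A i a (fun y => π y k) x

theorem dW_dp : dW A i π x = wdg (dp A i π x) := rfl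

theorem dg_dW : Dg p (dW A i π x) := dg_wdg _

theorem mem_ti (hx : x ∈ T) (hi : x ∈ (A.e i).source) :
    A.e i x ∈ (A.e i).target ∩ (A.e i).symm ⁻¹' T :=
  ⟨(A.e i).map_source hi, by rw [mem_preimage, (A.e i).left_inv hi]; exact hx⟩

theorem holAt_an {f : M → ℂ} (hf : HolAt A i T f) (hT : IsOpen T) :
    AnalyticOnNhd ℂ (fun z => f ((A.e i).symm z)) ((A.e i).target ∩ (A.e i).symm ⁻¹' T) :=
  Crest.Agent.R266.SCV.analyticOnNhd_of_differentiableOn (isOpen_ti hT) hf

theorem sm_of_an {f : Cn n → ℂ} {z : Cn n} (h : AnalyticAt ℂ f z) : Sm z f :=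
  (h.contDiffAt (n := ∞)).restrict_scalars ℝ

theorem cont_of_chart {W : Type*} [TopologicalSpace W] {f : M → W} (hi : x ∈ (A.e i).source)
    (h : ContinuousAt (fun z => f ((A.e i).symm z)) (A.e i x)) : ContinuousAt f x := by
  refine (ContinuousAt.comp (f := A.e i) h ((A.e i).continuousAt hi)).congr ?_
  filter_upwards [(A.e i).open_source.mem_nhds hi] with y hy
  simp only [Function.comp, (A.e i).left_inv hy]

theorem ev_read {P : M → Prop} (hi : x ∈ (A.e i).source) (h : ∀ᶠ y in 𝓝 x, P y) :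
    ∀ᶠ z in 𝓝 (A.e i x), P ((A.e i).symm z) := by
  refine ((A.e i).continuousAt_symm ((A.e i).map_source hi)).eventually ?_
  rwa [(A.e i).left_inv hi]

theorem dl_congr' {f g : M → ℂ} (hi : x ∈ (A.e i).source) (h : f =ᶠ[𝓝 x] g) (a : Fin n) :
    dl A i a f x = dl A i a g x := dj_congr (ev_read (P := fun y => f y = g y) hi h)

namespace Sbm

variable (H : Sbm A T π)
include H

theorem an (i : A.ι) :
    AnalyticOnNhd ℂ (fun z => π ((A.e i).symm z)) ((A.e i).target ∩ (A.e i).symm ⁻¹' T) :=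
  Crest.Agent.R266.SCV.analyticOnNhd_of_differentiableOn (isOpen_ti H.opn) (H.hol i)

theorem anAt (hx : x ∈ T) (hi : x ∈ (A.e i).source) :
    AnalyticAt ℂ (fun z => π ((A.e i).symm z)) (A.e i x) := H.an i _ (mem_ti hx hi)

theorem surj (hx : x ∈ T) (hi : x ∈ (A.e i).source) :
    Function.Surjective (fderiv ℂ (fun z => π ((A.e i).symm z)) (A.e i x)) :=
  surj_of_not_crit hx (by rw [H.subm]; exact notMem_empty _) hi

theorem contAt (hx : x ∈ T) : ContinuousAt π x := by
  obtain ⟨i, hi⟩ := A.cover x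
  exact cont_of_chart hi (H.anAt hx hi).continuousAt

theorem cont : ContinuousOn π T := fun _ hx => (H.contAt hx).continuousWithinAt

theorem mono {T' : Set M} (ho : IsOpen T') (h : T' ⊆ T) : Sbm A T' π :=
  ⟨ho, fun i => (H.hol i).mono fun _ hz => ⟨hz.1, h hz.2⟩,
    eq_empty_of_forall_notMem fun y hy => by
      have : y ∈ Crit A T π := ⟨h hy.1, hy.2⟩
      rwa [H.subm] at this⟩

theorem holAt (i : A.ι) (k : Fin p) : HolAt A i T fun y => π y k :=
  ((EuclideanSpace.proj k : Cn p →L[ℂ] ℂ).differentiable).comp_differentiableOn (H.hol i)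

theorem dp_eq (hx : x ∈ T) (hi : x ∈ (A.e i).source) (k : Fin p) (a : Fin n) :
    dp A i π x k a =
      fderiv ℂ (fun z => π ((A.e i).symm z)) (A.e i x) (EuclideanSpace.single a 1) k := by
  have h1 := (EuclideanSpace.proj k : Cn p →L[ℂ] ℂ).hasFDerivAt.comp _
    (H.anAt hx hi).differentiableAt.hasFDerivAt
  exact (dj_holo h1.differentiableAt).trans (by rw [h1.fderiv]; rfl)

theorem dp_dot (hx : x ∈ T) (hi : x ∈ (A.e i).source) (k : Fin p) (v : Cn n) :
    ∑ a, dp A i π x k a * v a = fderiv ℂ (fun z => π ((A.e i).symm z)) (A.e i x) v k := by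
  conv_rhs => rw [OmT75.cn_sum v]
  simp [H.dp_eq hx hi, mul_comm]

theorem dual (hx : x ∈ T) (hi : x ∈ (A.e i).source) : ∃ w, Dual (dp A i π x) w := by
  choose w hw using fun k : Fin p => H.surj hx hi (EuclideanSpace.single k 1)
  refine ⟨fun k a => w k a, fun j k => ?_⟩
  rw [H.dp_dot hx hi, hw]
  simp

theorem dW_ne (hx : x ∈ T) (hi : x ∈ (A.e i).source) : dW A i π x ≠ 0 :=
  wdg_ne_zero (H.dual hx hi).choose_spec

theorem le_dim (hx : x ∈ T) : p ≤ n := by
  obtain ⟨i, hi⟩ := A.cover x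
  exact le_of_dual (H.dual hx hi).choose_spec

theorem dp_tr (hx : x ∈ T) (hij : x ∈ (A.e i).source ∩ (A.e j).source) (k : Fin p) :
    dp A i π x k = (Jm A i j x)ᵀ *ᵥ dp A j π x k := by
  funext a
  rw [dp, dl_chain (((H.holAt j k).diffAt H.opn hij.2 hx).restrictScalars ℝ) hij a]
  simp [Matrix.mulVec, dotProduct, dp]

theorem dW_tr (hx : x ∈ T) (hij : x ∈ (A.e i).source ∩ (A.e j).source) :
    dW A i π x = Gam (Jm A i j x)ᵀ *ᵥ dW A j π x := by
  rw [dW_dp, dW_dp, Gam_wdg]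
  congr 1
  funext k
  exact H.dp_tr hx hij k

theorem dp_hol (i : A.ι) (k : Fin p) (a : Fin n) : HolAt A i T fun y => dp A i π y k a := by
  have h1 : DifferentiableOn ℂ (fun z => fderiv ℂ (fun z => π ((A.e i).symm z)) z
      (EuclideanSpace.single a 1)) ((A.e i).target ∩ (A.e i).symm ⁻¹' T) :=
    (H.an i).fderiv.differentiableOn.clm_apply (differentiableOn_const _)
  refine (((EuclideanSpace.proj k : Cn p →L[ℂ] ℂ).differentiable).comp_differentiableOn h1).congr
    fun z hz => ?_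
  refine (H.dp_eq hz.2 ((A.e i).map_target hz.1) k a).trans ?_
  rw [(A.e i).right_inv hz.1]
  rfl

theorem dW_hol (i : A.ι) (S : FI n) : HolAt A i T fun y => dW A i π y S := by
  by_cases h : S.card = p
  · have : (fun y => dW A i π y S) = fun y =>
        (Matrix.of fun k l : Fin p => dp A i π y k (S.orderEmbOfFin h l)).det := by
      funext y
      exact dif_pos h
    rw [this]
    simp only [Matrix.det_apply']
    exact HolAt.sum _ fun σ _ => HolAt.const_mul _ (HolAt.prod _ fun k _ => H.dp_hol i _ _)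
  · exact (holAt_const 0).congr fun y _ _ => (dg_dW S h).symm

/-- `d (dπ_1 ∧ … ∧ dπ_p) = 0` -/
theorem dW_closed (hx : x ∈ T) (hi : x ∈ (A.e i).source) :
    ∑ l, eW (ep l) *ᵥ (fun S => dl A i l (fun y => dW A i π y S) x) = 0 := by
  let w : Cn n → Matrix (Fin n) (Fin p) ℂ := fun z =>
    Matrix.of fun a k => dS (-I) a (fun z => π ((A.e i).symm z) k) z
  have hs : ∀ k, Sm (A.e i x) fun z => π ((A.e i).symm z) k := fun k =>
    sm_of_an (holAt_an (H.holAt i k) H.opn _ (mem_ti hx hi))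
  have hw : SmM (A.e i x) w := fun a k => (hs k).dS _ _
  have h1 := kahler_eR (A := w (A.e i x)) (fun l => dM (-I) l w (A.e i x))
    (fun l => dM (-I) l (fun y => GamR (w y)) (A.e i x))
    (fun l k => Crest.Agent.R273.PullF_155.dM_GamR_eW hw k)
    (fun l S => Crest.Agent.R273.PullF_155.dM_GamR_vac S) fun l b c => dS_comm (hs c)
  have h2 : ∀ l, (fun S => dl A i l (fun y => dW A i π y S) x) =
      dM (-I) l (fun y => GamR (w y)) (A.e i x) *ᵥ Pi.single Finset.univ 1 := fun l => by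
    funext S
    rw [dl_eq_dS, Matrix.mulVec_single_one]
    refine dS_congr ?_
    filter_upwards [(A.e i).open_target.mem_nhds ((A.e i).map_source hi)] with z hz
    rw [dW_dp, wdg_eq, Matrix.mulVec_single_one]
    have e : (Matrix.of (dp A i π ((A.e i).symm z)))ᵀ = w z := by
      ext a k
      simp only [w, Matrix.transpose_apply, Matrix.of_apply, dp, dl_eq_dS, (A.e i).right_inv hz]
    rw [e]
    rfl
  simp only [h2, Matrix.mulVec_mulVec]
  rw [← Matrix.sum_mulVec, h1, Matrix.zero_mulVec]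

/-- chain rule for a function of `π` -/
theorem dl_comp (hx : x ∈ T) (hi : x ∈ (A.e i).source) {b : M → ℂ} {Φ : Cn p → ℂ}
    (hΦ : DifferentiableAt ℝ Φ (π x)) (hb : ∀ᶠ y in 𝓝 x, b y = Φ (π y)) (a : Fin n) :
    dl A i a b x = ∑ k, dj k Φ (π x) * dp A i π x k a := by
  rw [dl_congr' hi hb]
  have h1 := dj_comp (F := Φ) (T := fun z => π ((A.e i).symm z)) (z := A.e i x)
    (by simpa only [(A.e i).left_inv hi] using hΦ) (H.anAt hx hi).differentiableAt a
  refine h1.trans (Finset.sum_congr rfl fun k _ => ?_)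
  rw [H.dp_eq hx hi, (A.e i).left_inv hi, smul_eq_mul, mul_comm]

theorem eW_dl_comp (hx : x ∈ T) (hi : x ∈ (A.e i).source) {b : M → ℂ} {Φ : Cn p → ℂ}
    (hΦ : DifferentiableAt ℝ Φ (π x)) (hb : ∀ᶠ y in 𝓝 x, b y = Φ (π y)) :
    eW (fun a => dl A i a b x) *ᵥ dW A i π x = 0 := by
  simp only [H.dl_comp hx hi hΦ hb]
  exact eW_wdg_comb _ _

section meas

variable [Countable A.ι] [MeasurableSpace M] [BorelSpace M] (vol : HM (KB A)⁻¹)
  [MeasurableSpace (Cn p)] [BorelSpace (Cn p)] (ν : Measure (Cn p)) [ν.IsAddHaarMeasure]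

theorem leG (hx : x ∈ T) : LeG (vm vol) x π ν (π x) := by
  obtain ⟨i, hi⟩ := A.cover x
  borelize (Cn n)
  have h1 := (leG_subm Measure.addHaar ν (H.anAt hx hi) (H.surj hx hi)).comp
    (leG_chart vol Measure.addHaar hi)
  simp only [(A.e i).left_inv hi] at h1
  refine h1.congr ?_
  filter_upwards [(A.e i).open_source.mem_nhds hi] with y hy
  rw [(A.e i).left_inv hy]

theorem geG (hx : x ∈ T) : GeG (vm vol) x π ν (π x) := by
  obtain ⟨i, hi⟩ := A.cover x
  borelize (Cn n)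
  have h1 := (geG_subm Measure.addHaar ν (H.anAt hx hi) (H.surj hx hi)).comp
    (geG_chart vol Measure.addHaar hi)
  simp only [(A.e i).left_inv hi] at h1
  refine h1.congr ?_
  filter_upwards [(A.e i).open_source.mem_nhds hi] with y hy
  rw [(A.e i).left_inv hy]

end meas

end Sbm

/-! ### product charts -/

/-- product chart at `x` -/
structure PC (A : Atl n M) (T : Set M) (π : M → Cn p) (i : A.ι) (x : M) where
  r : ℕ
  G : Cn p × (Fin r → ℂ) → Cn n
  κ : M → Fin r → ℂ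
  ρ : ℝ
  pos : 0 < ρ
  mem : x ∈ (A.e i).source
  cont : ContinuousAt κ x
  cpi : ContinuousAt π x
  inv : ∀ᶠ z in 𝓝 x, G (π z, κ z) = A.e i z
  an : AnalyticOnNhd ℂ G (ball (π x, κ x) ρ)
  maps : MapsTo G (ball (π x, κ x) ρ) ((A.e i).target ∩ (A.e i).symm ⁻¹' T)
  fst : ∀ q ∈ ball (π x, κ x) ρ, π ((A.e i).symm (G q)) = q.1

theorem Sbm.exists_pc (H : Sbm A T π) (hx : x ∈ T) (hi : x ∈ (A.e i).source) :
    Nonempty (PC A T π i x) := by
  obtain ⟨r, φ, ρ, hρ, h1, h2, h3, -, h5, h6⟩ := exists_prod (H.anAt hx hi) (H.surj hx hi)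
    ((isOpen_ti H.opn).mem_nhds (mem_ti hx hi))
  have e : ∀ z ∈ (A.e i).source, (π z, (φ (A.e i z)).2) = φ (A.e i z) := fun z hz =>
    Prod.ext (by rw [h2, (A.e i).left_inv hz]) rfl
  refine ⟨⟨r, φ.symm, fun z => (φ (A.e i z)).2, ρ, hρ, hi,
    (ContinuousAt.comp (f := A.e i) h3.continuousAt ((A.e i).continuousAt hi)).snd, H.contAt hx,
    ?_, fun q hq => ?_, fun q hq => ?_, fun q hq => ?_⟩⟩
  · filter_upwards [(A.e i).open_source.mem_nhds hi,
      ((A.e i).continuousAt hi).preimage_mem_nhds (φ.open_source.mem_nhds h1)] with z hz hz'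
    rw [e z hz, φ.left_inv hz']
  · rw [e x hi] at hq
    exact (h6 q hq).1
  · rw [e x hi] at hq
    exact (h6 q hq).2
  · rw [e x hi] at hq
    rw [← h2, φ.right_inv (h5 hq)]

namespace PC

variable (P : PC A T π i x)

/-- the parametrisation -/
def Γ (q : Cn p × (Fin P.r → ℂ)) : M := (A.e i).symm (P.G q)

theorem mem_ball' {y : Cn p} {w : Fin P.r → ℂ} (hy : y ∈ ball (π x) P.ρ)
    (hw : w ∈ ball (P.κ x) P.ρ) : (y, w) ∈ ball (π x, P.κ x) P.ρ := by
  rw [← ball_prod_same]; exact ⟨hy, hw⟩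

theorem Γ_mem {q : Cn p × (Fin P.r → ℂ)} (hq : q ∈ ball (π x, P.κ x) P.ρ) : P.Γ q ∈ T :=
  (P.maps hq).2

theorem π_Γ {q : Cn p × (Fin P.r → ℂ)} (hq : q ∈ ball (π x, P.κ x) P.ρ) : π (P.Γ q) = q.1 :=
  P.fst q hq

theorem Γ_cont {q : Cn p × (Fin P.r → ℂ)} (hq : q ∈ ball (π x, P.κ x) P.ρ) :
    ContinuousAt P.Γ q :=
  ((A.e i).continuousAt_symm (P.maps hq).1).comp (P.an q hq).continuousAt

theorem Γ_inv : ∀ᶠ z in 𝓝 x, P.Γ (π z, P.κ z) = z := by
  filter_upwards [P.inv, (A.e i).open_source.mem_nhds P.mem] with z h1 h2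
  rw [Γ, h1, (A.e i).left_inv h2]

theorem Γ_self : P.Γ (π x, P.κ x) = x := P.Γ_inv.self_of_nhds

theorem G_self : P.G (π x, P.κ x) = A.e i x := P.inv.self_of_nhds

theorem sec_an {y : Cn p} (hy : y ∈ ball (π x) P.ρ) : AnalyticAt ℂ (fun y => P.G (y, P.κ x)) y :=
  AnalyticAt.comp (g := P.G) (f := fun y => (y, P.κ x))
    (P.an _ (P.mem_ball' hy (mem_ball_self P.pos))) (analyticAt_id.prod analyticAt_const)

theorem sec_cont : ContinuousAt (fun y => P.Γ (y, P.κ x)) (π x) :=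
  ContinuousAt.comp (f := fun y => (y, P.κ x)) (P.Γ_cont (mem_ball_self P.pos)) (by fun_prop)

theorem sec_tendsto : Tendsto (fun y => P.Γ (y, P.κ x)) (𝓝 (π x)) (𝓝 x) := by
  have := P.sec_cont
  rwa [ContinuousAt, P.Γ_self] at this

/-- a function which is locally constant on the fibres is locally a function of `π` -/
theorem basic {β : Type*} {v : M → β} (hv : ∀ y ∈ T, ∀ᶠ z in 𝓝 y, π z = π y → v z = v y) :
    ∀ᶠ z in 𝓝 x, v z = v (P.Γ (π z, P.κ x)) := by
  filter_upwards [P.Γ_inv, P.cpi.eventually (ball_mem_nhds _ P.pos),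
    P.cont.eventually (ball_mem_nhds _ P.pos)] with z h1 h2 h3
  conv_lhs => rw [← h1]
  refine (convex_ball (P.κ x) P.ρ).isPreconnected.induction₂'
    (fun w w' => v (P.Γ (π z, w)) = v (P.Γ (π z, w'))) (fun w hw => ?_)
    (fun _ _ _ _ _ _ a b => a.trans b) h3 (mem_ball_self P.pos)
  have h4 := P.mem_ball' h2 hw
  have h5 : ContinuousAt (fun w => P.Γ (π z, w)) w :=
    ContinuousAt.comp (f := fun w => (π z, w)) (P.Γ_cont h4) (by fun_prop)
  filter_upwards [mem_nhdsWithin_of_mem_nhds (h5.eventually (hv _ (P.Γ_mem h4))),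
    self_mem_nhdsWithin] with w' h6 h7
  have h8 := h6 ((P.π_Γ (P.mem_ball' h2 h7)).trans (P.π_Γ h4).symm)
  exact ⟨h8.symm, h8⟩

end PC

/-! ### compact fibres -/

/-- psh functions on the open set `T` -/
def PshM (A : Atl n M) (T : Set M) (u : M → EReal) : Prop :=
  ∀ i, IsPsh ((A.e i).target ∩ (A.e i).symm ⁻¹' T) fun z => u ((A.e i).symm z)

theorem PshM.usc {u : M → EReal} (hu : PshM A T u) (hT : IsOpen T) (hx : x ∈ T) :
    UpperSemicontinuousAt u x := by
  obtain ⟨i, hi⟩ := A.cover x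
  intro a ha
  have h1 := (hu i).uscAt (isOpen_ti hT) (mem_ti hx hi) a (by
    simpa only [(A.e i).left_inv hi] using ha)
  filter_upwards [((A.e i).continuousAt hi).eventually h1, (A.e i).open_source.mem_nhds hi]
    with y h2 h3
  rwa [(A.e i).left_inv h3] at h2

theorem Sbm.psh_comp (H : Sbm A T π) {u : M → EReal} (hu : PshM A T u) {c : Cn p}
    (hF : IsCompact {y | y ∈ T ∧ π y = c}) (a : {y | y ∈ T ∧ π y = c}) :
    connectedComponent a ∈ 𝓝 a ∧ ∀ b ∈ connectedComponent a, u b = u a := by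
  have : CompactSpace {y | y ∈ T ∧ π y = c} := isCompact_iff_compactSpace.1 hF
  refine const_comp (u := fun b : {y | y ∈ T ∧ π y = c} => u b) (fun b t ht => ?_) (fun b => ?_)
    (fun b hb => ?_) a
  · exact continuous_subtype_val.continuousAt.eventually (hu.usc H.opn b.2.1 t ht)
  · obtain ⟨i, hi⟩ := A.cover (b : M)
    obtain ⟨P⟩ := H.exists_pc b.2.1 hi
    refine ⟨Subtype.val ⁻¹' ((fun w => P.Γ (π b, w)) '' ball (P.κ b) P.ρ), ?_, ?_⟩
    · filter_upwards [continuous_subtype_val.continuousAt.eventually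
        (P.Γ_inv.and (P.cont.eventually (ball_mem_nhds _ P.pos)))] with z hz
      exact ⟨_, hz.2, by rw [b.2.2.trans z.2.2.symm]; exact hz.1⟩
    · rw [← Topology.IsInducing.subtypeVal.isPreconnected_image, Subtype.image_preimage_coe,
        inter_eq_right.2]
      · refine (convex_ball _ _).isPreconnected.image _ fun w hw => ?_
        exact (ContinuousAt.comp (f := fun w => (π b, w))
          (P.Γ_cont (P.mem_ball' (mem_ball_self P.pos) hw)) (by fun_prop)).continuousWithinAt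
      · rintro _ ⟨w, hw, rfl⟩
        have h1 := P.mem_ball' (mem_ball_self P.pos) hw
        exact ⟨P.Γ_mem h1, (P.π_Γ h1).trans b.2.2⟩
  · obtain ⟨i, hi⟩ := A.cover (b : M)
    obtain ⟨P⟩ := H.exists_pc b.2.1 hi
    have h1 : IsPsh (ball (P.κ b) P.ρ) fun w => u (P.Γ (π b, w)) :=
      Hol.comp_hol (φ := fun w => P.G (π b, w)) (isOpen_ti H.opn) (hu i)
        (fun w hw => (AnalyticAt.comp (g := P.G) (f := fun w => (π b, w))
          (P.an _ (P.mem_ball' (mem_ball_self P.pos) hw))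
          (analyticAt_const.prod analyticAt_id)).differentiableAt.differentiableWithinAt)
        fun w hw => P.maps (P.mem_ball' (mem_ball_self P.pos) hw)
    have h2 : Tendsto (fun w => P.Γ (π b, w)) (𝓝 (P.κ b)) (𝓝[{y | y ∈ T ∧ π y = c}] b) := by
      refine tendsto_nhdsWithin_iff.2 ⟨?_, ?_⟩
      · have := ContinuousAt.comp (f := fun w => (π b, w)) (x := P.κ b)
          (P.Γ_cont (mem_ball_self P.pos)) (by fun_prop)
        rwa [ContinuousAt, Function.comp_apply, P.Γ_self] at this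
      · filter_upwards [ball_mem_nhds _ P.pos] with w hw
        have h1 := P.mem_ball' (mem_ball_self P.pos) hw
        exact ⟨P.Γ_mem h1, (P.π_Γ h1).trans b.2.2⟩
    have h3 : ∀ᶠ y in 𝓝[{y | y ∈ T ∧ π y = c}] (b : M), u y ≤ u b := by
      rw [nhdsWithin_eq_map_subtype_coe b.2]
      exact hb
    have h4 := psh_smax h1 isOpen_ball (mem_ball_self P.pos) (by
      rw [P.Γ_self]; exact h2.eventually h3)
    rw [P.Γ_self] at h4
    filter_upwards [continuous_subtype_val.continuousAt.eventually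
      (P.Γ_inv.and (P.cont.eventually h4))] with z hz
    rw [← hz.2, b.2.2.trans z.2.2.symm, hz.1]

/-- psh functions are locally constant on compact fibres -/
theorem Sbm.psh_lc (H : Sbm A T π) {u : M → EReal} (hu : PshM A T u) (hx : x ∈ T)
    (hF : IsCompact {y | y ∈ T ∧ π y = π x}) : ∀ᶠ z in 𝓝 x, π z = π x → u z = u x := by
  obtain ⟨h1, h2⟩ := H.psh_comp hu hF ⟨x, hx, rfl⟩
  obtain ⟨S, hS, h3⟩ := (mem_nhds_subtype _ _ _).1 h1
  filter_upwards [hS, H.opn.mem_nhds hx] with z hz hzT e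
  exact h2 ⟨z, hzT, e⟩ (h3 hz)

/-- psh functions are constant on compact connected fibres -/
theorem Sbm.psh_const (H : Sbm A T π) {u : M → EReal} (hu : PshM A T u) (hx : x ∈ T)
    (hF : IsCompact {y | y ∈ T ∧ π y = π x}) (hc : IsPreconnected {y | y ∈ T ∧ π y = π x})
    {y : M} (hy : y ∈ T) (e : π y = π x) : u y = u x := by
  have := Subtype.preconnectedSpace hc
  exact (H.psh_comp hu hF ⟨x, hx, rfl⟩).2 ⟨y, hy, e⟩ (by
    rw [PreconnectedSpace.connectedComponent_eq_univ]; trivial)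

theorem Sbm.hol_lc (H : Sbm A T π) {f : M → ℂ} (hf : ∀ i, HolAt A i T f) (hx : x ∈ T)
    (hF : IsCompact {y | y ∈ T ∧ π y = π x}) : ∀ᶠ z in 𝓝 x, π z = π x → f z = f x := by
  have h1 := H.psh_lc (u := fun y => ((f y).re : EReal))
    (fun i => isPsh_re (isOpen_ti H.opn) (hf i)) hx hF
  have h2 := H.psh_lc (u := fun y => ((I * f y).re : EReal))
    (fun i => isPsh_re (isOpen_ti H.opn) ((hf i).const_mul I)) hx hF
  filter_upwards [h1, h2] with z a b e
  refine Complex.ext (EReal.coe_eq_coe_iff.1 (a e)) ?_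
  simpa using EReal.coe_eq_coe_iff.1 (b e)

/-- holomorphic functions are locally holomorphic functions of `π` -/
theorem Sbm.fac (H : Sbm A T π) (hF : ∀ y ∈ T, IsCompact {z | z ∈ T ∧ π z = π y}) {f : M → ℂ}
    (hf : ∀ i, HolAt A i T f) (hx : x ∈ T) :
    ∃ F : Cn p → ℂ, AnalyticAt ℂ F (π x) ∧ ∀ᶠ z in 𝓝 x, f z = F (π z) := by
  obtain ⟨i, hi⟩ := A.cover x
  obtain ⟨P⟩ := H.exists_pc hx hi
  refine ⟨fun y => f (P.Γ (y, P.κ x)), ?_, P.basic fun y hy => H.hol_lc hf hy (hF y hy)⟩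
  exact AnalyticAt.comp (g := fun z => f ((A.e i).symm z)) (f := fun y => P.G (y, P.κ x))
    (holAt_an (hf i) H.opn _ (P.maps (mem_ball_self P.pos))) (P.sec_an (mem_ball_self P.pos))

/-! ### tubes -/

/-- proper holomorphic submersions over the unit ball -/
structure Tub (A : Atl n M) (T : Set M) (π : M → Cn p) : Prop extends Sbm A T π where
  lt : ∀ y ∈ T, ‖π y‖ < 1
  prop : ∀ r < (1 : ℝ), IsCompact {y | y ∈ T ∧ ‖π y‖ ≤ r}

theorem tub_of_tube {G : Type} [Group G] [MulAction G M] (𝒯 : Tube A G p) (hx : x ∈ 𝒯.M0) :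
    Tub A (𝒯.T x) (𝒯.π x) where
  opn := 𝒯.T_opn x hx
  hol := 𝒯.π_hol x hx
  subm := 𝒯.π_subm x hx
  lt _ hy := mem_ball_zero_iff.1 (𝒯.π_img x hx ▸ mem_image_of_mem _ hy)
  prop := 𝒯.π_prop x hx

theorem tube_conn {G : Type} [Group G] [MulAction G M] (𝒯 : Tube A G p) (hx : x ∈ 𝒯.M0) :
    ∀ y ∈ 𝒯.T x, IsPreconnected {z | z ∈ 𝒯.T x ∧ 𝒯.π x z = 𝒯.π x y} := fun y hy =>
  𝒯.π_fib x hx y hy ▸ 𝒯.W_conn y (𝒯.T_sub x hx hy)

/-- preimages of closed subsets of smaller balls are compact -/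
theorem Tub.cpt (H : Tub A T π) {C : Set (Cn p)} (hC : IsClosed C) {r : ℝ} (hr : r < 1)
    (h : ∀ y ∈ C, ‖y‖ ≤ r) : IsCompact {y | y ∈ T ∧ π y ∈ C} := by
  have h1 : CompactSpace {y | y ∈ T ∧ ‖π y‖ ≤ r} := isCompact_iff_compactSpace.1 (H.prop r hr)
  have h2 : Continuous fun y : {y | y ∈ T ∧ ‖π y‖ ≤ r} => π y :=
    (H.cont.mono fun y hy => hy.1).domRestrict
  have h3 := (hC.preimage h2).isCompact.image continuous_subtype_val
  convert h3 using 1
  ext y
  exact ⟨fun hy => ⟨⟨y, hy.1, h _ hy.2⟩, hy.2, rfl⟩, by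
    rintro ⟨z, hz, rfl⟩
    exact ⟨z.2.1, hz⟩⟩

theorem Tub.fib (H : Tub A T π) : ∀ y ∈ T, IsCompact {z | z ∈ T ∧ π z = π y} := fun y hy =>
  H.cpt (isClosed_singleton (x := π y)) (H.lt y hy) fun _ hz => le_of_eq (congrArg _ hz)

/-- **psh functions on a tube with connected fibres come from the base** -/
theorem Tub.basic (H : Tub A T π) (hc : ∀ y ∈ T, IsPreconnected {z | z ∈ T ∧ π z = π y})
    {u : M → EReal} (hu : PshM A T u) :
    ∃ uB : Cn p → EReal, IsPsh (π '' T) uB ∧ ∀ y ∈ T, u y = uB (π y) := by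
  classical
  let uB : Cn p → EReal := fun t => if h : t ∈ π '' T then u h.choose else ⊥
  have h1 : ∀ y ∈ T, u y = uB (π y) := fun y hy => by
    have h : π y ∈ π '' T := mem_image_of_mem _ hy
    simp only [uB, dif_pos h]
    exact (H.psh_const hu hy (H.fib y hy) (hc y hy) h.choose_spec.1 h.choose_spec.2).symm
  refine ⟨uB, IsPsh.of_nhds ?_, h1⟩
  rintro _ ⟨y, hy, rfl⟩
  obtain ⟨i, hi⟩ := A.cover y
  obtain ⟨P⟩ := H.exists_pc hy hi
  refine ⟨ball (π y) P.ρ, ball_mem_nhds _ P.pos, IsPsh.congr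
    (Hol.comp_hol (φ := fun t => P.G (t, P.κ y)) (isOpen_ti H.opn) (hu i)
      (fun t ht => (P.sec_an ht).differentiableAt.differentiableWithinAt)
      fun t ht => P.maps (P.mem_ball' ht (mem_ball_self P.pos))) fun t ht => ?_⟩
  have h2 := P.mem_ball' ht (mem_ball_self P.pos)
  exact (h1 _ (P.Γ_mem h2)).trans (congrArg uB (P.π_Γ h2))

end

end Crest.Agent.X261.Jet.Tb
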