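import Crest.Agent.X261.Jet.Lim
import Crest.Agent.X261.Hs.D

/-!
# Row 261, package JET (helper6), file `HLd`: statement of the hard Lefschetz theorem on a complete
Kaehler manifold, and Friedrichs' property
-/

set_option autoImplicit false
set_option linter.unusedSectionVars false
set_option linter.style.haveILetI false

open Set Filter Topology Complex Matrix MeasureTheory
open scoped ContDiff Matrix ComplexConjugate ComplexOrder ENNReal InnerProductSpace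

namespace Crest.Agent.X261.Jet.HL

open Crest.Agent.R275 Crest.Agent.R275.Geo Crest.Agent.R275.Core144
open Crest.Agent.R273.Defs_333 Crest.Agent.R273.HM_333 Crest.Agent.R273.Kah_333
open Crest.Agent.R273.Vm_333 Crest.Agent.R273.Fock_243
open Crest.Agent.R273.LamN127 Crest.Agent.R273.DVec_733 Crest.Agent.R273.DMetB_733
open Crest.Agent.R273.BKNa_37 (IsV)
open Crest.Agent.R273.BKNb_37 (inG)
open Crest.Agent.T223.Hm (gl Cs Cut hq)
open Crest.Agent.X261.Hs Crest.Agent.X261.Jet.Fr Crest.Agent.X261.Jet.Abs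

noncomputable section

section abs

variable {S : Type*} [AddCommGroup S] [Module ℂ S]

theorem fr_step {S : Type*} [NormedAddCommGroup S] [InnerProductSpace ℂ S] (T Ts : S →ₗ[ℂ] S)
    (hadj : ∀ u w, ⟪T u, w⟫_ℂ = ⟪u, Ts w⟫_ℂ)
    (hcut : ∀ g, CutP (fun u => ‖u‖) (fun u v => ⟪u, v⟫_ℂ) T Ts g fun _ => 0) (x : ℕ → S)
    (hx : ∀ ε > 0, ∃ N, ∀ k ≥ N, ∀ l ≥ N, ‖x k - x l‖ ≤ ε)
    (h1 : ∀ w, Tendsto (fun k => ⟪Ts w, x k⟫_ℂ) atTop (𝓝 0))
    (h2 : ∀ w, Tendsto (fun k => ⟪T w, x k⟫_ℂ) atTop (𝓝 0)) {τ : ℝ} (hτ : 0 < τ) :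
    ∃ v, (∀ᶠ k in atTop, ‖v - x k‖ ≤ τ) ∧ ‖T v‖ ≤ τ ∧ ‖Ts v‖ ≤ τ := by
  obtain ⟨k0, hk0⟩ := hx (min 1 (τ / 4)) (lt_min one_pos (by positivity))
  have hb : ∀ k ≥ k0, ‖x k‖ ≤ ‖x k0‖ + 1 := fun k hk => by
    have h3 := (hk0 k hk k0 le_rfl).trans (min_le_left _ _)
    have h4 := norm_sub_norm_le (x k) (x k0)
    linarith
  set η : ℝ := τ / (4 * (‖x k0‖ + 1)) with hη
  have hη0 : 0 < η := by positivity
  have hηx : ∀ k ≥ k0, η * ‖x k‖ ≤ τ / 4 := fun k hk => by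
    refine (mul_le_mul_of_nonneg_left (hb k hk) hη0.le).trans (le_of_eq ?_)
    rw [hη]
    field_simp
  obtain ⟨c, cg, cn, -, cT, cTs, J, C, F1b, F1, F2b, F2, F2sb, F2s, F3⟩ := hcut (x k0) η hη0
  simp only at cg cn cT cTs F1b F1 F2b F2 F2sb F2s F3
  have hcg : c (x k0) = x k0 := by
    have h3 : ‖c (x k0) - x k0‖ ^ 2 ≤ 0 := by
      rw [@norm_sub_sq ℂ, ← inner_conj_symm, cg, inner_conj_symm, inner_self_eq_norm_sq]
      nlinarith [cn (x k0), norm_nonneg (c (x k0))]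
    exact sub_eq_zero.1 (norm_eq_zero.1 (pow_eq_zero_iff two_ne_zero |>.1
      (le_antisymm h3 (sq_nonneg _))))
  have hC : 0 < |C| + η + 1 := by positivity
  obtain ⟨k1, hk1⟩ := hx (τ / (8 * (|C| + η + 1))) (by positivity)
  have hsm : ∀ k ≥ k1, (|C| + η + 1) * ‖x k - x k1‖ ≤ τ / 8 := fun k hk => by
    refine (mul_le_mul_of_nonneg_left (hk1 k hk k1 le_rfl) hC.le).trans (le_of_eq ?_)
    field_simp
  have e8 : (0 : ℝ) < τ / 16 := by positivity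
  obtain ⟨m, a1, a2, a3, a4, a5⟩ := (((F1 (x k1)).eventually (eventually_lt_nhds e8)).and
    (((F2 (x k1)).eventually (eventually_lt_nhds e8)).and
    (((F1 (T (x k1))).eventually (eventually_lt_nhds e8)).and
    (((F2s (x k1)).eventually (eventually_lt_nhds e8)).and
    ((F1 (Ts (x k1))).eventually (eventually_lt_nhds e8)))))).exists
  obtain ⟨r, s, e, hse⟩ := F3 m
  have lim : ∀ R R' : S →ₗ[ℂ] S, (∀ u w, ⟪u, R w⟫_ℂ = ⟪R' u, w⟫_ℂ) →
      (∀ w, Tendsto (fun k => ⟪R' w, x k⟫_ℂ) atTop (𝓝 0)) →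
      ∀ᶠ k in atTop, ‖J m (R (x k))‖ < τ / 4 := fun R R' hR hl => by
    have h3 : (fun k => J m (R (x k))) = fun k => ∑ l, ⟪R' (s l), x k⟫_ℂ • e l := by
      funext k
      rw [hse]
      exact Finset.sum_congr rfl fun l _ => by rw [hR]
    have h4 : Tendsto (fun k => ∑ l, ⟪R' (s l), x k⟫_ℂ • e l) atTop (𝓝 (∑ l, (0 : ℂ) • e l)) :=
      tendsto_finsetSum _ fun l _ => (hl _).smul_const (e l)
    rw [← h3] at h4
    simp only [zero_smul, Finset.sum_const_zero] at h4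
    exact (tendsto_zero_iff_norm_tendsto_zero.1 h4).eventually (eventually_lt_nhds (by positivity))
  obtain ⟨k, b1, b2, b3, b4⟩ := ((eventually_ge_atTop k0).and ((eventually_ge_atTop k1).and
    ((lim T Ts (fun u w => by rw [← inner_conj_symm, hadj, inner_conj_symm]) h1).and
      (lim Ts T (fun u w => (hadj u w).symm) h2)))).exists
  have est : ∀ R : S →ₗ[ℂ] S, (∀ N u, ‖R (J N u) - J N (R u)‖ ≤ C * ‖u‖) →
      (∀ u, ‖R (c u) - c (R u)‖ ≤ η * ‖u‖) → ‖R (J m (x k1)) - R (c (x k1))‖ < τ / 16 →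
      ‖J m (R (x k1)) - c (R (x k1))‖ < τ / 16 → ‖J m (R (x k))‖ < τ / 4 →
      ‖R (J m (x k))‖ ≤ τ := fun R r1 r2 r3 r4 r5 => by
    have e1 : R (J m (x k)) = (R (J m (x k - x k1)) - J m (R (x k - x k1))) -
        (R (c (x k - x k1)) - c (R (x k - x k1))) + (R (J m (x k1)) - R (c (x k1))) -
        (J m (R (x k1)) - c (R (x k1))) + (R (c (x k)) - c (R (x k))) + J m (R (x k)) := by
      simp only [map_sub]
      abel
    have n1 := r1 m (x k - x k1)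
    have n2 := r2 (x k - x k1)
    have n3 := r2 (x k)
    have n4 := hsm k b2
    have n5 := hηx k b1
    have n6 : C * ‖x k - x k1‖ ≤ |C| * ‖x k - x k1‖ :=
      mul_le_mul_of_nonneg_right (le_abs_self C) (norm_nonneg _)
    have n7 := norm_nonneg (x k - x k1)
    rw [e1]
    refine (norm_add_le _ _).trans ((add_le_add ((norm_add_le _ _).trans (add_le_add
      ((norm_sub_le _ _).trans (add_le_add ((norm_add_le _ _).trans (add_le_add
        (norm_sub_le _ _) le_rfl)) le_rfl)) le_rfl)) le_rfl).trans ?_)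
    nlinarith
  refine ⟨J m (x k), ?_, est T F2b cT a2 a3 b3, est Ts F2sb cTs a4 a5 b4⟩
  filter_upwards [eventually_ge_atTop k0] with l hl
  have e1 : J m (x k) - x l = J m (x k - x k1) - c (x k - x k1) + (J m (x k1) - c (x k1)) +
      c (x k - x k0) + (x k0 - x l) := by
    simp only [map_sub, hcg]
    abel
  have n1 := F1b m (x k - x k1)
  have n2 := cn (x k - x k1)
  have n3 := (cn (x k - x k0)).trans ((hk0 k b1 k0 le_rfl).trans (min_le_right _ _))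
  have n4 := hsm k b2
  have n5 := (hk0 k0 le_rfl l hl).trans (min_le_right _ _)
  have n6 : C * ‖x k - x k1‖ ≤ |C| * ‖x k - x k1‖ :=
    mul_le_mul_of_nonneg_right (le_abs_self C) (norm_nonneg _)
  have n7 := mul_nonneg hη0.le (norm_nonneg (x k - x k1))
  rw [e1]
  refine (norm_add_le _ _).trans ((add_le_add ((norm_add_le _ _).trans (add_le_add
    ((norm_add_le _ _).trans (add_le_add (norm_sub_le _ _) le_rfl)) le_rfl)) le_rfl).trans ?_)
  nlinarith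

/-- cut-off operators and finite rank mollifiers give Friedrichs' property -/
theorem fr0_of_cutP (c : InnerProductSpace.Core ℂ S) (T Ts : S →ₗ[ℂ] S)
    (hadj : ∀ u w, c.inner (T u) w = c.inner u (Ts w))
    (hcut : ∀ g, CutP (nr c) c.inner T Ts g fun _ => 0) : FR0 c.toCore T Ts := by
  letI : NormedAddCommGroup S := c.toNormedAddCommGroup
  letI : InnerProductSpace ℂ S := .ofCore c.toCore
  intro x hx h1 h2 τ hτ
  exact fr_step T Ts hadj hcut x hx h1 h2 hτ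

/-- the harmonic part is closer to co-closed vectors -/
theorem Hm.dist {c : PC S} {T : S →ₗ[ℂ] S} {Ts : S → S} {Λ : S →ₗ[ℂ] ℂ} {B τ : ℝ} {v u : S}
    (H : Abs.Hm c T Ts Λ B τ v u) (hadj : ∀ u w, c.inner (T u) w = c.inner u (Ts w))
    (hτ : 0 ≤ τ) (hB : 0 ≤ B) (hΛ : ∀ w, ‖Λ w‖ ≤ B * pn c w) {v0 : S} (h0 : Ts v0 = 0) {B' : ℝ}
    (hb : ∀ w, ‖Λ w - c.inner v0 w‖ ≤ B' * pn c w) :
    pn c (v - v0) ^ 2 ≤ (B' + τ) * pn c (v - v0) + τ * (2 * (B + τ)) := by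
  letI : SeminormedAddCommGroup S := InnerProductSpace.Core.toSeminormedAddCommGroup (c := c)
  letI : InnerProductSpace ℂ S := .ofCore c
  have n0 : ∀ u : S, pn c u = ‖u‖ := fun u => rfl
  have i0 : ∀ u w : S, c.inner u w = ⟪u, w⟫_ℂ := fun u w => rfl
  have r := H.rep
  have p := H.perp u
  have b := H.bd
  simp only [n0, i0] at *
  have h1 : ‖v + T u‖ ≤ B + τ := by
    refine Abs.le_of_sq_le_mul (norm_nonneg _) (by positivity) ?_
    have h2 := r (v + T u)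
    have h3 := hΛ (v + T u)
    have h4 := norm_sub_norm_le ⟪v + T u, v + T u⟫_ℂ (Λ (v + T u))
    rw [norm_sub_rev] at h4
    rw [← inner_self_eq_norm_sq (𝕜 := ℂ)]
    refine (RCLike.re_le_norm _).trans ?_
    linarith
  have h2 : ‖T u‖ ≤ 2 * (B + τ) := by
    have h3 := norm_sub_le (v + T u) v
    rw [add_sub_cancel_left] at h3
    linarith
  have e1 : ⟪v - v0, v - v0⟫_ℂ = (Λ (v - v0) - ⟪v0, v - v0⟫_ℂ) -
      (Λ (v - v0) - ⟪v + T u, v - v0⟫_ℂ) - ⟪T u, v⟫_ℂ := by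
    rw [inner_sub_left, inner_add_left, inner_sub_right (T u), hadj u v0, h0, inner_zero_right]
    ring
  rw [← inner_self_eq_norm_sq (𝕜 := ℂ)]
  refine (RCLike.re_le_norm _).trans ?_
  rw [e1]
  refine (norm_sub_le _ _).trans ((add_le_add ((norm_sub_le _ _).trans
    (add_le_add (hb _) (r _))) (p.trans (mul_le_mul_of_nonneg_left h2 hτ))).trans (le_of_eq ?_))
  ring

end abs

variable {n : ℕ} {M : Type} [TopologicalSpace M] {A : Atl n M} {N L : LB A}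

/-- the curvature form of `h e^{-U}` plus the loss `e` -/
def Th (K : Kah A) (h : HM L) (U : M → ℝ) (e : ℝ) (i : A.ι) (x : M) (ξ : Fin n → ℂ) : ℝ :=
  hq (cur h i x) ξ + hq (hsf A U i x) ξ + e * hq (K.g i x) ξ

variable [Countable A.ι] [T2Space M] [MeasurableSpace M] [BorelSpace M]

/-- smooth weights `U ν μ` decreasing in `μ`, curvature loss `eps ν + lam ν μ` -/
structure WS (K : Kah A) (h : HM L) (vol : HM (KB A)⁻¹) (U lam : ℕ → ℕ → M → ℝ) (eps : ℕ → ℝ)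
    (C0 : ℝ) : Prop where
  sm : ∀ ν μ, A.Sm (U ν μ)
  anti : ∀ ν x, Antitone fun μ => U ν μ x
  le : ∀ ν x, U ν 0 x ≤ C0
  lm : ∀ ν μ, Measurable (lam ν μ)
  l0 : ∀ ν μ x, 0 ≤ lam ν μ x
  lb : ∀ ν, ∃ C, ∀ μ x, lam ν μ x ≤ C
  lim : ∀ ν, ∀ᵐ x ∂(vm vol), Tendsto (fun μ => lam ν μ x) atTop (𝓝 0)
  e0 : ∀ ν, 0 ≤ eps ν
  elim : Tendsto eps atTop (𝓝 0)
  pos : ∀ ν μ i, ∀ x ∈ (A.e i).source, ∀ ξ, 0 ≤ Th K h (U ν μ) (eps ν + lam ν μ x) i x ξ

/-- the weighted squared norm `∫ e^U |w|²` -/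
def nW (K : Kah A) (h : HM L) (vol : HM (KB A)⁻¹) (U : M → ℝ) (w : A.ι → M → FI n → ℂ) : ℝ :=
  ∫ x, Real.exp (U x) * (gl vol (inG K h w w) x).re ∂(vm vol)

/-- the pairing `⟨v, w⟩`, linear in `w` -/
def pr (K : Kah A) (h : HM L) (vol : HM (KB A)⁻¹) (v w : A.ι → M → FI n → ℂ) : ℂ :=
  ∫ x, gl vol (inG K h w v) x ∂(vm vol)

/-- the conclusion of the hard Lefschetz theorem -/
structure Out (K : Kah A) (h : HM ((KB A)⁻¹ * N)) (vol : HM (KB A)⁻¹) {U lam : ℕ → ℕ → M → ℝ}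
    {eps : ℕ → ℝ} {C0 : ℝ} (W : WS K h vol U lam eps C0) (Λ : CS (BN N) →ₗ[ℂ] ℂ) (B : ℝ)
    (E : Set M) (G : ℕ → ℕ → Set M) (V : A.ι → M → FI n → ℂ) : Prop where
  isV : IsV N V
  hol : ∀ i T, HolAt A i univ fun x => V i x T
  mem : MemLp (rr h vol K V) 2 (vm vol)
  bd : ∫ x, ‖rr h vol K V x‖ ^ 2 ∂(vm vol) ≤ B ^ 2 * Real.exp C0
  /-- `V` represents `Λ` on co-closed test fields -/
  rep : ∀ (w : MV N) (hw : Cs w.1), dlt h w = 0 → pr K h vol V w.1 = Λ (lowC K w hw)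
  /-- `V` is killed by the positive directions of the curvature -/
  null : ∀ (i : A.ι) (C : Set M), IsCompact C → C ⊆ (A.e i).source → ∀ b : M → Fin n → ℂ,
    ContinuousOn b C →
    (∀ ν μ, ∀ x ∈ E ∩ G ν μ ∩ C, ∀ ξ : Fin n → ℂ,
      ‖∑ a, b x a * ξ a‖ ^ 2 ≤ Th K h (U ν μ) (eps ν + lam ν μ x) i x ξ) →
    ∀ᵐ x ∂(vm vol), x ∈ E ∩ C → iW (b x) *ᵥ V i x = 0
  /-- the harmonic projection is a contraction -/
  dist : ∀ (v0 : MV N), Cs v0.1 → (∀ ν μ, dlt (tw h (U ν μ) (W.sm ν μ)) v0 = 0) → ∀ B' : ℝ,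
    0 ≤ B' → (∀ ν μ (w : MV N) (hw : Cs w.1),
      ‖Λ (lowC K w hw) - pr K h vol v0.1 w.1‖ ^ 2 ≤ B' ^ 2 * nW K h vol (U ν μ) w.1) →
    ∫ x, ‖rr h vol K V x - rr h vol K v0.1 x‖ ^ 2 ∂(vm vol) ≤ B' ^ 2 * Real.exp C0

/-- **hard Lefschetz on a complete Kaehler manifold** (proved in `Jet/HL`) -/
def HLStmt : Prop :=
  ∀ (n : ℕ) (M : Type) [TopologicalSpace M] [T2Space M] [MeasurableSpace M] [BorelSpace M]
    (A : Atl n M) [Countable A.ι] (_ : Part A) (K : Kah A), Cut K →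
    ∀ (N : LB A) (h : HM ((KB A)⁻¹ * N)) (vol : HM (KB A)⁻¹) (U lam : ℕ → ℕ → M → ℝ)
      (eps : ℕ → ℝ) (C0 : ℝ) (W : WS K h vol U lam eps C0) (Λ : CS (BN N) →ₗ[ℂ] ℂ),
      (∀ u, Λ (TsC K h u) = 0) → ∀ B : ℝ, 0 ≤ B →
      (∀ ν μ (w : MV N) (hw : Cs w.1), ‖Λ (lowC K w hw)‖ ^ 2 ≤ B ^ 2 * nW K h vol (U ν μ) w.1) →
      ∀ (E : Set M) (G : ℕ → ℕ → Set M), MeasurableSet E → (∀ ν μ, MeasurableSet (G ν μ)) →
      (∀ ν, Tendsto (fun μ => vm vol (E \ G ν μ)) atTop (𝓝 0)) →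
      ∃ V, Out K h vol W Λ B E G V

end

end Crest.Agent.X261.Jet.HL
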