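import Crest.Agent.X261.Jet.TbC
import Crest.Agent.X261.Jet.HLd

/-!
# Row 261, JET/Tube (helper66), file `TbI`: the interface structures

* `Eps L T π e u` : the twisted form `e` and the section `u` of `L` over `T` with `dπ = u e`;
* `Frm N T σ`     : a holomorphic frame of `K⁻¹ ⊗ N` over `T`;
* `nq h σ`        : the function `|σ|²_h`.
-/

set_option autoImplicit false
set_option linter.unusedSectionVars false

open Set Filter Topology Complex Matrix MeasureTheory Metric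
open scoped ContDiff Matrix ComplexConjugate ENNReal

namespace Crest.Agent.X261.Jet.Tb

open Crest.Agent.R275 Crest.Agent.R275.Geo Crest.Agent.R275.Core144
open Crest.Agent.R273.Defs_333 Crest.Agent.R273.Fock_243
open Crest.Agent.R281.Kd_22 (Cop)
open Crest.Agent.T223.Hm
open Crest.Agent.X261.Top (dW)

noncomputable section

variable {n p : ℕ} {M : Type} [TopologicalSpace M] {A : Atl n M} {T : Set M} {π : M → Cn p}
  {i j : A.ι} {x : M} {L N : LB A}

/-- a holomorphic frame of `L` over `T` -/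
structure Frm (L : LB A) (T : Set M) (σ : A.ι → M → ℂ) : Prop where
  hol : ∀ i, HolAt A i T (σ i)
  ne : ∀ i, ∀ x ∈ T, x ∈ (A.e i).source → σ i x ≠ 0
  tr : ∀ i j, ∀ x ∈ T, x ∈ (A.e i).source ∩ (A.e j).source → σ i x = L.g i j x * σ j x

/-- the twisted `p`-form `e` (values in `L⁻¹`, no common factor) and the frame `u` of `L` over `T`
with `dπ_1 ∧ … ∧ dπ_p = u e` -/
structure Eps (L : LB A) (T : Set M) (π : M → Cn p) (e : A.ι → M → FI n → ℂ)
    (u : A.ι → M → ℂ) : Prop where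
  hol : ∀ i S, HolAt A i univ fun x => e i x S
  deg : ∀ i x, Dg p (e i x)
  tr : ∀ i j, ∀ x ∈ (A.e i).source ∩ (A.e j).source,
    e i x = (L.g i j x)⁻¹ • (Gam (Jm A i j x)ᵀ *ᵥ e j x)
  cop : ∀ i, ∀ x ∈ (A.e i).source, Cop A (fun S y => e i y S) x
  frm : Frm L T u
  eq : ∀ i, ∀ x ∈ T, x ∈ (A.e i).source → dW A i π x = u i x • e i x

/-- powers of a frame -/
theorem Frm.pow {u : A.ι → M → ℂ} (F : Frm L T u) (k : ℕ) {L' : LB A}
    (h : ∀ i j, ∀ x ∈ (A.e i).source ∩ (A.e j).source, L'.g i j x = L.g i j x ^ k) :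
    Frm L' T fun i x => u i x ^ k where
  hol i := (F.hol i).pow k
  ne i x hx hi := pow_ne_zero k (F.ne i x hx hi)
  tr i j x hx hij := by rw [F.tr i j x hx hij, h i j x hij, mul_pow]

theorem Frm.mono {u : A.ι → M → ℂ} (F : Frm L T u) {T' : Set M} (h : T' ⊆ T) : Frm L T' u :=
  ⟨fun i => (F.hol i).mono h, fun i x hx => F.ne i x (h hx), fun i j x hx => F.tr i j x (h hx)⟩

/-- the quotient of a section by a frame -/
def qt [Countable A.ι] (s σ : A.ι → M → ℂ) (x : M) : ℂ := s (ix A x) x / σ (ix A x) x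

/-- the function `|σ|²_h` -/
def nq [Countable A.ι] (h : HM L) (σ : A.ι → M → ℂ) (x : M) : ℝ :=
  h.w (ix A x) x * ‖σ (ix A x) x‖ ^ 2

variable [Countable A.ι] {σ s : A.ι → M → ℂ}

theorem Frm.qt_eq (F : Frm L T σ)
    (hs : ∀ i j, ∀ x ∈ T, x ∈ (A.e i).source ∩ (A.e j).source → s i x = L.g i j x * s j x)
    (hx : x ∈ T) (hi : x ∈ (A.e i).source) : qt s σ x = s i x / σ i x := by
  rw [qt, hs _ i x hx ⟨ix_mem x, hi⟩, F.tr _ i x hx ⟨ix_mem x, hi⟩,
    mul_div_mul_left _ _ (L.ne_zero _ _ x)]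

theorem Frm.qt_hol (F : Frm L T σ) (hh : ∀ i, HolAt A i T (s i))
    (hs : ∀ i j, ∀ x ∈ T, x ∈ (A.e i).source ∩ (A.e j).source → s i x = L.g i j x * s j x)
    (i : A.ι) : HolAt A i T (qt s σ) :=
  ((hh i).mul ((F.hol i).inv fun x hi hx => F.ne i x hx hi)).congr fun _ hi hx =>
    (div_eq_mul_inv _ _).symm.trans (F.qt_eq hs hx hi).symm

theorem Frm.nq_eq (F : Frm L T σ) (h : HM L) (hx : x ∈ T) (hi : x ∈ (A.e i).source) :
    nq h σ x = h.w i x * ‖σ i x‖ ^ 2 := by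
  rw [nq, h.tr _ i x ⟨ix_mem x, hi⟩, F.tr _ i x hx ⟨ix_mem x, hi⟩, norm_mul]
  ring

theorem Frm.nq_pos (F : Frm L T σ) (h : HM L) (hx : x ∈ T) : 0 < nq h σ x :=
  mul_pos (h.pos _ x (ix_mem x)) (pow_pos (norm_pos_iff.2 (F.ne _ x hx (ix_mem x))) 2)

theorem Frm.nq_eqC (F : Frm L T σ) (h : HM L) (hx : x ∈ T) (hi : x ∈ (A.e i).source) :
    (nq h σ x : ℂ) = h.w i x * (σ i x * conj (σ i x)) := by
  rw [F.nq_eq h hx hi, Complex.mul_conj, Complex.normSq_eq_norm_sq, Complex.ofReal_mul]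

theorem Frm.nq_sa (F : Frm L T σ) (hT : IsOpen T) (h : HM L) (hx : x ∈ T)
    (hi : x ∈ (A.e i).source) : SA A i x fun y => (nq h σ y : ℂ) := by
  have h1 := sa_hol (F.hol i) hT hi hx
  refine ((sa_w h hi).mul (h1.mul h1.conj)).congr hi ?_
  filter_upwards [hT.mem_nhds hx, ev_src hi] with y h2 h3 using F.nq_eqC h h2 h3

theorem Frm.nq_cont (F : Frm L T σ) (hT : IsOpen T) (h : HM L) (hx : x ∈ T) :
    ContinuousAt (nq h σ) x := by
  have h1 : ContinuousAt (fun y => (nq h σ y : ℂ)) x :=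
    cont_of_chart (A := A) (ix_mem x) (F.nq_sa hT h hx (ix_mem x)).continuousAt
  exact (Complex.continuous_re.continuousAt.comp h1).congr (Eventually.of_forall fun y => rfl)

end

end Crest.Agent.X261.Jet.Tb
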