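import Crest.Agent.X261.Jet.HLd

/-!
# Row 261, package JET (helper6), file `HL`: the hard Lefschetz theorem on a complete Kaehler
manifold, for decreasing weights with a curvature loss
-/

set_option autoImplicit false
set_option linter.unusedSectionVars false
set_option linter.style.haveILetI false

open Set Filter Topology Complex Matrix MeasureTheory
open scoped ContDiff Matrix ComplexConjugate ComplexOrder ENNReal InnerProductSpace

namespace Crest.Agent.X261.Jet.HL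

open Crest.Agent.R275 Crest.Agent.R275.Geo Crest.Agent.R275.Core144
open Crest.Agent.R273.Defs_333 Crest.Agent.R273.HM_333 Crest.Agent.R273.Kah_333
open Crest.Agent.R273.Vm_333 Crest.Agent.R273.Fock_243 Crest.Agent.R273.Pos_243
open Crest.Agent.R273.Bkn_243 (Cv T1)
open Crest.Agent.R273.LamN127 Crest.Agent.R273.DVec_733 Crest.Agent.R273.DMetB_733
open Crest.Agent.R273.DMet_733 (low)
open Crest.Agent.R273.HDN_505 (HB HB_pos)
open Crest.Agent.R273.BKNa_37 (IsV)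
open Crest.Agent.R273.BKNb_37 (inG inD inT)
open Crest.Agent.R273.BKNc_37 (inG_isD inD_isD inT_isD)
open Crest.Agent.T223.Hm (gl Cs Cut hq ix ix_mem gl_eq contOn_smAt)
open Crest.Agent.X261.Hs Crest.Agent.X261.Jet.Fr Crest.Agent.X261.Jet.Abs

noncomputable section

theorem eq_of_inner {S : Type*} [AddCommGroup S] [Module ℂ S] (c : InnerProductSpace.Core ℂ S)
    {a b : S} (h : ∀ u, c.inner u a = c.inner u b) : a = b := by
  letI : NormedAddCommGroup S := c.toNormedAddCommGroup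
  letI : InnerProductSpace ℂ S := .ofCore c.toCore
  exact ext_inner_left ℂ h

theorem sq_le_of {x a b : ℝ} (h : x ^ 2 ≤ a * x + b) : x ^ 2 ≤ a ^ 2 + 2 * b := by
  nlinarith [sq_nonneg (x - a)]

variable {n : ℕ}

theorem Cv_ge {g th : Matrix (Fin n) (Fin n) ℂ} (hg : g.PosDef) (hh : th.IsHermitian) {e : ℝ}
    (he : 0 ≤ e) {b : Fin n → ℂ} (hb : ∀ ξ, ‖∑ a, b a * ξ a‖ ^ 2 ≤ hq th ξ + e * hq g ξ)
    (w : FI n → ℂ) : (star (iW b *ᵥ w) ⬝ᵥ (Gam gᵀ *ᵥ (iW b *ᵥ w))).re ≤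
      (Cv (Gam gᵀ) th w w).re + n * e * (star w ⬝ᵥ (Gam gᵀ *ᵥ w)).re := by
  have h1 : (th + (e : ℂ) • g + ((-1 : ℝ) : ℂ) • rk1 (star b)).PosSemidef := by
    refine psd_of_hq ?_ fun ξ => ?_
    · unfold Matrix.IsHermitian
      rw [Matrix.conjTranspose_add, Matrix.conjTranspose_add, Matrix.conjTranspose_smul,
        Matrix.conjTranspose_smul, hh.eq, hg.isHermitian.eq, (rk1_herm _).eq, Complex.star_def,
        Complex.conj_ofReal, Complex.conj_ofReal]
    · have h2 : ‖star ξ ⬝ᵥ star b‖ = ‖∑ a, b a * ξ a‖ := by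
        rw [← Complex.norm_conj, dotProduct, map_sum]
        congr 1
        exact Finset.sum_congr rfl fun a _ => by simp [mul_comm]
      rw [hq_add, hq_add, hq_smul, hq_smul, hq_rk1, h2]
      linarith [hb ξ]
  have h2 := (Complex.le_def.1 (Cv_nonneg (Gam_posSemidef hg.transpose.posSemidef) h1 w)).1
  rw [Cv_add, Cv_add, Cv_smul', Cv_smul', Complex.add_re, Complex.add_re, Complex.re_ofReal_mul,
    Complex.re_ofReal_mul, Cv_rank, star_star, Complex.zero_re] at h2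
  have h3 := mul_le_mul_of_nonneg_left (Cv_g_le hg w) he
  linarith

variable {M : Type} [TopologicalSpace M] {A : Atl n M} {N : LB A} [Countable A.ι] [T2Space M]
  [MeasurableSpace M] [BorelSpace M] (h : HM ((KB A)⁻¹ * N)) (vol : HM (KB A)⁻¹) (K : Kah A)

/-- the unitary representative of a test form -/
def rC (u : CS (BN N)) : M → EV n := rr h vol K (highC K u).1

theorem pf_rC (u w : CS (BN N)) (x : M) :
    pf vol (HB K h) u.1 w.1 x = ⟪rC h vol K u x, rC h vol K w x⟫_ℂ := by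
  rw [rC, rC, inner_rr, ← pf_low, highC, highC, LinearEquiv.apply_symm_apply,
    LinearEquiv.apply_symm_apply]

theorem pq_rC (u : CS (BN N)) (x : M) : pq vol (HB K h) u.1 x = ‖rC h vol K u x‖ ^ 2 := by
  rw [Hs.pq, pf_rC, ← inner_self_eq_norm_sq (𝕜 := ℂ)]
  rfl

theorem pq_high (u : CS (BN N)) (x : M) :
    pq vol (HB K h) u.1 x = (gl vol (inG K h (highC K u).1 (highC K u).1) x).re := by
  rw [pq_rC, rC, norm_rr]

theorem rC_sub (u w : CS (BN N)) (x : M) :
    rC h vol K (u - w) x = rC h vol K u x - rC h vol K w x := by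
  have h1 : highC K (u - w) = highC K u - highC K w := map_sub (low K N).symm u.1 w.1
  rw [rC, rC, rC, h1, rr, rr, rr, eq_sub_iff_add_eq, ← tV_add]
  congr 1
  exact sub_add_cancel _ _

theorem rC_low (v : MV N) (hv : Cs v.1) : rC h vol K (lowC K v hv) = rr h vol K v.1 := by
  rw [rC, highC_lowC]

theorem sm_exp {U : M → ℝ} (hU : A.Sm U) (s : ℝ) : A.Sm fun x => (Real.exp (s * U x) : ℂ) :=
  fun i => Complex.ofRealCLM.contDiff.comp_contDiffOn
    (Real.contDiff_exp.comp_contDiffOn (contDiffOn_const.mul (hU i)))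

/-- multiplication by `exp (s U)` -/
def em (N : LB A) {U : M → ℝ} (hU : A.Sm U) (s : ℝ) : CS (BN N) →ₗ[ℂ] CS (BN N) :=
  mulC _ (sm_exp hU s)

variable {U : M → ℝ} (hU : A.Sm U)

theorem em_em (u : CS (BN N)) : em N hU (-1) (em N hU 1 u) = u := by
  refine Subtype.ext (Subtype.ext (funext fun i => funext fun x => ?_))
  rw [em, em, mulC_apply, mulC_apply, smul_smul, ← Complex.ofReal_mul, ← Real.exp_add, neg_one_mul,
    one_mul, neg_add_cancel, Real.exp_zero, Complex.ofReal_one]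
  exact one_smul ℂ _

theorem inner_em (u w : CS (BN N)) :
    (cH vol K h).inner u (em N hU (-1) w) = (cH vol K (tw h U hU)).inner u w := by
  rw [c1_inner, c1_inner]
  refine integral_congr_ae (Eventually.of_forall fun x => ?_)
  rw [em, pf_mul_right, pf_tw, neg_one_mul]

theorem nW_em (u : CS (BN N)) :
    nW K h vol U (highC K (em N hU (-1) u)).1 = nr (cH vol K (tw h U hU)) u ^ 2 := by
  rw [nrm_c1_sq, nW]
  refine integral_congr_ae (Eventually.of_forall fun x => ?_)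
  simp only
  rw [← pq_high, em, pq_mul, pq_tw, Complex.norm_real, Real.norm_eq_abs, sq_abs, sq,
    ← Real.exp_add, ← mul_assoc, ← Real.exp_add]
  congr 2
  ring

include vol in
theorem em_Ts (P : Part A) (w : CS (BN N)) :
    em N hU (-1) (TsC K (tw h U hU) w) = TsC K h (em N hU (-1) w) :=
  eq_of_inner (cH vol K h) fun u => by
    rw [inner_em, ← hadjC vol K _ P, ← hadjC vol K _ P, inner_em]

theorem pq_le_tw {C0 : ℝ} (hC : ∀ x, U x ≤ C0) (u : CS (BN N)) (x : M) :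
    pq vol (HB K h) u.1 x ≤ Real.exp C0 * pq vol (HB K (tw h U hU)) u.1 x := by
  rw [pq_tw, ← mul_assoc, ← Real.exp_add]
  exact le_mul_of_one_le_left (pq_nonneg vol _ _ x) (Real.one_le_exp (by linarith [hC x]))

theorem int_rC_le {C0 : ℝ} (hC : ∀ x, U x ≤ C0) (u : CS (BN N)) :
    ∫ x, ‖rC h vol K u x‖ ^ 2 ∂(vm vol) ≤ Real.exp C0 * nr (cH vol K (tw h U hU)) u ^ 2 := by
  rw [nrm_c1_sq, ← integral_const_mul]
  simp only [← pq_rC]
  exact integral_mono (integrable_pq1 vol _ u) ((integrable_pq1 vol _ u).const_mul _)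
    (pq_le_tw h vol K hU hC u)

theorem nr_em_le {C0 : ℝ} (hC : ∀ x, U x ≤ C0) (u : CS (BN N)) :
    nr (cH vol K (tw h U hU)) (em N hU 1 u) ≤ Real.exp (C0 / 2) * nr (cH vol K h) u :=
  nrm_le_of_pt vol _ (HB_pos K _) wg_one (HB_pos K h) wg_one (Real.exp_pos _).le fun x => by
    rw [one_mul, one_mul, em, pq_mul, pq_tw, Complex.norm_real, Real.norm_eq_abs, sq_abs, sq, sq,
      ← Real.exp_add, ← Real.exp_add, ← mul_assoc, ← Real.exp_add]
    exact mul_le_mul_of_nonneg_right (Real.exp_le_exp.2 (by linarith [hC x])) (pq_nonneg vol _ _ x)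

/-- the curvature loss -/
def qL (h : HM ((KB A)⁻¹ * N)) (e : M → ℝ) (u : CS (BN N)) : ℝ :=
  ∫ x, n * e x * pq vol (HB K h) u.1 x ∂(vm vol)

theorem integrable_qL {e : M → ℝ} (hm : Measurable e) (h0 : ∀ x, 0 ≤ e x) {C : ℝ}
    (hb : ∀ x, e x ≤ C) (u : CS (BN N)) :
    Integrable (fun x => n * e x * pq vol (HB K h) u.1 x) (vm vol) := by
  simpa only [mul_assoc] using
    (integrable_pq vol (HB K h) hm h0 (fun _ _ => ⟨C, fun x _ => hb x⟩) u).const_mul (n : ℝ)

theorem qL_le {Φ lam : ℕ → M → ℝ} (sm : ∀ μ, A.Sm (Φ μ)) (anti : ∀ x, Antitone fun μ => Φ μ x)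
    (lm : ∀ μ, Measurable (lam μ)) (l0 : ∀ μ x, 0 ≤ lam μ x) {C : ℝ} (lb : ∀ μ x, lam μ x ≤ C)
    (hC : 0 ≤ C) (lim : ∀ᵐ x ∂(vm vol), Tendsto (fun μ => lam μ x) atTop (𝓝 0)) {ε : ℝ}
    (hε : 0 ≤ ε) (μ0 : ℕ) (w : CS (BN N)) {δ : ℝ} (hδ : 0 < δ) :
    ∀ᶠ μ in atTop, ∀ v, qL vol K (tw h (Φ μ) (sm μ)) (fun x => ε + lam μ x) v ≤
      n * ε * nr (cH vol K (tw h (Φ μ) (sm μ))) v ^ 2 + δ +
        2 * n * C * (nr (cH vol K (tw h (Φ μ) (sm μ))) v ^ 2 -
          nr (cH vol K (tw h (Φ μ0) (sm μ0))) v ^ 2) +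
        2 * n * C * nr (cH vol K (tw h (Φ μ0) (sm μ0))) (v - w) ^ 2 := by
  have h1 : Tendsto (fun μ => ∫ x, n * lam μ x * pq vol (HB K (tw h (Φ μ0) (sm μ0))) w.1 x
      ∂(vm vol)) atTop (𝓝 (∫ _, (0 : ℝ) ∂(vm vol))) := by
    refine tendsto_integral_of_dominated_convergence
      (fun x => n * C * pq vol (HB K (tw h (Φ μ0) (sm μ0))) w.1 x)
      (fun μ => (integrable_qL _ vol K (lm μ) (l0 μ) (lb μ) w).1)
      ((integrable_pq1 vol _ w).const_mul _) (fun μ => Eventually.of_forall fun x => ?_) ?_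
    · have := pq_nonneg vol (HB K (tw h (Φ μ0) (sm μ0))) w.1 x
      have := l0 μ x
      rw [Real.norm_of_nonneg (by positivity)]
      gcongr
      exact lb μ x
    · filter_upwards [lim] with x hx
      simpa using (hx.const_mul (n : ℝ)).mul_const (pq vol (HB K (tw h (Φ μ0) (sm μ0))) w.1 x)
  rw [integral_zero] at h1
  filter_upwards [eventually_ge_atTop μ0, h1.eventually (eventually_lt_nhds (half_pos hδ))]
    with μ hμ hw v
  have i1 := integrable_pq1 vol (HB K (tw h (Φ μ) (sm μ))) v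
  have i2 := integrable_pq1 vol (HB K (tw h (Φ μ0) (sm μ0))) v
  have i3 := integrable_pq1 vol (HB K (tw h (Φ μ0) (sm μ0))) (v - w)
  have i4 := integrable_qL (tw h (Φ μ0) (sm μ0)) vol K (lm μ) (l0 μ) (lb μ) w
  have h2 := integral_mono (integrable_qL (tw h (Φ μ) (sm μ)) vol K (e := fun x => ε + lam μ x)
      (measurable_const.add (lm μ)) (fun x => add_nonneg hε (l0 μ x))
      (fun x => add_le_add_right (lb μ x) ε) v)
    ((((i1.const_mul (n * ε)).add (i4.const_mul 2)).add ((i1.sub i2).const_mul (2 * n * C))).add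
      (i3.const_mul (2 * n * C))) fun x => by
      have a1 : pq vol (HB K (tw h (Φ μ0) (sm μ0))) v.1 x ≤
          pq vol (HB K (tw h (Φ μ) (sm μ))) v.1 x := by
        rw [pq_tw, pq_tw]
        exact mul_le_mul_of_nonneg_right (Real.exp_le_exp.2 (neg_le_neg (anti x hμ)))
          (pq_nonneg vol _ _ x)
      have a2 := pq_add_le vol (HB K (tw h (Φ μ0) (sm μ0))) (v - w).1 w.1 x
      have a0 : (v - w).1 + w.1 = v.1 := sub_add_cancel v.1 w.1
      rw [a0] at a2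
      have a3 := pq_nonneg vol (HB K (tw h (Φ μ0) (sm μ0))) (v - w).1 x
      have a4 := l0 μ x
      have a5 := lb μ x
      have a6 : (0 : ℝ) ≤ n := Nat.cast_nonneg n
      simp only [Pi.add_apply, Pi.sub_apply]
      generalize pq vol (HB K (tw h (Φ μ) (sm μ))) v.1 x = p1 at *
      generalize pq vol (HB K (tw h (Φ μ0) (sm μ0))) v.1 x = p2 at *
      generalize pq vol (HB K (tw h (Φ μ0) (sm μ0))) (v - w).1 x = p3 at *
      generalize pq vol (HB K (tw h (Φ μ0) (sm μ0))) w.1 x = p4 at *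
      have b1 : lam μ x * (p1 - p2) ≤ 2 * C * (p1 - p2) :=
        mul_le_mul_of_nonneg_right (by linarith) (by linarith)
      have b2 : lam μ x * p2 ≤ lam μ x * (2 * p3 + 2 * p4) := mul_le_mul_of_nonneg_left a2 a4
      have b3 : lam μ x * p3 ≤ C * p3 := mul_le_mul_of_nonneg_right a5 a3
      have b4 : lam μ x * p1 ≤ 2 * (lam μ x * p4) + 2 * C * (p1 - p2) + 2 * C * p3 := by linarith
      nlinarith [mul_le_mul_of_nonneg_left b4 a6]
  rw [integral_add' (((i1.const_mul (n * ε)).add (i4.const_mul 2)).add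
      ((i1.sub i2).const_mul (2 * n * C))) (i3.const_mul (2 * n * C)),
    integral_add' ((i1.const_mul (n * ε)).add (i4.const_mul 2)) ((i1.sub i2).const_mul _),
    integral_add' (i1.const_mul _) (i4.const_mul 2), integral_const_mul, integral_const_mul,
    integral_const_mul, integral_const_mul, integral_sub' i1 i2] at h2
  rw [nrm_c1_sq, nrm_c1_sq, nrm_c1_sq, qL]
  linarith

/-- the curvature density plus the loss -/
def cvL (h : HM ((KB A)⁻¹ * N)) (e : M → ℝ) (u : CS (BN N)) (x : M) : ℝ :=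
  (gl vol (inT K h (highC K u).1 (highC K u).1) x).re + n * e x * pq vol (HB K h) u.1 x

theorem cvL_ge {e : M → ℝ} {x : M} (he : 0 ≤ e x) {i : A.ι} (hx : x ∈ (A.e i).source)
    {b : Fin n → ℂ} (hb : ∀ ξ, ‖∑ a, b a * ξ a‖ ^ 2 ≤ Th K h U (e x) i x ξ) (u : CS (BN N)) :
    Real.exp (-U x) * ‖tV h vol K i x (iW b *ᵥ (highC K u).1 i x)‖ ^ 2 ≤
      cvL vol K (tw h U hU) e u x := by
  have hv := isV (highC K u)
  have h1 := Cv_ge (K.pos i x hx) (cur_herm (tw h U hU) i hx) he (b := b)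
    (fun ξ => by rw [cur_tw h hU i hx, hq_add]; exact hb ξ) ((highC K u).1 i x)
  rw [cvL, pq_high, gl_eq (inT_isD (K := K) _ hv hv).tr hx, gl_eq (inG_isD (K := K) _ hv hv).tr hx,
    norm_tV h vol K hx, ← Complex.ofReal_inv, Complex.re_ofReal_mul, Complex.re_ofReal_mul, inT,
    inG, Complex.re_ofReal_mul, Complex.re_ofReal_mul, gq]
  have h2 : (tw h U hU).w i x = h.w i x * Real.exp (-U x) := rfl
  have h3 := mul_le_mul_of_nonneg_left h1 (mul_pos (inv_pos.2 (vol.pos i x hx))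
    (mul_pos (h.pos i x hx) (Real.exp_pos (-U x)))).le
  rw [h2]
  linarith

theorem cvL_nonneg {e : M → ℝ} (he : ∀ x, 0 ≤ e x)
    (hb : ∀ i, ∀ x ∈ (A.e i).source, ∀ ξ, 0 ≤ Th K h U (e x) i x ξ) (u : CS (BN N)) (x : M) :
    0 ≤ cvL vol K (tw h U hU) e u x :=
  le_trans (by positivity) (cvL_ge h vol K hU (he x) (ix_mem x) (b := 0)
    (fun ξ => by simpa using hb _ x (ix_mem x) ξ) u)

theorem integrable_cvL (P : Part A) {e : M → ℝ} (hm : Measurable e) (h0 : ∀ x, 0 ≤ e x) {C : ℝ}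
    (hb : ∀ x, e x ≤ C) (u : CS (BN N)) : Integrable (cvL vol K h e u) (vm vol) :=
  (integrable_inT vol K h P _ (highC_cs K u)).re.add (integrable_qL h vol K hm h0 hb u)

theorem energy (P : Part A) {e : M → ℝ} (hm : Measurable e) (h0 : ∀ x, 0 ≤ e x) {C : ℝ}
    (hb : ∀ x, e x ≤ C) (u : CS (BN N)) :
    ∫ x, (gl vol (inD K h (highC K u).1 (highC K u).1) x).re ∂(vm vol) +
      ∫ x, cvL vol K h e u x ∂(vm vol) =
      nr (cH vol K h) (TC N u) ^ 2 + nr (cH vol K h) (TsC K h u) ^ 2 + qL vol K h e u := by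
  have h1 := congrArg Complex.re (bknC vol K h P _ (highC_cs K u))
  have e1 := integral_re (𝕜 := ℂ) (integrable_inT vol K h P _ (highC_cs K u))
  have e2 := integral_re (𝕜 := ℂ) (integrable_inD vol K h P _ (highC_cs K u))
  simp only [RCLike.re_to_complex] at e1 e2
  rw [Complex.add_re, Complex.ofReal_re, ← e1, ← e2, lowC_highC] at h1
  have e3 : ∫ x, cvL vol K h e u x ∂(vm vol) =
      ∫ x, (gl vol (inT K h (highC K u).1 (highC K u).1) x).re ∂(vm vol) + qL vol K h e u :=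
    integral_add (integrable_inT vol K h P _ (highC_cs K u)).re (integrable_qL h vol K hm h0 hb u)
  rw [e3, ← h1]
  ring

theorem inD_le_tw {C0 : ℝ} (hC : ∀ x, U x ≤ C0) {v : A.ι → M → FI n → ℂ} (hv : IsV N v)
    (hc : Cs v) : ∫ x, (gl vol (inD K h v v) x).re ∂(vm vol) ≤
      Real.exp C0 * ∫ x, (gl vol (inD K (tw h U hU) v v) x).re ∂(vm vol) := by
  rw [← integral_const_mul]
  refine integral_mono (Lim.integrable_inD h vol K hv hc).re
    ((Lim.integrable_inD _ vol K hv hc).re.const_mul _) fun x => ?_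
  have h1 : gl vol (inD K (tw h U hU) v v) x = Real.exp (-U x) * gl vol (inD K h v v) x := by
    have h2 : (tw h U hU).w (ix A x) x = h.w (ix A x) x * Real.exp (-U x) := rfl
    simp only [gl, inD, h2, Complex.real_smul]
    push_cast
    ring
  simp only
  rw [h1, Complex.re_ofReal_mul, ← mul_assoc, ← Real.exp_add]
  exact le_mul_of_one_le_left (Lim.inD_re_nonneg h vol K v x) (Real.one_le_exp (by linarith [hC x]))

/-- lower semicontinuity of the distance under weak convergence -/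
theorem lsc {ι : Type*} {F : Filter ι} [F.NeBot] {μ : Measure M} {v : ι → M → EV n} {V z : M → EV n}
    (hv : ∀ j, MemLp (v j) 2 μ) (hV : MemLp V 2 μ) (hz : MemLp z 2 μ)
    (hl : ∀ w : M → EV n, MemLp w 2 μ →
      Tendsto (fun j => ∫ x, ⟪w x, v j x⟫_ℂ ∂μ) F (𝓝 (∫ x, ⟪w x, V x⟫_ℂ ∂μ)))
    {c : ι → ℝ} {C : ℝ} (hc : Tendsto c F (𝓝 C)) (hb : ∀ j, ∫ x, ‖v j x - z x‖ ^ 2 ∂μ ≤ c j) :
    ∫ x, ‖V x - z x‖ ^ 2 ∂μ ≤ C := by
  have hw := hV.sub hz
  have h1 := hl _ hw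
  rw [← Lim.inner_toLp hV hw] at h1
  have h2 : Tendsto (fun j => ⟪hw.toLp _, (hv j).toLp _ - hz.toLp _⟫_ℂ) F
      (𝓝 ⟪hw.toLp _, hV.toLp _ - hz.toLp _⟫_ℂ) := by
    simp only [inner_sub_right]
    exact (h1.congr fun j => (Lim.inner_toLp (hv j) hw).symm).sub_const _
  rw [← MemLp.toLp_sub] at h2
  have h3 : ‖hw.toLp _‖ ^ 2 = ∫ x, ‖V x - z x‖ ^ 2 ∂μ := Lim.norm_toLp_sq hw
  have h4 : ∀ j, ‖(hv j).toLp _ - hz.toLp _‖ ^ 2 ≤ c j := fun j => by
    rw [← MemLp.toLp_sub, Lim.norm_toLp_sq]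
    exact hb j
  have h5 := le_of_tendsto_of_tendsto' (h2.norm.pow 2) (hc.const_mul (‖hw.toLp _‖ ^ 2)) fun j =>
    (pow_le_pow_left₀ (norm_nonneg _) (norm_inner_le_norm _ _) 2).trans (by
      rw [mul_pow]
      exact mul_le_mul_of_nonneg_left (h4 j) (sq_nonneg _))
  have hC : 0 ≤ C := ge_of_tendsto' hc fun j => (sq_nonneg _).trans (h4 j)
  rw [inner_self_eq_norm_sq_to_K, norm_pow, RCLike.norm_ofReal, abs_norm] at h5
  rw [← h3]
  rcases (sq_nonneg ‖hw.toLp _‖).eq_or_lt with h6 | h6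
  · rw [← h6]; exact hC
  · nlinarith

/-- one level of the double sequence -/
theorem level (P : Part A) (hcut : Cut K) {U lam : ℕ → ℕ → M → ℝ} {eps : ℕ → ℝ} {C0 : ℝ}
    (W : WS K h vol U lam eps C0) (Λ : CS (BN N) →ₗ[ℂ] ℂ) (h0 : ∀ u, Λ (TsC K h u) = 0) {B : ℝ}
    (hB : 0 ≤ B) (hΛ : ∀ ν μ (w : MV N) (hw : Cs w.1),
      ‖Λ (lowC K w hw)‖ ^ 2 ≤ B ^ 2 * nW K h vol (U ν μ) w.1) (ν : ℕ) {η : ℝ} (hη : 0 < η)
    {p : ℕ → Prop} (hp : ∀ᶠ μ in atTop, p μ) :
    ∃ μ v u, p μ ∧ Abs.Hm (cH vol K (tw h (U ν μ) (W.sm ν μ))).toCore (TC N)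
        (TsC K (tw h (U ν μ) (W.sm ν μ))) (Λ ∘ₗ em N (W.sm ν μ) (-1)) B η v u ∧
      qL vol K (tw h (U ν μ) (W.sm ν μ)) (fun x => eps ν + lam ν μ x) v ≤
        n * eps ν * (B + η) ^ 2 + η := by
  obtain ⟨C, hC⟩ := W.lb ν
  refine hl_abs (fun μ => (cH vol K (tw h (U ν μ) (W.sm ν μ))).toCore) (TC N)
    (fun μ => TsC K (tw h (U ν μ) (W.sm ν μ))) (fun μ => Λ ∘ₗ em N (W.sm ν μ) (-1))
    (fun μ μ' hμ u => nr_tw_mono vol K h (W.sm ν μ) (W.sm ν μ') (fun x => W.anti ν x hμ) u)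
    (fun μ μ' _ w => ⟨mulC _ (sm_expC (W.sm ν μ') (W.sm ν μ)) w,
      fun u => cH_tw vol K h (W.sm ν μ') (W.sm ν μ) _ u w, congrArg Λ ?_⟩)
    (fun μ => hadjC vol K _ P) hTTC
    (fun μ => fr0_of_cutP _ _ _ (hadjC vol K _ P) fun g =>
      cutP vol K _ P hcut g _ fun _ _ _ _ => le_rfl)
    hB (ε := n * eps ν) (Cq := 2 * n * |C|) (mul_nonneg (Nat.cast_nonneg n) (W.e0 ν))
    (by positivity) (fun μ w => ?_) (fun μ w => ?_) _
    (fun μ0 w δ hδ => qL_le h vol K (W.sm ν) (W.anti ν) (W.lm ν) (W.l0 ν)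
      (fun μ x => (hC μ x).trans (le_abs_self C)) (abs_nonneg C) (W.lim ν) (W.e0 ν) μ0 w hδ) hη hp
  · refine Subtype.ext (Subtype.ext (funext fun i => funext fun x => ?_))
    rw [em, em, mulC_apply, mulC_apply, mulC_apply, smul_smul, ← Complex.ofReal_mul, ← Real.exp_add]
    congr 3
    ring
  · have h1 := hΛ ν μ _ (highC_cs K (em N (W.sm ν μ) (-1) w))
    rw [lowC_highC, nW_em, ← mul_pow] at h1
    exact (pow_le_pow_iff_left₀ (norm_nonneg _) (mul_nonneg hB (nr_nonneg _ _)) two_ne_zero).1 h1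
  · exact (congrArg Λ (em_Ts h vol K (W.sm ν μ) P w)).trans (h0 _)

theorem conj_pr (v w : A.ι → M → FI n → ℂ) :
    conj (∫ x, ⟪rr h vol K w x, rr h vol K v x⟫_ℂ ∂(vm vol)) = pr K h vol v w := by
  rw [← integral_conj, pr]
  refine integral_congr_ae (Eventually.of_forall fun x => ?_)
  simp only
  rw [inner_conj_symm, inner_rr]

theorem pr_high (u w : CS (BN N)) :
    pr K h vol (highC K u).1 (highC K w).1 = (cH vol K h).inner u w := by
  rw [pr, ← cH_low vol K h _ _ (highC_cs K u) (highC_cs K w), lowC_highC, lowC_highC]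

theorem int_lcV_le (P : Part A) {C0 : ℝ} (hC : ∀ x, U x ≤ C0) {e : M → ℝ} (hm : Measurable e)
    (h0 : ∀ x, 0 ≤ e x) {c : ℝ} (hc : ∀ x, e x ≤ c)
    (hpos : ∀ i, ∀ x ∈ (A.e i).source, ∀ ξ, 0 ≤ Th K h U (e x) i x ξ) {i : A.ι} {E : Set M}
    (hs : E ⊆ (A.e i).source) {b : M → Fin n → ℂ}
    (hb : ∀ x ∈ E, ∀ ξ, ‖∑ a, b x a * ξ a‖ ^ 2 ≤ Th K h U (e x) i x ξ) (u : CS (BN N)) :
    ∫ x, ‖lcV h vol K i E (fun x => iW (b x) *ᵥ (highC K u).1 i x) x‖ ^ 2 ∂(vm vol) ≤
      Real.exp C0 * ∫ x, cvL vol K (tw h U hU) e u x ∂(vm vol) := by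
  rw [← integral_const_mul]
  refine integral_mono_of_nonneg (Eventually.of_forall fun x => by positivity)
    ((integrable_cvL _ vol K P hm h0 hc u).const_mul _) (Eventually.of_forall fun x => ?_)
  have h1 := cvL_nonneg h vol K hU h0 hpos u x
  simp only [lcV]
  by_cases hx : x ∈ E
  · have h2 := mul_le_mul_of_nonneg_left (cvL_ge h vol K hU (h0 x) (hs hx) (hb x hx) u)
      (Real.exp_pos C0).le
    rw [indicator_of_mem hx]
    refine le_trans ?_ h2
    rw [← mul_assoc, ← Real.exp_add]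
    exact le_mul_of_one_le_left (sq_nonneg _) (Real.one_le_exp (by linarith [hC x]))
  · rw [indicator_of_notMem hx, norm_zero, zero_pow two_ne_zero]
    positivity

theorem Ts_zero {w : MV N} (hw : Cs w.1) (hd : dlt h w = 0) : TsC K h (lowC K w hw) = 0 := by
  rw [TsC_low]
  refine Subtype.ext ?_
  change -(low K N (dlt h w)) = 0
  rw [hd, map_zero, neg_zero]

theorem cont_iW : Continuous (iW : (Fin n → ℂ) → Matrix (FI n) (FI n) ℂ) := by
  have h1 : (iW : (Fin n → ℂ) → Matrix (FI n) (FI n) ℂ) = fun v => ∑ j, v j • iW (ep j) :=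
    funext iW_eq_sum
  rw [h1]
  exact continuous_finsetSum _ fun j _ => (continuous_apply j).smul continuous_const

/-- **hard Lefschetz on a complete Kaehler manifold** -/
theorem hl : HLStmt := by
  intro n M _ _ _ _ A _ P K hcut N h vol U lam eps C0 W Λ h0 B hB hΛ E G hE hG hEG
  obtain ⟨η, hη, lη⟩ : ∃ η : ℕ → ℝ, (∀ ν, 0 < η ν) ∧ Tendsto η atTop (𝓝 0) :=
    ⟨fun ν => 1 / ((ν : ℝ) + 1), fun ν => by positivity, tendsto_one_div_add_atTop_nhds_zero_nat⟩
  choose μ v u hp H hq using fun ν => level h vol K P hcut W Λ h0 hB hΛ ν (hη ν)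
    ((hEG ν).eventually (eventually_lt_nhds (show (0 : ℝ≥0∞) < 2⁻¹ ^ ν from
      ENNReal.pow_pos (by simp) ν)))
  have hU : ∀ ν x, U ν (μ ν) x ≤ C0 := fun ν x => (W.anti ν x (Nat.zero_le _)).trans (W.le ν x)
  have hem : ∀ ν, Measurable fun x => eps ν + lam ν (μ ν) x := fun ν =>
    measurable_const.add (W.lm ν _)
  have he0 : ∀ ν x, 0 ≤ eps ν + lam ν (μ ν) x := fun ν x => add_nonneg (W.e0 ν) (W.l0 ν _ x)
  choose c hc using W.lb
  have hec : ∀ ν x, eps ν + lam ν (μ ν) x ≤ eps ν + c ν := fun ν x => add_le_add_right (hc ν _ x) _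
  obtain ⟨s, hs⟩ : ∃ s : ℕ → ℝ, s = fun ν =>
    Real.exp C0 * (η ν ^ 2 + η ν ^ 2 + (n * eps ν * (B + η ν) ^ 2 + η ν)) := ⟨_, rfl⟩
  have ls : Tendsto s atTop (𝓝 0) := by
    have h1 := (((lη.pow 2).add (lη.pow 2)).add ((((W.elim.const_mul (n : ℝ)).mul
      ((lη.const_add B).pow 2))).add lη)).const_mul (Real.exp C0)
    rw [hs]
    simpa using h1
  have hen : ∀ ν, Real.exp C0 * (∫ x, (gl vol (inD K (tw h (U ν (μ ν)) (W.sm ν _))
      (highC K (v ν)).1 (highC K (v ν)).1) x).re ∂(vm vol)) +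
      Real.exp C0 * ∫ x, cvL vol K (tw h (U ν (μ ν)) (W.sm ν _)) (fun x => eps ν + lam ν (μ ν) x)
        (v ν) x ∂(vm vol) ≤ s ν := fun ν => by
    rw [← mul_add, energy _ vol K P (hem ν) (he0 ν) (hec ν), hs]
    refine mul_le_mul_of_nonneg_left (add_le_add (add_le_add ?_ ?_) (hq ν)) (Real.exp_pos _).le
    · exact pow_le_pow_left₀ (nr_nonneg _ _) (H ν).t 2
    · exact pow_le_pow_left₀ (nr_nonneg _ _) (H ν).ts 2
  have hD0 : ∀ ν, 0 ≤ Real.exp C0 * (∫ x, (gl vol (inD K (tw h (U ν (μ ν)) (W.sm ν _))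
      (highC K (v ν)).1 (highC K (v ν)).1) x).re ∂(vm vol)) := fun ν =>
    mul_nonneg (Real.exp_pos _).le (integral_nonneg (Lim.inD_re_nonneg _ vol K _))
  have hF0 : ∀ ν, 0 ≤ Real.exp C0 * ∫ x, cvL vol K (tw h (U ν (μ ν)) (W.sm ν _))
      (fun x => eps ν + lam ν (μ ν) x) (v ν) x ∂(vm vol) := fun ν =>
    mul_nonneg (Real.exp_pos _).le
      (integral_nonneg (cvL_nonneg h vol K (W.sm ν _) (he0 ν) (W.pos ν _) (v ν)))
  have hbd : ∀ ν, ∫ x, ‖rC h vol K (v ν) x‖ ^ 2 ∂(vm vol) ≤ Real.exp C0 * (B + η ν) ^ 2 := fun ν =>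
    (int_rC_le h vol K (W.sm ν _) (hU ν) (v ν)).trans (mul_le_mul_of_nonneg_left
      (pow_le_pow_left₀ (nr_nonneg _ _) (H ν).bd 2) (Real.exp_pos _).le)
  have hUl : ((Ultrafilter.of (atTop : Filter ℕ) : Ultrafilter ℕ) : Filter ℕ) ≤ atTop :=
    Ultrafilter.of_le _
  have hmem : ∀ w : CS (BN N), MemLp (rC h vol K w) 2 (vm vol) := fun w =>
    memLp_rr h vol K (isV _) (highC_cs K w)
  obtain ⟨V, hV, hH, hm, -, hl⟩ := Lim.lim h vol K (Ultrafilter.of atTop)
    (fun ν => (highC K (v ν)).1) (fun ν => isV _) (fun ν => highC_cs K _)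
    (C := Real.exp (C0 / 2) * (B + 1)) (by positivity) (by
      filter_upwards [hUl (lη.eventually (eventually_lt_nhds one_pos))] with ν hν
      refine (hbd ν).trans ?_
      rw [mul_pow, sq (Real.exp _), ← Real.exp_add, add_halves]
      have := hη ν
      gcongr)
    (squeeze_zero (fun ν => integral_nonneg (Lim.inD_re_nonneg h vol K _))
      (fun ν => (inD_le_tw h vol K (W.sm ν _) (hU ν) (isV _) (highC_cs K _)).trans
        (by linarith [hen ν, hF0 ν])) (ls.mono_left hUl))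
  refine ⟨V, hV, hH, hm, ?_, fun w hw hd => ?_, fun i C hC hCs b hb hbT => ?_,
    fun v0 hv0 hd B' hB' hb => ?_⟩
  · have h1 := lsc (fun ν => hmem (v ν)) hm (MemLp.zero (ε := EV n)) hl
      ((((lη.const_add B).pow 2).const_mul (Real.exp C0)).mono_left hUl)
      fun ν => by simpa using hbd ν
    rw [mul_comm]
    simpa using h1
  · have h1 := (Complex.continuous_conj.tendsto _).comp (hl _ (memLp_rr h vol K (isV w) hw))
    rw [conj_pr] at h1
    have hTs := Ts_zero h K hw hd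
    refine tendsto_nhds_unique h1 (Tendsto.mono_left ?_ hUl)
    rw [tendsto_iff_norm_sub_tendsto_zero]
    have h2 := lη.mul_const (Real.exp (C0 / 2) * nr (cH vol K h) (lowC K w hw))
    rw [zero_mul] at h2
    refine squeeze_zero (fun ν => norm_nonneg _) (fun ν => ?_) h2
    have h3 := (H ν).rep (em N (W.sm ν (μ ν)) 1 (lowC K w hw))
    have h4 : (cH vol K (tw h (U ν (μ ν)) (W.sm ν _))).toCore.inner (v ν + TC N (u ν))
        (em N (W.sm ν (μ ν)) 1 (lowC K w hw)) = pr K h vol (highC K (v ν)).1 w.1 := by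
      have h5 := pr_high h vol K (v ν) (lowC K w hw)
      rw [highC_lowC] at h5
      refine (inner_em h vol K (W.sm ν _) _ _).symm.trans ?_
      rw [em_em, h5, (cH vol K h).add_left, hadjC vol K h P, hTs]
      exact (congrArg _ (inner_zero_r (cH vol K h).toCore _)).trans (add_zero _)
    rw [h4, LinearMap.comp_apply, em_em, norm_sub_rev] at h3
    rw [Function.comp, conj_pr]
    exact h3.trans (mul_le_mul_of_nonneg_left (nr_em_le h vol K (W.sm ν _) (hU ν) _) (hη ν).le)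
  · have h1 : ∀ m : ℕ, ∀ᵐ x ∂(vm vol), x ∈ E ∩ C ∩ ⋂ ν, ⋂ _ : m ≤ ν, G ν (μ ν) →
        iW (b x) *ᵥ V i x = 0 := fun m => by
      refine Lim.null_of_lim h vol K (fun ν => isV (highC K (v ν))) hV hl
        ((hE.inter hC.measurableSet).inter (MeasurableSet.iInter fun ν =>
          MeasurableSet.iInter fun _ => hG ν _)) hC (fun x hx => hx.1.2) hCs
        (B := fun x => iW (b x)) (cont_iW.comp_continuousOn hb) ?_
      refine squeeze_zero' (Eventually.of_forall fun ν => integral_nonneg fun x => by positivity)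
        ?_ (ls.mono_left hUl)
      filter_upwards [hUl (eventually_ge_atTop m)] with ν hν
      refine (int_lcV_le h vol K (W.sm ν _) P (hU ν) (hem ν) (he0 ν) (hec ν) (W.pos ν _)
        (fun x hx => hCs hx.1.2) (fun x hx => hbT ν (μ ν) x
          ⟨⟨hx.1.1, mem_iInter₂.1 hx.2 ν hν⟩, hx.1.2⟩) (v ν)).trans ?_
      linarith [hen ν, hD0 ν]
    have h2 : ∑' ν, vm vol (E \ G ν (μ ν)) ≠ ⊤ :=
      ne_top_of_le_ne_top (by rw [ENNReal.tsum_geometric]; simp) (ENNReal.tsum_le_tsum fun ν => (hp ν).le)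
    filter_upwards [ae_all_iff.2 h1, ae_eventually_notMem h2] with x hx hx' hxE
    obtain ⟨m, hm'⟩ := eventually_atTop.1 hx'
    refine hx m ⟨hxE, mem_iInter₂.2 fun ν hν => ?_⟩
    by_contra hne
    exact hm' ν hν ⟨hxE.1, hne⟩
  · have l1 : Tendsto (fun ν => Real.exp C0 * ((B' + η ν) ^ 2 + 2 * (η ν * (2 * (B + η ν))))) atTop
        (𝓝 (B' ^ 2 * Real.exp C0)) := by
      have h1 := (((lη.const_add B').pow 2).add ((lη.mul ((lη.const_add B).const_mul 2)).const_mul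
        2)).const_mul (Real.exp C0)
      rw [mul_comm (B' ^ 2)]
      simpa using h1
    refine lsc (fun ν => hmem (v ν)) hm (memLp_rr h vol K (isV v0) hv0) hl (l1.mono_left hUl)
      fun ν => ?_
    have hTs := Ts_zero _ K hv0 (hd ν (μ ν))
    have key : ∀ {f : CS (BN N) → ℂ} {D : ℝ}, 0 ≤ D → (∀ (w : MV N) (hw : Cs w.1),
        ‖f (lowC K w hw)‖ ^ 2 ≤ D ^ 2 * nW K h vol (U ν (μ ν)) w.1) → ∀ w,
        ‖f (em N (W.sm ν (μ ν)) (-1) w)‖ ≤ D * nr (cH vol K (tw h (U ν (μ ν)) (W.sm ν _))) w :=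
      fun {f D} hD hf w => by
        have h1 := hf _ (highC_cs K (em N (W.sm ν (μ ν)) (-1) w))
        rw [lowC_highC, nW_em, ← mul_pow] at h1
        exact (pow_le_pow_iff_left₀ (norm_nonneg _) (mul_nonneg hD (nr_nonneg _ _))
          two_ne_zero).1 h1
    have h1 := Hm.dist (H ν) (hadjC vol K _ P) (hη ν).le hB (key hB (hΛ ν _)) hTs (B' := B')
      fun w => by
        have h2 := key (f := fun w => Λ w - (cH vol K h).inner (lowC K v0 hv0) w) hB'
          (fun w hw => by rw [cH_low]; exact hb ν _ w hw) w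
        rw [inner_em] at h2
        exact h2
    have h2 := int_rC_le h vol K (W.sm ν (μ ν)) (hU ν) (v ν - lowC K v0 hv0)
    simp only [rC_sub, rC_low] at h2
    exact h2.trans (mul_le_mul_of_nonneg_left (sq_le_of h1) (Real.exp_pos _).le)

end

end Crest.Agent.X261.Jet.HL
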