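import Crest.Agent.X261.Jet.Fr
import Crest.Agent.X261.Jet.Abs
import Crest.Agent.R271.Weyl_399

/-!
# Row 261, package JET (helper6), file `Lim`: holomorphic weak limits of polyvector fields

* `reg` : an `L²` polyvector field which is weakly holomorphic in every chart is holomorphic;
* `lim` : fields bounded in `L²` whose `∂̄`-energy tends to `0` have a holomorphic weak limit;
* `null_of_lim` : a local linear condition which holds asymptotically in `L²` holds for the limit.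
-/

set_option autoImplicit false
set_option linter.unusedSectionVars false

open Set Filter Topology Complex Matrix MeasureTheory
open scoped ContDiff Matrix ComplexConjugate ComplexOrder ENNReal InnerProductSpace

namespace Crest.Agent.X261.Jet.Lim

open Crest.Agent.R275 Crest.Agent.R275.Geo Crest.Agent.R275.Core144
open Crest.Agent.R273.Defs_333 Crest.Agent.R273.Kah_333 Crest.Agent.R273.Vm_333
open Crest.Agent.R273.Fock_243 Crest.Agent.R273.Pos_243
open Crest.Agent.R273.Bkn_243 (T1)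
open Crest.Agent.R273.BKNa_37 (IsV dbV)
open Crest.Agent.R273.BKNb_37 (inG inD)
open Crest.Agent.R273.BKNc_37 (inG_isD inD_isD)
open Crest.Agent.T223.Hm Crest.Agent.X261.Jet.Fr
open Crest.Agent.R271

noncomputable section

theorem tendsto_of_amgm {ι : Type*} {U : Filter ι} {a : ι → ℂ} {e : ι → ℝ} {p c : ℝ}
    (hp : 0 ≤ p) (he : Tendsto e U (𝓝 0)) (h : ∀ δ > 0, ∀ j, ‖a j‖ ≤ δ * p + δ⁻¹ * (c * e j)) :
    Tendsto a U (𝓝 0) := by
  rw [NormedAddGroup.tendsto_nhds_zero]
  intro ε hε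
  have hδ : 0 < ε / (2 * (p + 1)) := by positivity
  have h1 : Tendsto (fun j => (ε / (2 * (p + 1)))⁻¹ * (c * e j)) U (𝓝 0) := by
    simpa using (he.const_mul c).const_mul (ε / (2 * (p + 1)))⁻¹
  filter_upwards [h1.eventually (eventually_lt_nhds (half_pos hε))] with j hj
  have h2 : ε / (2 * (p + 1)) * p ≤ ε / 2 := by
    rw [div_mul_eq_mul_div, div_le_div_iff₀ (by positivity) (by positivity)]
    nlinarith
  linarith [h _ hδ j]

theorem integral_wF {n : ℕ} {Φ : (Fin n → ℂ) → ℂ} (h : ContDiff ℝ ∞ Φ) (hc : HasCompactSupport Φ)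
    (s : ℂ) (a : Fin n) : ∫ z, wF s a Φ z = 0 := by
  have hi : ∀ v : Fin n → ℂ, Integrable fun z => fderiv ℝ Φ z v := fun v =>
    ((h.continuous_fderiv (by simp)).clm_apply continuous_const).integrable_of_hasCompactSupport
      (hc.fderiv_apply (𝕜 := ℝ) v)
  have h0 : ∀ v : Fin n → ℂ, ∫ z, fderiv ℝ Φ z v = 0 := fun v => by
    have h1 := integral_mul_fderiv_eq_neg_fderiv_mul_of_integrable (μ := volume)
      (f := fun _ : Fin n → ℂ => (1 : ℂ)) (g := Φ) (v := v) (by simp) (by simpa using hi v)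
      (by simpa using h.continuous.integrable_of_hasCompactSupport hc)
      (fun _ _ => differentiableAt_const _) (fun _ _ => (h.differentiable (by simp)) _)
    simpa using h1
  simp only [wF, wL_apply]
  rw [integral_const_mul, integral_add (hi _) ((hi _).const_mul s), integral_const_mul, h0, h0]
  simp

variable {n : ℕ} {M : Type} [TopologicalSpace M] {A : Atl n M} {N : LB A} [Countable A.ι]
  [T2Space M] [MeasurableSpace M] [BorelSpace M]
  (h : HM ((KB A)⁻¹ * N)) (vol : HM (KB A)⁻¹) (K : Kah A)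

/-- the flat coefficients of an `L²` polyvector field -/
def qf (q : M → EV n) (i : A.ι) (T : FI n) (z : Fin n → ℂ) : ℂ :=
  uV h vol K i (sz A i z) (q (sz A i z)) T

theorem qf_loc {q : M → EV n} (hq : MemLp q 2 (vm vol)) (i : A.ι) (T : FI n) :
    LocallyIntegrableOn (qf h vol K q i T) (Tz A i) := by
  rw [locallyIntegrableOn_iff (isOpen_Tz i).isLocallyClosed]
  intro C hs hC
  have hm : AEStronglyMeasurable (qf h vol K q i T) (volume.restrict C) :=
    (aesm_flat vol (f := fun x => uV h vol K i x (q x) T) (aesm_un h vol K hq.1 T)).mono_measure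
      (Measure.restrict_mono hs le_rfl)
  obtain ⟨c, hc, hb⟩ := quad_lb
    (Q := fun z (y : FI n → ℂ) => h.w i (sz A i z) * (gq K i (sz A i z) y y).re) hC
    ((((contOn_wr h i).mono hs).comp continuousOn_fst fun p hp => hp.1).mul
      (Complex.continuous_re.comp_continuousOn (contOn_gq K
        (((contOn_sz i).mono hs).comp continuousOn_fst fun p hp => hp.1)
        (fun p hp => sz_mem (hs hp.1)) continuousOn_snd continuousOn_snd)))
    (fun z y r => by rw [gq_smul]; ring)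
    fun z hz y hy => mul_pos (h.pos i _ (sz_mem (hs hz))) (gq_pos K (sz_mem (hs hz)) hy)
  have h1 := flat_le vol (i := i) hq.1 (F := C.indicator (qf h vol K q i T)) hc
    (fun z hz => indicator_of_notMem (fun h' => hz (hs h')) _) fun z hz => by
      have hv := vol.pos i _ (sz_mem hz)
      by_cases hz' : z ∈ C
      · rw [indicator_of_mem hz', ← tV_un h vol K (sz_mem hz) (q (sz A i z)),
          norm_tV h vol K (sz_mem hz), mul_inv_cancel_left₀ hv.ne']
        exact (pow_le_pow_left₀ (norm_nonneg _) (norm_le_pi_norm _ T) 2).trans (hb z hz' _)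
      · rw [indicator_of_notMem hz', norm_zero, zero_pow two_ne_zero]
        positivity
  rw [eLpNorm_indicator_eq_eLpNorm_restrict hC.measurableSet] at h1
  have : IsFiniteMeasure ((volume : Measure (Fin n → ℂ)).restrict C) :=
    isFiniteMeasure_restrict.2 hC.measure_lt_top.ne
  have h2 : MemLp (qf h vol K q i T) 2 (volume.restrict C) :=
    ⟨hm, h1.trans_lt (ENNReal.mul_lt_top ENNReal.ofReal_lt_top hq.2)⟩
  exact h2.integrable one_le_two

/-- weakly holomorphic `L²` polyvector fields are holomorphic -/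
theorem reg {q : M → EV n} (hq : MemLp q 2 (vm vol))
    (hw : ∀ i T, Weyl399.WeakHol (qf h vol K q i T) (Tz A i)) :
    ∃ V : A.ι → M → FI n → ℂ, IsV N V ∧ (∀ i T, HolAt A i univ fun x => V i x T) ∧
      q =ᵐ[vm vol] rr h vol K V := by
  choose H hH hae using fun i T => Weyl399.weyl (isOpen_Tz i) (qf_loc h vol K hq i T) (hw i T)
  have hol : ∀ i T, HolAt A i univ fun x => H i T (cz A i x) := fun i T => by
    have h1 : DifferentiableOn ℂ (fun z : Cn n => H i T (WithLp.ofLp z)) (A.e i).target :=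
      (hH i T).comp (PiLp.continuousLinearEquiv 2 ℂ (fun _ : Fin n => ℂ)).differentiableOn
        fun _ hz => hz
    refine (h1.mono inter_subset_left).congr fun z hz => ?_
    simp only [cz, (A.e i).right_inv hz.1]
  have ha : ∀ i, ∀ᵐ x ∂(vm vol), x ∈ (A.e i).source →
      q x = tV h vol K i x fun T => H i T (cz A i x) := fun i => by
    rw [← ae_restrict_iff' (A.e i).open_source.measurableSet]
    refine ae_of_flat vol ?_
    filter_upwards [ae_all_iff.2 (hae i), ae_restrict_mem (isOpen_Tz i).measurableSet] with z hz hz'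
    rw [cz_sz hz', ← tV_un h vol K (sz_mem hz') (q (sz A i z))]
    congr 1
    exact funext hz
  have hc : ∀ i, ContinuousOn (fun x T => H i T (cz A i x)) (A.e i).source := fun i =>
    continuousOn_pi.2 fun T => by simpa using contOn_holAt (hol i T)
  refine ⟨fun i x T => H i T (cz A i x), ⟨fun i T => ?_, fun i j => ?_⟩, hol, ?_⟩
  · simpa [Atl.SmAt] using (hol i T).contDiffOn isOpen_univ
  · have := isOpenPos_vm vol
    have ho := (A.e i).open_source.inter (A.e j).open_source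
    have hcm : Continuous fun p : ℂ × Mx n × (FI n → ℂ) => p.1 • (Gam p.2.1 *ᵥ p.2.2) :=
      continuous_fst.smul ((cont_Gam.comp (continuous_fst.comp continuous_snd)).matrix_mulVec
        (continuous_snd.comp continuous_snd))
    refine Measure.eqOn_open_of_ae_eq (μ := vm vol) (f := fun x T => H i T (cz A i x))
      (g := fun x => N.g i j x • (Gam (Jm A j i x) *ᵥ fun T => H j T (cz A j x))) ?_ ho
      ((hc i).mono inter_subset_left)
      (hcm.comp_continuousOn (f := fun x => (N.g i j x, Jm A j i x, fun T => H j T (cz A j x)))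
        ((contOn_Ng N i j).prodMk (((contOn_Jm j i).mono fun x hx => ⟨hx.2, hx.1⟩).prodMk
          ((hc j).mono inter_subset_right))))
    rw [EventuallyEq, ae_restrict_iff' ho.measurableSet]
    filter_upwards [ha i, ha j] with x h1 h2 hx
    have h3 := (h1 hx.1).symm.trans (h2 hx.2)
    rw [tV_law h vol K hx] at h3
    have h4 := congrArg (uV h vol K i x) h3
    rwa [un_tV h vol K hx.1, un_tV h vol K hx.1] at h4
  · filter_upwards [ae_all_iff.2 ha] with x hx using hx _ (ix_mem x)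

/-- the test element attached to a flat function and a component -/
def tst (i : A.ι) (T : FI n) (ψ : (Fin n → ℂ) → ℂ) (x : M) : FI n → ℂ :=
  Gam ((K.g i x)ᵀ)⁻¹ *ᵥ Pi.single T (((h.w i x : ℂ))⁻¹ * conj (ψ (cz A i x)))

theorem contOn_tst (i : A.ι) (T : FI n) {ψ : (Fin n → ℂ) → ℂ} (hψ : Continuous ψ) :
    ContinuousOn (tst h K i T ψ) (A.e i).source := by
  have hcm : Continuous fun p : Matrix (FI n) (FI n) ℂ × ℂ => p.1 *ᵥ Pi.single T p.2 :=
    continuous_fst.matrix_mulVec ((continuous_single T).comp continuous_snd)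
  exact hcm.comp_continuousOn (f := fun x => (Gam ((K.g i x)ᵀ)⁻¹,
    ((h.w i x : ℂ))⁻¹ * conj (ψ (cz A i x)))) ((contOn_Gi K i).prodMk
      (((Complex.continuous_ofReal.comp_continuousOn (contOn_smAt (h.sm i))).inv₀
        fun x hx => w_ne h hx).mul
        ((Complex.continuous_conj.comp hψ).comp_continuousOn (contOn_cz i))))

theorem int_tst {q : M → EV n} (hq : AEStronglyMeasurable q (vm vol)) (i : A.ι) (T : FI n)
    {ψ : (Fin n → ℂ) → ℂ} (hψ : Continuous ψ) {C : Set (Fin n → ℂ)} (hC : IsCompact C)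
    (hs : C ⊆ Tz A i) (h0 : ∀ z ∉ C, ψ z = 0) :
    ∫ x, ⟪lcV h vol K i (sz A i '' C) (tst h K i T ψ) x, q x⟫_ℂ ∂(vm vol) =
      ∫ z, qf h vol K q i T z * ψ z := by
  have hCs : sz A i '' C ⊆ (A.e i).source := by
    rintro _ ⟨z, hz, rfl⟩
    exact sz_mem (hs hz)
  have hm := (memLp_loc h vol K (isCompact_sz hC hs).measurableSet (isCompact_sz hC hs) subset_rfl
    hCs (contOn_tst h K i T hψ)).1
  rw [← setIntegral_eq_integral_of_forall_compl_eq_zero (s := (A.e i).source) fun x hx => by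
      rw [lcV, indicator_of_notMem fun h' => hx (hCs h'), inner_zero_left],
    integral_chart vol (hm.inner hq).restrict,
    ← setIntegral_eq_integral_of_forall_compl_eq_zero (s := Tz A i)
      (f := fun z => qf h vol K q i T z * ψ z) fun z hz => by
      rw [h0 z fun h' => hz (hs h'), mul_zero]]
  refine setIntegral_congr_fun (isOpen_Tz i).measurableSet fun z hz => ?_
  by_cases hzC : z ∈ C
  · have h4 := w_ne h (sz_mem hz)
    have h5 := w_ne vol (sz_mem hz)
    simp only [lcV]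
    rw [indicator_of_mem (mem_image_of_mem _ hzC), ← tV_un h vol K (sz_mem hz) (q (sz A i z)),
      inner_tV h vol K (sz_mem hz), tst, gq_single K (sz_mem hz), cz_sz hz, qf, map_mul, map_inv₀,
      Complex.conj_ofReal, Complex.conj_conj, Complex.real_smul]
    field_simp
  · have h1 : sz A i z ∉ sz A i '' C := by
      rintro ⟨w, hw, hw'⟩
      have h2 := congrArg (cz A i) hw'
      rw [cz_sz hz, cz_sz (hs hw)] at h2
      exact hzC (h2 ▸ hw)
    simp only [lcV]
    rw [indicator_of_notMem h1, inner_zero_left, h0 z hzC, smul_zero, mul_zero]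

theorem integrable_chart {i : A.ι} {f : M → ℝ} (hf : Integrable f (vm vol)) :
    IntegrableOn (fun z => vol.w i (sz A i z) * f (sz A i z)) (Tz A i) := by
  have h1 : Integrable f ((vm vol).restrict (A.e i).source) := hf.restrict
  rw [← map_sz] at h1
  have h2 := h1.comp_aemeasurable (aem_sz' vol i)
  have h3 : nz vol i = (volume.restrict (Tz A i)).withDensity
      (fun z => ((vol.w i (sz A i z)).toNNReal : ℝ≥0∞)) := rfl
  rw [h3, integrable_withDensity_iff_integrable_smul₀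
    ((contOn_vz vol i).aemeasurable (isOpen_Tz i).measurableSet).real_toNNReal] at h2
  refine h2.congr ?_
  filter_upwards [ae_restrict_mem (isOpen_Tz i).measurableSet] with z hz
  change ((vol.w i (sz A i z)).toNNReal : ℝ) • f (sz A i z) = _
  rw [Real.coe_toNNReal _ (vol.pos i _ (sz_mem hz)).le, smul_eq_mul]

theorem T1_rsmul (G : Matrix (FI n) (FI n) ℂ) (Ki : Mx n) (r : ℝ) (a : Fin n → FI n → ℂ) :
    (T1 G Ki (r • a) (r • a)).re = r ^ 2 * (T1 G Ki a a).re := by
  have h1 : T1 G Ki (r • a) (r • a) = ((r ^ 2 : ℝ) : ℂ) * T1 G Ki a a := by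
    simp only [T1, Finset.mul_sum, Pi.smul_apply, star_smul, Matrix.mulVec_smul, smul_dotProduct,
      dotProduct_smul, star_trivial, Complex.real_smul]
    refine Finset.sum_congr rfl fun k _ => Finset.sum_congr rfl fun l _ => ?_
    push_cast
    ring
  rw [h1, Complex.re_ofReal_mul]

theorem cont_T1 : Continuous fun p : (Matrix (FI n) (FI n) ℂ × Mx n) × (Fin n → FI n → ℂ) =>
    T1 p.1.1 p.1.2 p.2 p.2 := by
  unfold T1
  refine continuous_finsetSum _ fun k _ => continuous_finsetSum _ fun l _ => Continuous.mul ?_ ?_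
  · exact (continuous_apply k).comp ((continuous_apply l).comp (continuous_snd.comp continuous_fst))
  · exact ((continuous_apply l).comp continuous_snd).star.dotProduct
      ((continuous_fst.comp continuous_fst).matrix_mulVec ((continuous_apply k).comp continuous_snd))

theorem inD_re_nonneg (v : A.ι → M → FI n → ℂ) (x : M) : 0 ≤ (gl vol (inD K h v v) x).re := by
  rw [← gl_re, gl]
  refine mul_nonneg (inv_nonneg.2 (vol.pos _ x (ix_mem x)).le) ?_
  rw [inD, Complex.re_ofReal_mul]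
  exact mul_nonneg (h.pos _ x (ix_mem x)).le (Complex.nonneg_iff.1 (T1_nonneg
    (Gam_posDef (posDef_gT K (ix_mem x))).posSemidef (posDef_gT K (ix_mem x)).inv.posSemidef _)).1

theorem integrable_inD {v : A.ι → M → FI n → ℂ} (hv : IsV N v) (hc : Cs v) :
    Integrable (gl vol (inD K h v v)) (vm vol) := by
  obtain ⟨C, hC, h0⟩ := hc
  refine integrable_of_sm (gl_sm (inD_isD (K := K) h hv hv)) hC fun x hx => ?_
  have h1 : ∀ k, dbV v (ix A x) k x = 0 := fun k => funext fun T =>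
    dd_zero_off (s := I) (a := k) (f := fun y => v (ix A x) y T) hC
      (fun y hy => by simp [h0 _ y hy]) (ix_mem x) hx
  simp [gl, inD, T1, h1]

theorem inD_lb (i : A.ι) {C : Set (Fin n → ℂ)} (hC : IsCompact C) (hs : C ⊆ Tz A i) :
    ∃ c : ℝ, ∀ v : A.ι → M → FI n → ℂ, IsV N v → ∀ z ∈ C, ∀ k T, ‖dbV v i k (sz A i z) T‖ ^ 2 ≤
      c ^ 2 * (vol.w i (sz A i z) * (gl vol (inD K h v v) (sz A i z)).re) := by
  have hc1 : ContinuousOn (fun p : (Fin n → ℂ) × (Fin n → FI n → ℂ) =>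
      ((Gam (K.g i (sz A i p.1))ᵀ, ((K.g i (sz A i p.1))ᵀ)⁻¹), p.2)) (C ×ˢ univ) :=
    ((((contOn_G K i).prodMk (contOn_gTi K i)).comp (contOn_sz i)
      fun _ hz => sz_mem hz).comp continuousOn_fst fun p hp => hs hp.1).prodMk continuousOn_snd
  have hc2 := Complex.continuous_re.comp_continuousOn (cont_T1.comp_continuousOn hc1)
  obtain ⟨c, -, hb⟩ := quad_lb (Q := fun z (a : Fin n → FI n → ℂ) => h.w i (sz A i z) *
      (T1 (Gam (K.g i (sz A i z))ᵀ) ((K.g i (sz A i z))ᵀ)⁻¹ a a).re) hC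
    ((((contOn_wr h i).mono hs).comp continuousOn_fst fun p hp => hp.1).mul hc2)
    (fun z y r => by rw [T1_rsmul]; ring)
    fun z hz y hy => mul_pos (h.pos i _ (sz_mem (hs hz))) (by
      have hG := Gam_posDef (posDef_gT K (sz_mem (hs hz)))
      have hI := (posDef_gT K (sz_mem (hs hz))).inv
      have h1 := T1_nonneg hG.posSemidef hI.posSemidef y
      have h2 : T1 (Gam (K.g i (sz A i z))ᵀ) ((K.g i (sz A i z))ᵀ)⁻¹ y y ≠ 0 := fun h' =>
        hy (funext ((T1_eq_zero_iff_posDef hG hI y).1 h'))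
      exact (Complex.pos_iff.1 (lt_of_le_of_ne h1 h2.symm)).1)
  refine ⟨c, fun v hv z hz k T => ?_⟩
  have hz' := hs hz
  rw [gl_eq (inD_isD (K := K) h hv hv).tr (sz_mem hz'), ← Complex.ofReal_inv,
    Complex.re_ofReal_mul, mul_inv_cancel_left₀ (vol.pos i _ (sz_mem hz')).ne', inD,
    Complex.re_ofReal_mul]
  refine le_trans (pow_le_pow_left₀ (norm_nonneg _) ?_ 2) (hb z hz fun k => dbV v i k (sz A i z))
  exact (norm_le_pi_norm _ T).trans (norm_le_pi_norm (fun k => dbV v i k (sz A i z)) k)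

theorem amgm {a b δ : ℝ} (ha : 0 ≤ a) (hb : 0 ≤ b) (hδ : 0 < δ) :
    a * b ≤ δ * b ^ 2 + δ⁻¹ * a ^ 2 := by
  have h6 : δ * (δ * b ^ 2 + δ⁻¹ * a ^ 2 - a * b) = (δ * b - a) ^ 2 + δ * (a * b) := by
    field_simp
    ring
  have h7 : 0 ≤ δ * (δ * b ^ 2 + δ⁻¹ * a ^ 2 - a * b) := by
    rw [h6]; positivity
  linarith [(mul_nonneg_iff_of_pos_left hδ).1 h7]

theorem Tst.hcs {i : A.ι} {Φ : (Fin n → ℂ) → ℂ} (hΦ : Tst A i Φ) : HasCompactSupport Φ := by
  obtain ⟨C, h1, -, h3⟩ := hΦ.cs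
  exact HasCompactSupport.intro h1 h3

theorem Tst.integrable {i : A.ι} {Φ : (Fin n → ℂ) → ℂ} (hΦ : Tst A i Φ) : Integrable Φ :=
  hΦ.contDiff.continuous.integrable_of_hasCompactSupport (Tst.hcs hΦ)

theorem by_parts {i : A.ι} (k : Fin n) {φ u : (Fin n → ℂ) → ℂ} (hφ : Tst A i φ)
    (hu : ContDiffOn ℝ ∞ u (Tz A i)) :
    ∫ z, u z * wF I k φ z = ∫ z, (u z * wF I k φ z - wF I k (fun z => u z * φ z) z) := by
  have hT := hφ.mul hu
  rw [integral_sub (Tst.integrable ((hφ.wF I k).mul hu)) (Tst.integrable (hT.wF I k)),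
    integral_wF hT.contDiff (Tst.hcs hT), sub_zero]

theorem qf_rr {v : A.ι → M → FI n → ℂ} (hv : IsV N v) {i : A.ι} (T : FI n) {z : Fin n → ℂ}
    (hz : z ∈ Tz A i) : qf h vol K (rr h vol K v) i T z = v i (sz A i z) T := by
  rw [qf, rr_eq h vol K hv (sz_mem hz), un_tV h vol K (sz_mem hz)]

theorem flat_pt {i : A.ι} (k : Fin n) {φ u : (Fin n → ℂ) → ℂ} (hφ : ContDiff ℝ ∞ φ)
    (hs : tsupport φ ⊆ Tz A i) (hu : ContDiffOn ℝ ∞ u (Tz A i)) {F : (Fin n → ℂ) → ℝ}
    (hF : ∀ z, 0 ≤ F z) (hb : ∀ z ∈ tsupport φ, ‖wF I k u z‖ ^ 2 ≤ F z) {δ : ℝ} (hδ : 0 < δ)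
    (z : Fin n → ℂ) :
    ‖u z * wF I k φ z - wF I k (fun z => u z * φ z) z‖ ≤ δ * ‖φ z‖ ^ 2 + δ⁻¹ * F z := by
  by_cases hz : z ∈ tsupport φ
  · rw [wF_mul ((hu.contDiffAt ((isOpen_Tz i).mem_nhds (hs hz))).differentiableAt (by simp))
      (hφ.differentiable (by simp) z), sub_add_cancel_right, norm_neg, norm_mul]
    refine (amgm (norm_nonneg _) (norm_nonneg _) hδ).trans ?_
    have := mul_le_mul_of_nonneg_left (hb z hz) (inv_nonneg.2 hδ.le)
    linarith
  · have h1 : wF I k (fun z => u z * φ z) z = 0 :=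
      wF_zero_off fun h' => hz (tsupport_mul_subset_right (f := u) (g := φ) h')
    rw [h1, wF_zero_off hz, mul_zero, sub_zero, norm_zero]
    have := hF z
    positivity

theorem flat_le' {i : A.ι} (k : Fin n) {φ u : (Fin n → ℂ) → ℂ} (hφ : ContDiff ℝ ∞ φ)
    (hc : HasCompactSupport φ) (hs : tsupport φ ⊆ Tz A i) (hu : ContDiffOn ℝ ∞ u (Tz A i))
    {F : (Fin n → ℂ) → ℝ} (hI : Integrable F) (hF : ∀ z, 0 ≤ F z)
    (hb : ∀ z ∈ tsupport φ, ‖wF I k u z‖ ^ 2 ≤ F z) {δ : ℝ} (hδ : 0 < δ) :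
    ‖∫ z, u z * wF I k φ z‖ ≤ δ * (∫ z, ‖φ z‖ ^ 2) + δ⁻¹ * ∫ z, F z := by
  have hφ2 : Integrable fun z => ‖φ z‖ ^ 2 :=
    (hφ.continuous.norm.pow 2).integrable_of_hasCompactSupport
      (HasCompactSupport.intro hc.isCompact fun z hz => by
        simp [image_eq_zero_of_notMem_tsupport hz])
  rw [by_parts k (Tst.of hφ hc.isCompact hs subset_rfl) hu]
  refine (norm_integral_le_of_norm_le (g := fun z => δ * ‖φ z‖ ^ 2 + δ⁻¹ * F z)
    ((hφ2.const_mul δ).add (hI.const_mul δ⁻¹))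
    (Eventually.of_forall (flat_pt k hφ hs hu hF hb hδ))).trans ?_
  rw [integral_add (hφ2.const_mul δ) (hI.const_mul δ⁻¹), integral_const_mul, integral_const_mul]

/-- the flat `∂̄` pairing is controlled by the energy -/
theorem weak_le (i : A.ι) (T : FI n) (k : Fin n) {φ : (Fin n → ℂ) → ℂ} (hφ : ContDiff ℝ ∞ φ)
    (hc : HasCompactSupport φ) (hs : tsupport φ ⊆ Tz A i) :
    ∃ p c : ℝ, 0 ≤ p ∧ ∀ v : A.ι → M → FI n → ℂ, IsV N v → Cs v → ∀ δ > 0,
      ‖∫ z, qf h vol K (rr h vol K v) i T z * Weyl399.dbar k φ z‖ ≤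
        δ * p + δ⁻¹ * (c * ∫ x, (gl vol (inD K h v v) x).re ∂(vm vol)) := by
  obtain ⟨c, hb⟩ := inD_lb h vol K i hc.isCompact hs
  refine ⟨∫ z, ‖φ z‖ ^ 2, c ^ 2, integral_nonneg fun z => by positivity, fun v hv hcs δ hδ => ?_⟩
  have hus : ContDiffOn ℝ ∞ (fun z => v i (sz A i z) T) (Tz A i) :=
    smAt_flat (f := fun x => v i x T) (hv.sm i T)
  have e1 : ∫ z, qf h vol K (rr h vol K v) i T z * Weyl399.dbar k φ z =
      ∫ z, v i (sz A i z) T * wF I k φ z := by
    refine integral_congr_ae (Eventually.of_forall fun z => ?_)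
    have h2 : Weyl399.dbar k φ z = wF I k φ z := rfl
    change qf h vol K (rr h vol K v) i T z * Weyl399.dbar k φ z = v i (sz A i z) T * wF I k φ z
    by_cases hz : z ∈ Tz A i
    · rw [qf_rr h vol K hv T hz, h2]
    · rw [h2, wF_zero_off fun h' => hz (hs h'), mul_zero, mul_zero]
  have hD : Integrable (fun x => (gl vol (inD K h v v) x).re) (vm vol) :=
    (integrable_inD h vol K hv hcs).re
  obtain ⟨F, hF⟩ : ∃ F : (Fin n → ℂ) → ℝ, F = (Tz A i).indicator fun z =>
      vol.w i (sz A i z) * (gl vol (inD K h v v) (sz A i z)).re := ⟨_, rfl⟩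
  have hI : Integrable F := by
    rw [hF]
    exact (integrable_indicator_iff (isOpen_Tz i).measurableSet).2 (integrable_chart vol (i := i) hD)
  have hnn : ∀ z, 0 ≤ F z := fun z => by
    rw [hF]
    exact indicator_nonneg (fun z hz => mul_nonneg (vol.pos i _ (sz_mem hz)).le
      (inD_re_nonneg h vol K v _)) z
  have hFi : ∫ z, F z ≤ ∫ x, (gl vol (inD K h v v) x).re ∂(vm vol) := by
    have h1 := integral_chart vol (i := i) (f := fun x => (gl vol (inD K h v v) x).re)
      hD.1.restrict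
    simp only [smul_eq_mul] at h1
    rw [hF, integral_indicator (isOpen_Tz i).measurableSet, ← h1]
    exact setIntegral_le_integral hD (Eventually.of_forall (inD_re_nonneg h vol K v))
  rw [e1]
  refine (flat_le' k hφ hc hs hus (F := fun z => c ^ 2 * F z) (hI.const_mul _)
    (fun z => mul_nonneg (sq_nonneg c) (hnn z)) (fun z hz => ?_) hδ).trans ?_
  · have hz' := hs hz
    have h2 : wF I k (fun z => v i (sz A i z) T) z = dbV v i k (sz A i z) T := by
      rw [dbV, db_flat, cz_sz hz']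
    rw [hF, indicator_of_mem hz', h2]
    exact hb v hv z hz k T
  · rw [integral_const_mul]
    have := mul_le_mul_of_nonneg_left (mul_le_mul_of_nonneg_left hFi (sq_nonneg c))
      (inv_nonneg.2 hδ.le)
    linarith

theorem norm_toLp_sq {q : M → EV n} {μ : Measure M} (hq : MemLp q 2 μ) :
    ‖hq.toLp q‖ ^ 2 = ∫ x, ‖q x‖ ^ 2 ∂μ := by
  rw [← inner_self_eq_norm_sq (𝕜 := ℂ), L2.inner_def,
    ← integral_re (L2.integrable_inner (𝕜 := ℂ) _ _)]
  refine integral_congr_ae ?_
  filter_upwards [hq.coeFn_toLp] with x hx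
  rw [hx, inner_self_eq_norm_sq]

theorem inner_toLp {q w : M → EV n} {μ : Measure M} (hq : MemLp q 2 μ) (hw : MemLp w 2 μ) :
    ⟪hw.toLp w, hq.toLp q⟫_ℂ = ∫ x, ⟪w x, q x⟫_ℂ ∂μ := by
  rw [L2.inner_def]
  refine integral_congr_ae ?_
  filter_upwards [hq.coeFn_toLp, hw.coeFn_toLp] with x hx hx'
  rw [hx, hx']

/-- **holomorphic weak limits** -/
theorem lim {ι : Type*} (U : Ultrafilter ι) (v : ι → A.ι → M → FI n → ℂ) (hv : ∀ j, IsV N (v j))
    (hc : ∀ j, Cs (v j)) {C : ℝ} (hC : 0 ≤ C)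
    (hb : ∀ᶠ j in (U : Filter ι), ∫ x, ‖rr h vol K (v j) x‖ ^ 2 ∂(vm vol) ≤ C ^ 2)
    (hd : Tendsto (fun j => ∫ x, (gl vol (inD K h (v j) (v j)) x).re ∂(vm vol)) U (𝓝 0)) :
    ∃ V : A.ι → M → FI n → ℂ, IsV N V ∧ (∀ i T, HolAt A i univ fun x => V i x T) ∧
      MemLp (rr h vol K V) 2 (vm vol) ∧ ∫ x, ‖rr h vol K V x‖ ^ 2 ∂(vm vol) ≤ C ^ 2 ∧
      ∀ w : M → EV n, MemLp w 2 (vm vol) →
        Tendsto (fun j => ∫ x, ⟪w x, rr h vol K (v j) x⟫_ℂ ∂(vm vol)) U
          (𝓝 (∫ x, ⟪w x, rr h vol K V x⟫_ℂ ∂(vm vol))) := by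
  have hm : ∀ j, MemLp (rr h vol K (v j)) 2 (vm vol) := fun j => memLp_rr h vol K (hv j) (hc j)
  obtain ⟨y, hy, hl⟩ := Abs.exists_ulim U (fun j => (hm j).toLp _) hC (by
    filter_upwards [hb] with j hj
    rw [← norm_toLp_sq (hm j)] at hj
    exact (pow_le_pow_iff_left₀ (norm_nonneg _) hC two_ne_zero).1 hj)
  have hq : MemLp (y : M → EV n) 2 (vm vol) := Lp.memLp y
  have hl' : ∀ w : M → EV n, MemLp w 2 (vm vol) →
      Tendsto (fun j => ∫ x, ⟪w x, rr h vol K (v j) x⟫_ℂ ∂(vm vol)) U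
        (𝓝 (∫ x, ⟪w x, y x⟫_ℂ ∂(vm vol))) := fun w hw => by
    have h1 := (Complex.continuous_conj.tendsto _).comp (hl (hw.toLp w))
    rw [inner_conj_symm, ← Lp.toLp_coeFn y hq, inner_toLp hq hw] at h1
    refine h1.congr fun j => ?_
    rw [Function.comp, inner_conj_symm, inner_toLp (hm j) hw]
  obtain ⟨V, hV, hH, hae⟩ := reg h vol K hq fun i T k φ hφ hcs hs => by
    have hψ : Continuous (Weyl399.dbar k φ) := (contDiff_wF (s := I) (a := k) hφ).continuous
    have h0 : ∀ z ∉ tsupport φ, Weyl399.dbar k φ z = 0 := fun z hz => wF_zero_off (s := I) hz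
    have hCs : sz A i '' tsupport φ ⊆ (A.e i).source := by
      rintro _ ⟨z, hz, rfl⟩
      exact sz_mem (hs hz)
    have h1 := hl' _ (memLp_loc h vol K (isCompact_sz hcs.isCompact hs).measurableSet
      (isCompact_sz hcs.isCompact hs) subset_rfl hCs (contOn_tst h K i T hψ))
    rw [int_tst h vol K hq.1 i T hψ hcs.isCompact hs h0] at h1
    obtain ⟨p, c, hp, hpc⟩ := weak_le h vol K i T k hφ hcs hs
    have h2 := tendsto_of_amgm hp hd fun δ hδ j => hpc (v j) (hv j) (hc j) δ hδ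
    exact tendsto_nhds_unique (h1.congr fun j =>
      int_tst h vol K (hm j).1 i T hψ hcs.isCompact hs h0) h2
  refine ⟨V, hV, hH, hq.ae_eq hae, ?_, fun w hw => ?_⟩
  · have h1 := norm_toLp_sq hq
    rw [Lp.toLp_coeFn] at h1
    have h2 : ∫ x, ‖rr h vol K V x‖ ^ 2 ∂(vm vol) = ∫ x, ‖y x‖ ^ 2 ∂(vm vol) :=
      integral_congr_ae (by filter_upwards [hae] with x hx using by rw [hx])
    rw [h2, ← h1]
    exact pow_le_pow_left₀ (norm_nonneg _) hy 2
  · have h2 : ∫ x, ⟪w x, rr h vol K V x⟫_ℂ ∂(vm vol) = ∫ x, ⟪w x, y x⟫_ℂ ∂(vm vol) :=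
      integral_congr_ae (by filter_upwards [hae] with x hx using by rw [hx])
    rw [h2]
    exact hl' w hw

theorem contOn_mulVec {s : Set M} {B : M → Matrix (FI n) (FI n) ℂ} {y : M → FI n → ℂ}
    (hB : ContinuousOn B s) (hy : ContinuousOn y s) : ContinuousOn (fun x => B x *ᵥ y x) s :=
  (continuous_fst.matrix_mulVec continuous_snd).comp_continuousOn (f := fun x => (B x, y x))
    (hB.prodMk hy)

/-- local linear conditions pass to the weak limit -/
theorem null_of_lim {ι : Type*} {U : Filter ι} [U.NeBot] {v : ι → A.ι → M → FI n → ℂ}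
    (hv : ∀ j, IsV N (v j)) {V : A.ι → M → FI n → ℂ} (hV : IsV N V)
    (hl : ∀ w : M → EV n, MemLp w 2 (vm vol) →
      Tendsto (fun j => ∫ x, ⟪w x, rr h vol K (v j) x⟫_ℂ ∂(vm vol)) U
        (𝓝 (∫ x, ⟪w x, rr h vol K V x⟫_ℂ ∂(vm vol))))
    {i : A.ι} {E C : Set M} (hE : MeasurableSet E) (hC : IsCompact C) (hEC : E ⊆ C)
    (hs : C ⊆ (A.e i).source) {B : M → Matrix (FI n) (FI n) ℂ}
    (hB : ContinuousOn B C)
    (h0 : Tendsto (fun j => ∫ x, ‖lcV h vol K i E (fun x => B x *ᵥ v j i x) x‖ ^ 2 ∂(vm vol)) U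
      (𝓝 0)) :
    ∀ᵐ x ∂(vm vol), x ∈ E → B x *ᵥ V i x = 0 := by
  have hmem : ∀ {u : A.ι → M → FI n → ℂ}, IsV N u →
      MemLp (lcV h vol K i E fun x => B x *ᵥ u i x) 2 (vm vol) := fun hu =>
    memLp_loc' h vol K hE hC hEC hs (contOn_mulVec hB ((contOn_V hu i).mono hs))
  have hc : ContinuousOn (fun x => (Gam ((K.g i x)ᵀ)⁻¹ * (B x)ᴴ * Gam (K.g i x)ᵀ) *ᵥ
      (B x *ᵥ V i x)) C :=
    contOn_mulVec ((((contOn_Gi K i).mono hs).mul
      (continuous_id.matrix_conjTranspose.comp_continuousOn hB)).mul ((contOn_G K i).mono hs))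
      (contOn_mulVec hB ((contOn_V hV i).mono hs))
  have hw := memLp_loc' h vol K hE hC hEC hs hc
  have e1 : ∀ {u : A.ι → M → FI n → ℂ} (hu : IsV N u),
      ∫ x, ⟪lcV h vol K i E (fun x => (Gam ((K.g i x)ᵀ)⁻¹ * (B x)ᴴ * Gam (K.g i x)ᵀ) *ᵥ
        (B x *ᵥ V i x)) x, rr h vol K u x⟫_ℂ ∂(vm vol) =
        ⟪(hmem hV).toLp _, (hmem hu).toLp _⟫_ℂ := fun {u} hu => by
    rw [inner_toLp]
    refine integral_congr_ae (Eventually.of_forall fun x => ?_)
    simp only [lcV]
    by_cases hx : x ∈ E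
    · have hx' := hs (hEC hx)
      rw [indicator_of_mem hx, indicator_of_mem hx, indicator_of_mem hx, rr_eq h vol K hu hx',
        inner_tV h vol K hx', inner_tV h vol K hx', gq_adj K hx']
    · rw [indicator_of_notMem hx, indicator_of_notMem hx, inner_zero_left, inner_zero_left]
  have h1 := hl _ hw
  rw [e1 hV] at h1
  have h2 : Tendsto (fun j => (hmem (hv j)).toLp _) U (𝓝 0) := by
    rw [tendsto_zero_iff_norm_tendsto_zero]
    have h3 := h0.sqrt
    rw [Real.sqrt_zero] at h3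
    refine h3.congr fun j => ?_
    rw [← norm_toLp_sq (hmem (hv j)), Real.sqrt_sq (norm_nonneg _)]
  have h3 : Tendsto (fun j => ⟪(hmem hV).toLp _, (hmem (hv j)).toLp _⟫_ℂ) U
      (𝓝 ⟪(hmem hV).toLp _, 0⟫_ℂ) := tendsto_const_nhds.inner h2
  have h4 := tendsto_nhds_unique (h1.congr fun j => e1 (hv j)) h3
  rw [inner_zero_right, inner_self_eq_zero, Lp.eq_zero_iff_ae_eq_zero] at h4
  filter_upwards [h4, (hmem hV).coeFn_toLp] with x hx hx' hxE
  rw [hx', lcV, indicator_of_mem hxE] at hx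
  have h5 := congrArg (uV h vol K i x) hx
  rw [un_tV h vol K (hs (hEC hxE))] at h5
  rw [h5]
  simp [uV]

end

end Crest.Agent.X261.Jet.Lim
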