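import Crest.Agent.X261.Jet.TbI

/-!
# Row 261, JET/Tube (helper5), file `TbF`: semipositive weights on a tube come from the base

* `psh_bas`   : `φ = φB ∘ π + log |u|²_h` with `φB` psh;
* `int_tube`  : integrability of `e^{-c φ}` near one point spreads to a small tube;
* `pole_tube` : a pole at one point spreads to a pole along the central fibre.
-/

set_option autoImplicit false
set_option linter.unusedSectionVars false

open Set Filter Topology Complex Matrix MeasureTheory Metric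
open scoped ContDiff Matrix ComplexConjugate ENNReal

namespace Crest.Agent.X261.Jet.Tb

open Crest.Agent.R275 Crest.Agent.R275.Geo Crest.Agent.R275.Core144
open Crest.Agent.R273.Defs_333 Crest.Agent.R273.Fock_243 Crest.Agent.R273.Vm_333
open Crest.Agent.T223.Hm
open Crest.Agent.X261.Top Crest.Agent.X261.Psh

noncomputable section

variable {n p : ℕ} {M : Type} [TopologicalSpace M] {A : Atl n M} {T : Set M} {π : M → Cn p}
  {L : LB A} {u : A.ι → M → ℂ}

namespace F5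

theorem eN_coe (N x : ℝ) : eN N x = ENNReal.ofReal (Real.exp (-(N * x))) := by
  rw [eN, ← EReal.coe_mul, ← EReal.coe_neg, EReal.exp_coe]

theorem eN_bot {N : ℝ} (hN : 0 < N) : eN N ⊥ = ⊤ := by
  simp [eN, EReal.mul_bot_of_pos (EReal.coe_pos.2 hN)]

theorem eN_add {N : ℝ} (hN : 0 < N) (a : EReal) (x : ℝ) :
    eN N (a + x) = ENNReal.ofReal (Real.exp (-(N * x))) * eN N a := by
  have h0 : (0 : EReal) < N := EReal.coe_pos.2 hN
  have h1 : ENNReal.ofReal (Real.exp (-(N * x))) ≠ 0 := (ENNReal.ofReal_pos.2 (Real.exp_pos _)).ne'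
  induction a with
  | bot => simp [eN, EReal.mul_bot_of_pos h0, ENNReal.mul_top h1]
  | top => simp [eN, EReal.mul_top_of_pos h0]
  | coe y =>
    rw [← EReal.coe_add, eN_coe, eN_coe, ← ENNReal.ofReal_mul (Real.exp_pos _).le, ← Real.exp_add]
    congr 2; ring

theorem eN_add_le {N : ℝ} (hN : 0 < N) (a : EReal) {x b : ℝ} (h : |x| ≤ b) :
    eN N (a + x) ≤ ENNReal.ofReal (Real.exp (N * b)) * eN N a := by
  rw [eN_add hN]
  gcongr
  nlinarith [(abs_le.1 h).1]

theorem add_neg_add (a : EReal) (x : ℝ) : a + ((-x : ℝ) : EReal) + x = a := by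
  rw [add_assoc, ← EReal.coe_add, neg_add_cancel, EReal.coe_zero, add_zero]

theorem add_add_neg (a : EReal) (x : ℝ) : a + x + ((-x : ℝ) : EReal) = a := by
  rw [add_assoc, ← EReal.coe_add, add_neg_cancel, EReal.coe_zero, add_zero]

theorem meas_eN (N : ℝ) : Measurable (eN N) :=
  EReal.measurable_exp.comp (measurable_id.const_mul (N : EReal)).neg

variable [Countable A.ι]

theorem pshM (hT : IsOpen T) (F : Frm L T u) (h : HM L) {φ : M → EReal} (hφ : PshW h φ) :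
    PshM A T fun y => φ y + ((-Real.log (nq h u y) : ℝ) : EReal) := by
  intro i
  have h1 := (isPsh_log_norm (isOpen_ti hT)
    ((F.hol i).inv fun x hi hx => F.ne i x hx hi)).smul (c := 2) zero_le_two
  refine (((hφ i).mono inter_subset_left).add h1).congr fun z hz => ?_
  have hi := (A.e i).map_target hz.1
  have h2 := norm_pos_iff.2 (F.ne i _ hz.2 hi)
  have h3 := h.pos i _ hi
  simp only [F.nq_eq h hz.2 hi, HM.wt]
  rw [← ofReal_norm, ENNReal.log_ofReal_of_pos (by rw [norm_inv]; positivity), ← EReal.coe_mul,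
    add_assoc, ← EReal.coe_add, Real.log_mul h3.ne' (by positivity), Real.log_pow, norm_inv,
    Real.log_inv]
  congr 2
  push_cast
  ring

theorem exists_bd (H : Tub A T π) (F : Frm L T u) (h : HM L) :
    ∃ b : ℝ, ∀ y ∈ T, ‖π y‖ ≤ 1 / 2 → |Real.log (nq h u y)| ≤ b := by
  obtain ⟨b, hb⟩ := (H.prop (1 / 2) (by norm_num)).exists_bound_of_continuousOn
    (f := fun y => Real.log (nq h u y)) fun y hy =>
      ((F.nq_cont H.opn h hy.1).log (F.nq_pos h hy.1).ne').continuousWithinAt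
  exact ⟨b, fun y h1 h2 => hb y ⟨h1, h2⟩⟩

end F5

open F5

variable [Countable A.ι] [T2Space M] [MeasurableSpace M] [BorelSpace M]

theorem psh_bas (H : Tub A T π) (hc : ∀ y ∈ T, IsPreconnected {z | z ∈ T ∧ π z = π y})
    (F : Frm L T u) (h : HM L) {φ : M → EReal} (hφ : PshW h φ) :
    ∃ φB : Cn p → EReal, IsPsh (π '' T) φB ∧
      ∀ y ∈ T, φ y = φB (π y) + (Real.log (nq h u y) : ℝ) := by
  obtain ⟨φB, h1, h2⟩ := H.basic hc (pshM H.opn F h hφ)
  exact ⟨φB, h1, fun y hy => by rw [← h2 y hy, add_neg_add]⟩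

theorem int_tube (H : Tub A T π) (hc : ∀ y ∈ T, IsPreconnected {z | z ∈ T ∧ π z = π y})
    (F : Frm L T u) (h : HM L) {φ : M → EReal} (hφ : PshW h φ) (vol : HM (KB A)⁻¹)
    {x₀ : M} (hx : x₀ ∈ T) (h0 : π x₀ = 0) {q : A.ι} (hq : x₀ ∈ (A.e q).source) {c : ℝ} (hc0 : 0 < c)
    (hint : ∃ V ∈ 𝓝 (A.e q x₀), ∫⁻ z in V, eN c (φ ((A.e q).symm z)) < ⊤) :
    ∃ r₀, 0 < r₀ ∧ r₀ < 1 ∧ (∀ᵐ x ∂(vm vol), x ∈ T → ‖π x‖ ≤ r₀ → φ x ≠ ⊥) ∧
      IntegrableOn (fun x => Real.exp (-(c * (φ x).toReal))) {x | x ∈ T ∧ ‖π x‖ ≤ r₀} (vm vol) := by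
  obtain ⟨φB, -, h2⟩ := psh_bas H hc F h hφ
  obtain ⟨b, hb⟩ := exists_bd H F h
  obtain ⟨V, hV, hI⟩ := hint
  obtain ⟨N, hN, C, hC, h3⟩ := leG_chart vol volume hq V hV
  have h4 : ∀ᶠ y in 𝓝 x₀, ‖π y‖ ≤ 1 / 2 :=
    ((H.contAt hx).norm.eventually (gt_mem_nhds (by simp [h0]))).mono
      fun _ hy => le_of_lt hy
  obtain ⟨O, o1, o2, o3⟩ := mem_nhds_iff.1 (inter_mem hN (inter_mem (H.opn.mem_nhds hx)
    (inter_mem ((A.e q).open_source.mem_nhds hq) h4)))
  obtain ⟨W, hW, C', hC', h5⟩ := H.geG vol volume hx O (o2.mem_nhds o3)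
  have h6 : ∫⁻ w in W, eN c (φB w) < ⊤ := by
    refine (h5 _).trans_lt (ENNReal.mul_lt_top hC' ((lint_mono_on o2.measurableSet subset_rfl
      (F' := fun y => ENNReal.ofReal (Real.exp (c * b)) * eN c (φ ((A.e q).symm (A.e q y))))
      fun y hy => ?_).trans_lt ?_))
    · obtain ⟨-, a1, a2, a3⟩ := o1 hy
      rw [(A.e q).left_inv a2, h2 y a1]
      conv_lhs => rw [← add_add_neg (φB (π y)) (Real.log (nq h u y))]
      exact eN_add_le hc0 _ (by rw [abs_neg]; exact hb y a1 a3)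
    · rw [lintegral_const_mul' _ _ ENNReal.ofReal_ne_top]
      exact ENNReal.mul_lt_top ENNReal.ofReal_lt_top (((lintegral_mono_set fun y hy =>
        (o1 hy).1).trans (h3 fun z => eN c (φ ((A.e q).symm z)))).trans_lt
          (ENNReal.mul_lt_top hC hI))
  rw [h0] at hW
  obtain ⟨ε, hε, h7⟩ := Metric.mem_nhds_iff.1 hW
  have r1 : min (ε / 2) (1 / 2) < 1 := (min_le_right _ _).trans_lt (by norm_num)
  have hK := H.prop _ r1
  set K := {y | y ∈ T ∧ ‖π y‖ ≤ min (ε / 2) (1 / 2)}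
  obtain ⟨C'', hC'', h8⟩ := lint_cpt (μ := vm vol) (ν := (volume : Measure (Cn p))) hK
    (fun a ha => H.leG vol volume ha.1) (W := W) fun a ha => mem_of_superset
      (isOpen_ball.mem_nhds (mem_ball_zero_iff.2
        ((ha.2.trans (min_le_left _ _)).trans_lt (half_lt_self hε)))) h7
  have h9 : ∫⁻ y in K, eN c (φ y) ∂(vm vol) < ⊤ := by
    refine (lint_mono_on hK.measurableSet subset_rfl
      (F' := fun y => ENNReal.ofReal (Real.exp (c * b)) * eN c (φB (π y))) fun y hy => ?_).trans_lt ?_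
    · rw [h2 y hy.1]
      exact eN_add_le hc0 _ (hb y hy.1 (hy.2.trans (min_le_right _ _)))
    · rw [lintegral_const_mul' _ _ ENNReal.ofReal_ne_top]
      exact ENNReal.mul_lt_top ENNReal.ofReal_lt_top
        ((h8 fun w => eN c (φB w)).trans_lt (ENNReal.mul_lt_top hC'' h6))
  have hP := pshM H.opn F h hφ
  have m1 : AEMeasurable φ ((vm vol).restrict K) := by
    obtain ⟨v, v1, v2⟩ := exists_meas H.opn fun y hy =>
      (hP.usc H.opn hy).upperSemicontinuousWithinAt T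
    have c1 : ContinuousOn (fun y => Real.log (nq h u y)) K := fun y hy =>
      ((F.nq_cont H.opn h hy.1).log (F.nq_pos h hy.1).ne').continuousWithinAt
    refine (v1.aemeasurable.add (c1.aemeasurable hK.measurableSet).coe_real_ereal).congr ?_
    filter_upwards [ae_restrict_mem hK.measurableSet] with y hy
    rw [Pi.add_apply, ← v2 hy.1, add_neg_add]
  have t1 : ∀ y, φ y ≠ ⊤ := fun y e => by
    obtain ⟨i, hi⟩ := A.cover y
    have := (hφ i).lt_top _ ((A.e i).map_source hi)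
    simp [(A.e i).left_inv hi, e] at this
  have a1 := (ae_restrict_iff' hK.measurableSet).1
    (ae_lt_top' ((meas_eN c).comp_aemeasurable m1) h9.ne)
  refine ⟨_, lt_min (half_pos hε) one_half_pos, r1, a1.mono fun y hy b1 b2 e => ?_,
    (Real.continuous_exp.measurable.comp_aemeasurable
      (m1.ereal_toReal.const_mul c).neg).aestronglyMeasurable,
    lt_of_le_of_lt (lintegral_mono fun y => ?_) h9⟩
  · have := hy ⟨b1, b2⟩
    simp [e, eN_bot hc0] at this
  · by_cases e : φ y = ⊥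
    · simp [e, eN_bot hc0]
    · conv_rhs => rw [← EReal.coe_toReal (t1 y) e, eN_coe]
      rw [Real.enorm_eq_ofReal (Real.exp_pos _).le]

theorem pole_tube (H : Tub A T π) (hc : ∀ y ∈ T, IsPreconnected {z | z ∈ T ∧ π z = π y})
    (F : Frm L T u) (h : HM L) {S : M → EReal} (hS : PshW h S)
    {x₀ : M} (hx : x₀ ∈ T) (h0 : π x₀ = 0) {q : A.ι} (hq : x₀ ∈ (A.e q).source) {c C : ℝ}
    (hc0 : 0 < c) (hp : ∀ᶠ z in 𝓝[≠] (A.e q x₀),
      S ((A.e q).symm z) ≤ ((c * Real.log ‖z - A.e q x₀‖ + C : ℝ) : EReal)) :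
    ∃ r₀ C', 0 < r₀ ∧ r₀ < 1 ∧ ∀ x ∈ T, π x ≠ 0 → ‖π x‖ ≤ r₀ →
      S x ≤ ((c * Real.log ‖π x‖ + C' : ℝ) : EReal) := by
  obtain ⟨SB, -, h2⟩ := psh_bas H hc F h hS
  obtain ⟨b, hb⟩ := exists_bd H F h
  obtain ⟨P⟩ := H.exists_pc hx hq
  have h3 := P.sec_an (mem_ball_self P.pos)
  obtain ⟨Λ, hΛ, h4⟩ := h3.differentiableAt.hasFDerivAt.isBigO_sub.exists_pos
  have h5 := h3.continuousAt
  rw [ContinuousAt, P.G_self] at h5
  have h6 := (h4.bound.and (h5.eventually (eventually_nhdsWithin_iff.1 hp))).and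
    (ball_mem_nhds (π x₀) P.pos)
  obtain ⟨ε, hε, h7⟩ := nhds_basis_closedBall.eventually_iff.1 h6
  refine ⟨min ε (1 / 2), c * Real.log Λ + C + b + b, lt_min hε one_half_pos,
    (min_le_right _ _).trans_lt (by norm_num), fun x a1 a2 a3 => ?_⟩
  obtain ⟨⟨b1, b2⟩, b3⟩ := h7 (show π x ∈ closedBall (π x₀) ε by
    rw [h0]; exact mem_closedBall_zero_iff.2 (a3.trans (min_le_left _ _)))
  have b4 := P.mem_ball' b3 (mem_ball_self P.pos)
  have b5 : P.G (π x, P.κ x₀) ≠ A.e q x₀ := fun e => a2 (by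
    have := P.fst _ b4
    rwa [e, (A.e q).left_inv hq, h0, eq_comm] at this)
  have b6 : π (P.Γ (π x, P.κ x₀)) = π x := P.π_Γ b4
  have b7 := a3.trans (min_le_right _ _)
  have b8 := h2 _ (P.Γ_mem b4)
  have b9 := abs_le.1 (hb _ (P.Γ_mem b4) (by rwa [b6]))
  have c1 : S (P.Γ (π x, P.κ x₀)) ≤ _ := b2 b5
  rw [b8, b6, add_coe_le_iff] at c1
  rw [P.G_self, h0, sub_zero] at b1
  have c2 := Real.log_le_log (norm_pos_iff.2 (sub_ne_zero.2 b5)) b1
  rw [Real.log_mul hΛ.ne' (norm_ne_zero_iff.2 a2)] at c2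
  rw [h2 x a1]
  refine (add_le_coe c1 le_rfl).trans (EReal.coe_le_coe_iff.2 ?_)
  nlinarith [(abs_le.1 (hb x a1 b7)).2, mul_le_mul_of_nonneg_left c2 hc0.le]

end

end Crest.Agent.X261.Jet.Tb
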