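import Crest.Agent.X261.Jet.TbD
import Crest.Agent.R269.Amp4_243

/-!
# Row 261, JET/Tube (helper66), file `TbG`: the end of JET

* `Tub.fib_null` : the fibres have measure zero;
* `jet_base`     : the jet lemma with regularised weights;
* `jet_end`      : an `L²` estimate with weight `‖π‖^(2(p+1))` on co-closed test fields forces
                   vanishing to order two on the central fibre.
-/

set_option autoImplicit false
set_option linter.unusedSectionVars false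

open Set Filter Topology Complex Matrix MeasureTheory Metric
open scoped ContDiff Matrix ComplexConjugate ENNReal InnerProductSpace

namespace Crest.Agent.X261.Jet.Tb

open Crest.Agent.R275 Crest.Agent.R275.Geo Crest.Agent.R275.Core144
open Crest.Agent.R275.OmT75 (dl dj dj_holo)
open Crest.Agent.R273.Defs_333 Crest.Agent.R273.Fock_243 Crest.Agent.R273.Vm_333
open Crest.Agent.R273.Kah_333
open Crest.Agent.R273.DVec_733 (MV)
open Crest.Agent.R273.DMetB_733 (dlt isV)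
open Crest.Agent.R273.BKNa_37 (IsV)
open Crest.Agent.R273.BKNb_37 (inG)
open Crest.Agent.R273.BKNc_37 (inG_isD)
open Crest.Agent.T223.Hm
open Crest.Agent.X261.Jet.HL (pr)

noncomputable section

variable {n p : ℕ} {M : Type} [TopologicalSpace M] {A : Atl n M} {T : Set M} {π : M → Cn p}
  {N : LB A} {σ : A.ι → M → ℂ}

theorem norm_toLp_le (ζ : Fin p → ℂ) : ‖(WithLp.toLp 2 ζ : Cn p)‖ ^ 2 ≤ p * ‖ζ‖ ^ 2 := by
  rw [EuclideanSpace.norm_sq_eq]
  refine (Finset.sum_le_card_nsmul _ _ (‖ζ‖ ^ 2) fun k _ => ?_).trans (by simp)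
  exact pow_le_pow_left₀ (norm_nonneg _) (norm_le_pi_norm ζ k) 2

/-- the jet lemma with regularised weights -/
theorem jet_base (hp : 1 ≤ p) {G : Cn p → ℂ} (hG : DifferentiableAt ℂ G 0)
    {W : Set (Fin p → ℂ)} (hW : W ∈ 𝓝 (0 : Fin p → ℂ)) {B : ℝ≥0∞} (hB : B < ⊤)
    (h : ∀ η : ℝ, 0 < η → ∫⁻ ζ in W, ENNReal.ofReal (‖G (WithLp.toLp 2 ζ)‖ ^ 2 *
      ((‖(WithLp.toLp 2 ζ : Cn p)‖ ^ 2 + η) ^ (p + 1))⁻¹) ≤ B) :
    G 0 = 0 ∧ fderiv ℂ G 0 = 0 := by
  let e := (EuclideanSpace.equiv (Fin p) ℂ).symm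
  have h1 : HasFDerivAt (fun ζ : Fin p → ℂ => G (WithLp.toLp 2 ζ))
      ((fderiv ℂ G 0).comp (e : (Fin p → ℂ) →L[ℂ] Cn p)) 0 :=
    HasFDerivAt.comp (g := G) (f := e) 0 hG.hasFDerivAt e.hasFDerivAt
  have : Nonempty (Fin p) := ⟨⟨0, hp⟩⟩
  obtain ⟨k1, k2⟩ := Crest.Agent.R269.Amp4_243.jet_of_lint hp h1.differentiableAt
    ((p + 1 : ℕ) : ℝ) (by push_cast; exact le_rfl) hW (by
      let S : ℕ → Set (Fin p → ℂ) := fun k => {ζ | 1 / ((k : ℝ) + 1) ≤ ‖ζ‖}
      have hs : W ⊆ (⋃ k, W ∩ S k) ∪ {0} := fun ζ hζ => by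
        by_cases h0 : ζ = 0
        · exact Or.inr h0
        · obtain ⟨k, hk⟩ := exists_nat_one_div_lt (norm_pos_iff.2 h0)
          exact Or.inl (mem_iUnion.2 ⟨k, hζ, hk.le⟩)
      have hm : Monotone fun k => W ∩ S k := fun k l hkl ζ hζ =>
        ⟨hζ.1, (le_trans (Nat.one_div_le_one_div hkl) hζ.2 : 1 / ((l : ℝ) + 1) ≤ ‖ζ‖)⟩
      refine ne_top_of_le_ne_top ?_ ((lintegral_mono_set hs).trans (lintegral_union_le _ _ _))
      rw [setLIntegral_measure_zero _ _ (measure_singleton _), add_zero,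
        setLIntegral_iUnion_of_directed _ hm.directed_le]
      refine ne_top_of_le_ne_top (ENNReal.mul_ne_top
        (ENNReal.ofReal_ne_top (r := ((p : ℝ) + 1) ^ (p + 1))) hB.ne) (iSup_le fun k => ?_)
      have hδ : 0 < 1 / ((k : ℝ) + 1) := Nat.one_div_pos_of_nat
      refine le_trans ?_ (mul_le_mul_right (h _ (pow_pos hδ 2)) _)
      rw [← lintegral_const_mul' _ _ ENNReal.ofReal_ne_top]
      refine le_trans (lint_mono_on (O := S k)
        (isClosed_le continuous_const continuous_norm).measurableSet inter_subset_right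
        fun ζ hζ => ?_) (lintegral_mono_set inter_subset_left)
      have h2 : 0 < ‖ζ‖ := hδ.trans_le hζ
      rw [ENNReal.ofReal_rpow_of_pos (pow_pos h2 2), ← ENNReal.ofReal_mul (sq_nonneg _),
        ← ENNReal.ofReal_mul (by positivity), Real.rpow_neg (sq_nonneg _), Real.rpow_natCast,
        mul_left_comm]
      refine ENNReal.ofReal_le_ofReal (mul_le_mul_of_nonneg_left ?_ (sq_nonneg _))
      rw [← div_eq_mul_inv, inv_eq_one_div, div_le_div_iff₀ (by positivity) (by positivity),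
        one_mul, ← mul_pow]
      refine pow_le_pow_left₀ (by positivity) ?_ _
      have h3 := norm_toLp_le ζ
      have h4 := pow_le_pow_left₀ hδ.le hζ 2
      linarith)
  refine ⟨k1, ?_⟩
  rw [h1.fderiv] at k2
  ext v
  obtain ⟨ζ, rfl⟩ := e.surjective v
  exact DFunLike.congr_fun k2 ζ

/-- the regularised weight -/
def wgt (θ : ContDiffBump (0 : Cn p)) (η : ℝ) (t : Cn p) : ℝ := θ t * ((‖t‖ ^ 2 + η) ^ (p + 1))⁻¹

theorem wgt_cd (θ : ContDiffBump (0 : Cn p)) {η : ℝ} (hη : 0 < η) :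
    ContDiff ℝ ∞ fun t => (wgt θ η t : ℂ) :=
  Complex.ofRealCLM.contDiff.comp (θ.contDiff.mul
    ((((contDiff_norm_sq ℝ).add contDiff_const).pow _).inv fun t => by positivity))

theorem wgt_nonneg (θ : ContDiffBump (0 : Cn p)) {η : ℝ} (hη : 0 < η) (t : Cn p) :
    0 ≤ wgt θ η t := mul_nonneg θ.nonneg (by positivity)

theorem wgt_le (θ : ContDiffBump (0 : Cn p)) {η : ℝ} (hη : 0 < η) (t : Cn p) :
    ‖t‖ ^ (2 * (p + 1)) * wgt θ η t ≤ 1 := by
  rw [wgt, mul_left_comm, ← div_eq_mul_inv, pow_mul]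
  exact mul_le_one₀ θ.le_one (by positivity) (div_le_one_of_le₀
    (pow_le_pow_left₀ (sq_nonneg _) (le_add_of_nonneg_right hη.le) _) (by positivity))

variable [Countable A.ι] [T2Space M] [MeasurableSpace M] [BorelSpace M]

/-- the fibres have measure zero -/
theorem Tub.fib_null (H : Tub A T π) (hp : 1 ≤ p) (vol : HM (KB A)⁻¹) {c : Cn p} (hc : ‖c‖ < 1) :
    vm vol {x | x ∈ T ∧ π x = c} = 0 := by
  borelize (Cn p)
  have : Nonempty (Fin p) := ⟨⟨0, hp⟩⟩
  have hZ := H.cpt (isClosed_singleton (x := c)) hc fun _ hz => le_of_eq (congrArg _ hz)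
  obtain ⟨C, -, h⟩ := lint_cpt hZ (fun a ha => H.leG vol Measure.addHaar ha.1)
    (W := univ) fun _ _ => univ_mem
  have h1 := h (({c} : Set (Cn p)).indicator 1)
  rw [Measure.restrict_univ, lintegral_indicator_one (measurableSet_singleton c),
    measure_singleton, mul_zero, setLIntegral_congr_fun (g := fun _ => 1) hZ.measurableSet
      fun a ha => indicator_of_mem ha.2 _, setLIntegral_one] at h1
  exact nonpos_iff_eq_zero.1 h1

theorem Sbm.geG_of (H : Sbm A T π) (vol : HM (KB A)⁻¹) {x : M} (hx : x ∈ T) :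
    GeG (vm vol) x (fun y => WithLp.ofLp (π y)) volume (WithLp.ofLp (π x)) := by
  borelize (Cn p)
  let e := EuclideanSpace.equiv (Fin p) ℂ
  have h1 : fderiv ℂ (fun t : Cn p => WithLp.ofLp t) (π x) = e := e.fderiv
  exact (geG_subm Measure.addHaar volume (g := fun t : Cn p => WithLp.ofLp t)
    ((e : Cn p →L[ℂ] (Fin p → ℂ)).analyticAt _) (by rw [h1]; exact e.surjective)).comp
    (H.geG vol Measure.addHaar hx)

variable (h : HM ((KB A)⁻¹ * N)) (vol : HM (KB A)⁻¹) (K : Kah A)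

/-- the uniform bound -/
theorem jet_bd (H : Sbm A T π) (hF : ∀ y ∈ T, IsCompact {z | z ∈ T ∧ π z = π y}) {r : ℕ}
    (hr : p + r = n) (F : Frm ((KB A)⁻¹ * N) T σ) {V v : A.ι → M → FI n → ℂ} (hV : IsV N V)
    (hv : IsV N v) {f a : M → ℂ} (hf : ∀ i, HolAt A i T fun x => f x - a x)
    (rV : ∀ i, ∀ x ∈ T, x ∈ (A.e i).source → prj r (V i x) = (f x * σ i x) • tau A i π x)
    (rv : ∀ i, ∀ x ∈ T, x ∈ (A.e i).source → prj r (v i x) = (a x * σ i x) • tau A i π x)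
    {om : M → ℝ} (om0 : ∀ x, 0 ≤ om x) {C D : ℝ} (hD : 0 ≤ D)
    (hom : ∀ᵐ x ∂(vm vol), x ∈ T → om x ≤ C * ‖π x‖ ^ (2 * (p + 1)))
    (hY : ∀ w : MV N, Cs w.1 → dlt h w = 0 → ‖pr K h vol V w.1 - pr K h vol v w.1‖ ^ 2 ≤
      D * ∫ x, om x * (gl vol (inG K h w.1 w.1) x).re ∂(vm vol))
    (θ : ContDiffBump (0 : Cn p)) (hθ : IsCompact {x | x ∈ T ∧ ‖π x‖ ≤ θ.rOut}) :
    ∃ B : ℝ, ∀ η : ℝ, 0 < η → ∫⁻ x in T, ENNReal.ofReal (‖f x - a x‖ ^ 2 * wgt θ η (π x) *
      (mm h vol K T π σ x / nq h σ x)) ∂(vm vol) ≤ ENNReal.ofReal B := by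
  obtain ⟨c, hc⟩ := hθ.exists_bound_of_continuousOn (f := fun x => (nq h σ x)⁻¹) fun x hx =>
    ((F.nq_cont H.opn h hx.1).inv₀ (F.nq_pos h hx.1).ne').continuousWithinAt
  refine ⟨D * (|C| * |c|), fun η hη => ?_⟩
  have h0 : ∀ x, ¬ (x ∈ T ∧ ‖π x‖ ≤ θ.rOut) → x ∈ T → wgt θ η (π x) = 0 := fun x hx hxT => by
    rw [wgt, θ.zero_of_le_dist (by
      rw [dist_zero_right]; exact le_of_not_ge fun h => hx ⟨hxT, h⟩), zero_mul]
  have hb : Tst A T (fun x => (f x - a x) * (wgt θ η (π x) : ℂ)) {x | x ∈ T ∧ ‖π x‖ ≤ θ.rOut} :=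
    ⟨(smT_hol H.opn hf).mul (H.smT_comp fun _ _ => (wgt_cd θ hη).contDiffAt), hθ, fun _ hx => hx.1,
      fun x hx hxT => by rw [h0 x hx hxT, Complex.ofReal_zero, mul_zero]⟩
  have hw := hb.mul (F.smT_inv H.opn h)
  have h1 := hY (fldM H F hw) hw.cs (dlt_fldM H F h hb fun i x hx hi => by
    obtain ⟨G, hG, hG'⟩ := H.fac hF hf hx
    exact H.eW_dl_comp hx hi (Φ := fun t => G t * (wgt θ η t : ℂ))
      ((hG.differentiableAt.restrictScalars ℝ).mul ((wgt_cd θ hη).differentiable (by simp) _))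
      (hG'.mono fun y hy => by rw [hy]))
  rw [fldM_val] at h1
  set β : M → ℂ := fun x => (f x - a x) * (wgt θ η (π x) : ℂ) * ((nq h σ x : ℂ))⁻¹ with hβ
  set J : M → ℝ := T.indicator fun x => ‖f x - a x‖ ^ 2 * wgt θ η (π x) *
    (mm h vol K T π σ x / nq h σ x) with hJ
  have J0 : ∀ x, 0 ≤ J x := fun x => indicator_nonneg (fun y hy => mul_nonneg
    (mul_nonneg (sq_nonneg _) (wgt_nonneg θ hη _))
    (div_nonneg (mm_nonneg h vol K) (F.nq_pos h hy).le)) x
  have e1 : ∀ x, gl vol (inG K h (fld T π σ β) V) x - gl vol (inG K h (fld T π σ β) v) x =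
      (J x : ℂ) := fun x => by
    by_cases hx : x ∈ T
    · rw [gl_pair h vol K hr hx (rV _ x hx (ix_mem x)), gl_pair h vol K hr hx (rv _ x hx (ix_mem x)),
        hJ, indicator_of_mem hx, ← Complex.normSq_eq_norm_sq]
      push_cast
      rw [Complex.normSq_eq_conj_mul_self, map_sub]
      simp only [hβ]
      ring
    · rw [gl_pair_off h vol K fun h => (hx h).elim, gl_pair_off h vol K fun h => (hx h).elim,
        hJ, indicator_of_notMem hx, sub_zero, Complex.ofReal_zero]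
  have i1 : ∀ {V : A.ι → M → FI n → ℂ}, IsV N V →
      Integrable (gl vol (inG K h (fld T π σ β) V)) (vm vol) := fun hV =>
    integrable_of_sm (gl_sm (inG_isD (K := K) h (fld_isV H F hw) hV)) hθ
      fun x hx => gl_pair_off h vol K (hw.off x hx)
  have i2 : Integrable J (vm vol) :=
    ((i1 hV).sub (i1 hv)).re.congr (Eventually.of_forall fun x => by
      simp only [Pi.sub_apply, e1, RCLike.re_to_complex, Complex.ofReal_re])
  have i0 : 0 ≤ ∫ x, J x ∂(vm vol) := integral_nonneg J0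
  rw [pr, pr, ← integral_sub (i1 hV) (i1 hv)] at h1
  simp only [e1] at h1
  rw [integral_complex_ofReal, Complex.norm_real, Real.norm_of_nonneg i0] at h1
  have h2 : ∫ x, om x * (gl vol (inG K h (fld T π σ β) (fld T π σ β)) x).re ∂(vm vol) ≤
      |C| * |c| * ∫ x, J x ∂(vm vol) := by
    rw [← integral_const_mul]
    refine integral_mono_of_nonneg (Eventually.of_forall fun x => mul_nonneg (om0 x) ?_)
      (i2.const_mul _) ?_
    · rw [gl_fld]
      exact mul_nonneg (sq_nonneg _) (mm_nonneg h vol K)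
    · filter_upwards [hom] with x hx
      by_cases hxC : x ∈ T ∧ ‖π x‖ ≤ θ.rOut
      · have k1 := F.nq_pos h hxC.1
        have k2 := wgt_nonneg θ hη (π x)
        have k3 : (nq h σ x)⁻¹ ≤ |c| := (le_abs_self _).trans ((hc x hxC).trans (le_abs_self c))
        have k4 : om x * wgt θ η (π x) ≤ |C| := by
          refine (mul_le_mul_of_nonneg_right ((hx hxC.1).trans (mul_le_mul_of_nonneg_right
            (le_abs_self C) (by positivity))) k2).trans ?_
          rw [mul_assoc]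
          exact mul_le_of_le_one_right (abs_nonneg C) (wgt_le θ hη _)
        have k5 : om x * (‖β x‖ ^ 2 * mm h vol K T π σ x) =
            om x * wgt θ η (π x) * (nq h σ x)⁻¹ * J x := by
          simp only [hβ, hJ, indicator_of_mem hxC.1, norm_mul, norm_inv, Complex.norm_real,
            Real.norm_of_nonneg k1.le, Real.norm_of_nonneg k2]
          ring
        rw [gl_fld, k5]
        exact mul_le_mul_of_nonneg_right
          (mul_le_mul k4 k3 (inv_nonneg.2 k1.le) (abs_nonneg C)) (J0 x)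
      · rw [gl_pair_off h vol K (hw.off x hxC), Complex.zero_re, mul_zero]
        exact mul_nonneg (by positivity) (J0 x)
  have h3 : ∫ x, J x ∂(vm vol) ≤ D * (|C| * |c|) :=
    Abs.le_of_sq_le_mul i0 (by positivity) (h1.trans (by
      rw [mul_assoc D]; exact mul_le_mul_of_nonneg_left h2 hD))
  refine le_trans ?_ (ENNReal.ofReal_le_ofReal h3)
  rw [ofReal_integral_eq_lintegral_ofReal i2 (Eventually.of_forall J0)]
  refine le_trans (le_of_eq (lint_congr_on H.opn subset_rfl fun x hx => ?_))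
    (setLIntegral_le_lintegral T _)
  rw [hJ, indicator_of_mem hx]

/-- **the end of JET** -/
theorem jet_end (H : Tub A T π) (hp : 1 ≤ p) {r : ℕ} (hr : p + r = n)
    (F : Frm ((KB A)⁻¹ * N) T σ) {V v : A.ι → M → FI n → ℂ} (hV : IsV N V) (hv : IsV N v)
    {r₀ : ℝ} (h0 : 0 < r₀) {f a : M → ℂ}
    (hf : ∀ i, HolAt A i {x | x ∈ T ∧ ‖π x‖ < r₀} fun x => f x - a x)
    (rV : ∀ i, ∀ x ∈ T, ‖π x‖ < r₀ → x ∈ (A.e i).source →
      prj r (V i x) = (f x * σ i x) • tau A i π x)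
    (rv : ∀ i, ∀ x ∈ T, ‖π x‖ < r₀ → x ∈ (A.e i).source →
      prj r (v i x) = (a x * σ i x) • tau A i π x)
    {om : M → ℝ} (om0 : ∀ x, 0 ≤ om x) {C D : ℝ} (hD : 0 ≤ D)
    (hom : ∀ᵐ x ∂(vm vol), x ∈ T → π x ≠ 0 → ‖π x‖ < r₀ → om x ≤ C * ‖π x‖ ^ (2 * (p + 1)))
    (hY : ∀ w : MV N, Cs w.1 → dlt h w = 0 → ‖pr K h vol V w.1 - pr K h vol v w.1‖ ^ 2 ≤
      D * ∫ x, om x * (gl vol (inG K h w.1 w.1) x).re ∂(vm vol))
    {x₀ : M} (hx : x₀ ∈ T) (hπ : π x₀ = 0) :
    f x₀ = a x₀ ∧ ∀ i, x₀ ∈ (A.e i).source → ∀ k, dl A i k (fun x => f x - a x) x₀ = 0 := by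
  set U : Set M := {x | x ∈ T ∧ ‖π x‖ < r₀} with hU
  have hUo : IsOpen U := H.cont.norm.isOpen_inter_preimage H.opn isOpen_Iio
  have H' : Sbm A U π := H.toSbm.mono hUo fun _ h => h.1
  have F' := F.mono (T' := U) fun _ h => h.1
  have hxU : x₀ ∈ U := ⟨hx, by rwa [hπ, norm_zero]⟩
  have hF : ∀ y ∈ U, IsCompact {z | z ∈ U ∧ π z = π y} := fun y hy => by
    convert H.fib y hy.1 using 1
    ext z
    exact ⟨fun h => ⟨h.1.1, h.2⟩, fun h => ⟨⟨h.1, by rw [h.2]; exact hy.2⟩, h.2⟩⟩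
  have hρ : 0 < min r₀ 1 := lt_min h0 one_pos
  let θ : ContDiffBump (0 : Cn p) := ⟨min r₀ 1 / 4, min r₀ 1 / 2, by positivity, by linarith⟩
  have hθ : IsCompact {x | x ∈ U ∧ ‖π x‖ ≤ θ.rOut} := by
    convert H.prop (min r₀ 1 / 2) (by linarith [min_le_right r₀ 1]) using 1
    ext z
    exact ⟨fun h => ⟨h.1.1, h.2⟩, fun h => ⟨⟨h.1, by linarith [min_le_left r₀ 1, h.2]⟩, h.2⟩⟩
  obtain ⟨B, hB⟩ := jet_bd h vol K H' hF hr F' hV hv hf (fun i x hx => rV i x hx.1 hx.2)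
    (fun i x hx => rv i x hx.1 hx.2) om0 (C := C) hD (by
      filter_upwards [hom, measure_eq_zero_iff_ae_notMem.1
        (H.fib_null hp vol (c := 0) (by simp))] with x h1 h2 h3
      exact h1 h3.1 (fun h4 => h2 ⟨h3.1, h4⟩) h3.2) hY θ hθ
  obtain ⟨G, hG, hG'⟩ := H'.fac hF hf hxU
  have hm : 0 < mm h vol K U π σ x₀ / nq h σ x₀ :=
    div_pos (mm_pos h vol K H' F' hxU) (F'.nq_pos h hxU)
  have hc : ContinuousAt (fun x => mm h vol K U π σ x / nq h σ x) x₀ :=
    (mm_cont h vol K H' F' hxU).div (F'.nq_cont hUo h hxU) (F'.nq_pos h hxU).ne'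
  set m := mm h vol K U π σ x₀ / nq h σ x₀ / 2 with hm'
  have hm0 : 0 < m := half_pos hm
  obtain ⟨O, hO, hOo, hOx⟩ := _root_.mem_nhds_iff.1 ((hG'.and (hUo.mem_nhds hxU)).and
    ((hc.eventually (lt_mem_nhds (half_lt_self hm))).and
      ((H.contAt hx).eventually (by rw [hπ]; exact closedBall_mem_nhds _ θ.rIn_pos :
        ∀ᶠ t in 𝓝 (π x₀), t ∈ closedBall (0 : Cn p) θ.rIn))))
  obtain ⟨W, hW, C', hC', hle⟩ := H'.geG_of vol hxU O (hOo.mem_nhds hOx)
  rw [hπ] at hW hG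
  obtain ⟨k1, k2⟩ := jet_base hp hG.differentiableAt hW
    (B := C' * (ENNReal.ofReal m⁻¹ * ENNReal.ofReal B))
    (ENNReal.mul_lt_top hC' (ENNReal.mul_lt_top ENNReal.ofReal_lt_top ENNReal.ofReal_lt_top))
    fun η hη => by
      refine (hle _).trans (mul_le_mul_right (le_trans ?_ (mul_le_mul_right (hB η hη) _)) _)
      rw [← lintegral_const_mul' _ _ ENNReal.ofReal_ne_top]
      refine le_trans (lint_mono_on hOo.measurableSet subset_rfl fun x hx => ?_)
        (lintegral_mono_set fun x hx => (hO hx).1.2)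
      obtain ⟨⟨a1, -⟩, a2, a3⟩ := hO hx
      rw [← ENNReal.ofReal_mul (inv_nonneg.2 hm0.le), WithLp.toLp_ofLp, a1, wgt,
        θ.one_of_mem_closedBall a3, one_mul, mul_left_comm]
      refine ENNReal.ofReal_le_ofReal (le_mul_of_one_le_right (by positivity) ?_)
      rw [← div_eq_inv_mul, le_div_iff₀ hm0, one_mul]
      exact a2.le
  refine ⟨sub_eq_zero.1 (hG'.self_of_nhds.trans (by rw [hπ, k1])), fun i hi k => ?_⟩
  rw [H.dl_comp hx hi (by rw [hπ]; exact hG.differentiableAt.restrictScalars ℝ) hG', hπ]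
  refine Finset.sum_eq_zero fun l _ => ?_
  rw [dj_holo hG.differentiableAt, k2, _root_.zero_apply, zero_mul]

end

end Crest.Agent.X261.Jet.Tb
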