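import Crest.Agent.X261.Jet.TbG
import Crest.Agent.R273.FS_333

/-!
# Row 261, JET/Tube (helper66), file `TbH`: the inputs of the two steps of JET

* `Tub.exists_theta` : a smooth function which is `‖π‖²` near the central fibre;
* `Tub.posE`         : `S - φ` is very negative on a set of positive measure;
* `isV_prV`, `memLp_prV` : homogeneous parts;
* `Tub.exists_v1`    : the datum of the first step;
* `Eps.rep`          : `s ε₀ = (s / u^(k+1)) u^k tau`.
-/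

set_option autoImplicit false
set_option linter.unusedSectionVars false

open Set Filter Topology Complex Matrix MeasureTheory Metric
open scoped ContDiff Matrix ComplexConjugate ENNReal InnerProductSpace

namespace Crest.Agent.X261.Jet.Tb

open Crest.Agent.R275 Crest.Agent.R275.Geo Crest.Agent.R275.Core144
open Crest.Agent.R275.OmT75 (dl dj dj_holo)
open Crest.Agent.R273.Defs_333 Crest.Agent.R273.Fock_243 Crest.Agent.R273.Vm_333
open Crest.Agent.R273.Kah_333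
open Crest.Agent.R273.Berezin_505 (Sb Sbi)
open Crest.Agent.R273.DVec_733 (MV)
open Crest.Agent.R273.DMetB_733 (dlt isV)
open Crest.Agent.R273.BKNa_37 (IsV dbV)
open Crest.Agent.R273.BKNb_37 (inG)
open Crest.Agent.R273.BKNc_37 (inG_isD)
open Crest.Agent.T223.Hm
open Crest.Agent.X261.Jet.Fr

noncomputable section

variable {n p : ℕ} {M : Type} [TopologicalSpace M] {A : Atl n M} {T : Set M} {π : M → Cn p}
  {L N : LB A} {σ : A.ι → M → ℂ} {i : A.ι} {x : M}

/-! ### the function `‖π‖²` -/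

theorem Sbm.hq_sq (H : Sbm A T π) (hx : x ∈ T) (hi : x ∈ (A.e i).source) {θ : M → ℝ}
    (hθ : θ =ᶠ[𝓝 x] fun y => ‖π y‖ ^ 2) (ξ : Fin n → ℂ) :
    hq (hsf A θ i x) ξ = ∑ k, ‖∑ a, dp A i π x k a * ξ a‖ ^ 2 := by
  have h1 : hsf A θ i x = Matrix.of fun a b => ∑ k, dp A i π x k a * conj (dp A i π x k b) := by
    have h2 : (fun z => θ ((A.e i).symm z)) =ᶠ[𝓝 (A.e i x)]
        Crest.Agent.R273.FS_333.sq fun z k => π ((A.e i).symm z) k :=
      (ev_read (P := fun y => θ y = ‖π y‖ ^ 2) hi hθ).mono fun z hz =>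
        hz.trans (EuclideanSpace.norm_sq_eq _)
    have h3 : ∀ k a, fderiv ℂ (fun z => π ((A.e i).symm z) k) (A.e i x)
        (EuclideanSpace.single a 1) = dp A i π x k a := fun k a =>
      (dj_holo ((H.holAt i k).diffAt H.opn hi hx)).symm
    ext a b
    rw [hsf, Crest.Agent.R273.HessB_333.hess_congr h2,
      Crest.Agent.R273.FS_333.hess_sq (isOpen_ti H.opn) (fun k => H.holAt i k) (mem_ti hx hi)]
    simp only [h3, Matrix.of_apply]
  have h4 : star ξ ⬝ᵥ ((hsf A θ i x)ᵀ *ᵥ ξ) =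
      ∑ k, (∑ a, dp A i π x k a * ξ a) * conj (∑ a, dp A i π x k a * ξ a) := by
    simp only [h1, dotProduct, Matrix.mulVec, Matrix.transpose_apply, Matrix.of_apply, map_sum,
      Finset.mul_sum, Finset.sum_mul, Pi.star_apply, map_mul, RCLike.star_def]
    rw [Finset.sum_comm (s := Finset.univ (α := Fin p))]
    refine Finset.sum_congr rfl fun b _ => ?_
    rw [Finset.sum_comm (s := Finset.univ (α := Fin p))]
    exact Finset.sum_congr rfl fun a _ => Finset.sum_congr rfl fun k _ => by ring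
  rw [hq, h4, Complex.re_sum]
  refine Finset.sum_congr rfl fun k _ => ?_
  rw [Complex.mul_conj, Complex.ofReal_re, Complex.normSq_eq_norm_sq]

theorem Tub.isOpen_lt (H : Tub A T π) (r : ℝ) : IsOpen {x | x ∈ T ∧ ‖π x‖ < r} :=
  H.cont.norm.isOpen_inter_preimage H.opn isOpen_Iio

theorem exp_le {t s c C k : ℝ} {m : ℕ} (ht : 0 < t) (ht1 : t ≤ 1) (hk : 0 ≤ k)
    (hm : (m : ℝ) ≤ k * c) (hs : s ≤ c * Real.log t + C) :
    Real.exp (k * s) ≤ Real.exp (k * C) * t ^ m := by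
  rw [← Real.exp_log (pow_pos ht m), ← Real.exp_add, Real.log_pow]
  refine Real.exp_le_exp.2 ?_
  have h1 := mul_le_mul_of_nonneg_left hs hk
  have h2 := mul_le_mul_of_nonpos_right hm (Real.log_nonpos ht.le ht1)
  linarith

/-- the frame `u^k` and the section `s` -/
theorem Eps.rep [Countable A.ι] {e : A.ι → M → FI n → ℂ} {u s : A.ι → M → ℂ}
    (E : Eps L T π e u) {k : ℕ} {L1 : LB A}
    (hL : ∀ i j, ∀ x ∈ (A.e i).source ∩ (A.e j).source, L1.g i j x = L.g i j x ^ (k + 1))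
    (hs : IsHS L1 univ s) (hx : x ∈ T) (hi : x ∈ (A.e i).source) :
    s i x • (Sbi ℂ n *ᵥ e i x) =
      (qt s (fun i x => u i x ^ (k + 1)) x * u i x ^ k) • tau A i π x := by
  rw [(E.frm.pow (k + 1) hL).qt_eq (fun i j x _ hij => hs.tr i j x hij (mem_univ x)) hx hi, tau,
    E.eq i x hx hi, Matrix.mulVec_smul, smul_smul]
  congr 1
  have := E.frm.ne i x hx hi
  field_simp
  ring

theorem Eps.qt_hol [Countable A.ι] {e : A.ι → M → FI n → ℂ} {u s : A.ι → M → ℂ}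
    (E : Eps L T π e u) {k : ℕ} {L1 : LB A}
    (hL : ∀ i j, ∀ x ∈ (A.e i).source ∩ (A.e j).source, L1.g i j x = L.g i j x ^ k)
    (hs : IsHS L1 univ s) (i : A.ι) : HolAt A i T (qt s fun i x => u i x ^ k) :=
  (E.frm.pow k hL).qt_hol (fun i => (hs.hol i).mono (subset_univ T))
    (fun i j x _ hij => hs.tr i j x hij (mem_univ x)) i

theorem Sbm.hol_comp (H : Sbm A T π) {a : Cn p → ℂ} (ha : Differentiable ℂ a) (i : A.ι) :
    HolAt A i T fun x => a (π x) := ha.comp_differentiableOn (H.hol i)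

theorem Sbm.contOn_dp (H : Sbm A T π) (i : A.ι) (k : Fin p) :
    ContinuousOn (fun x => dp A i π x k) (T ∩ (A.e i).source) :=
  continuousOn_pi.2 fun a _ hy => ContinuousAt.continuousWithinAt
    (cont_of_chart hy.2 (sa_hol (H.dp_hol i k a) H.opn hy.2 hy.1).continuousAt)

/-! ### homogeneous parts -/

/-- the part of degree `r` of a field -/
def prV (r : ℕ) (V : A.ι → M → FI n → ℂ) (i : A.ι) (x : M) : FI n → ℂ := prj r (V i x)

theorem prV_eq (r : ℕ) (V : A.ι → M → FI n → ℂ) (i : A.ι) (x : M) : prV r V i x = prj r (V i x) :=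
  rfl

theorem isV_prV (r : ℕ) {V : A.ι → M → FI n → ℂ} (hV : IsV N V) : IsV N (prV r V) where
  sm i S := by
    unfold prV prj
    split_ifs
    · exact hV.sm i S
    · exact contDiffOn_const
  tr i j x hx := by rw [prV_eq, prV_eq, hV.tr i j x hx, prj_smul, Gam_prj]

variable [T2Space M]

theorem Tub.sm_ext (H : Tub A T π) {W : Type*} [NormedAddCommGroup W] [NormedSpace ℝ W]
    {Φ : Cn p → W} (hΦ : ContDiff ℝ ∞ Φ) {ρ : ℝ} (hρ : ρ < 1) (h0 : ∀ t, ρ < ‖t‖ → Φ t = 0) :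
    A.Sm (T.indicator fun x => Φ (π x)) := fun i z hz => by
  have hi := (A.e i).map_target hz
  refine ContDiffAt.contDiffWithinAt ?_
  rw [← (A.e i).right_inv hz]
  by_cases hx : (A.e i).symm z ∈ T
  · refine (hΦ.contDiffAt.comp _ (((H.anAt hx hi).contDiffAt (n := ∞)).restrict_scalars
      ℝ)).congr_of_eventuallyEq ?_
    exact (ev_read (P := fun y => y ∈ T) hi (H.opn.mem_nhds hx)).mono fun w hw =>
      indicator_of_mem hw _
  · refine (contDiffAt_const (c := (0 : W))).congr_of_eventuallyEq ?_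
    refine (ev_read (P := fun y => y ∈ {y | y ∈ T ∧ ‖π y‖ ≤ ρ}ᶜ) hi
      ((H.prop ρ hρ).isClosed.isOpen_compl.mem_nhds fun h => hx h.1)).mono fun w hw => ?_
    exact indicator_apply_eq_zero.2 fun h1 => h0 _ (not_le.1 fun h2 => hw ⟨h1, h2⟩)

/-- **the function `θ` of the second step** -/
theorem Tub.exists_theta (H : Tub A T π) {ρ : ℝ} (h0 : 0 < ρ) (h1 : ρ < 1) :
    ∃ θ : M → ℝ, A.Sm θ ∧ (∀ x, 0 ≤ θ x) ∧ (∀ x, θ x ≤ 1) ∧
      ∀ i, ∀ x ∈ (A.e i).source, x ∈ T → ‖π x‖ < ρ → ∀ ξ : Fin n → ℂ,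
        0 ≤ hq (hsf A θ i x) ξ ∧ ∀ j, ‖∑ a, dp A i π x j a * ξ a‖ ^ 2 ≤ hq (hsf A θ i x) ξ := by
  let β : ContDiffBump (0 : Cn p) := ⟨ρ, (ρ + 1) / 2, h0, by linarith⟩
  refine ⟨T.indicator fun x => β (π x) * ‖π x‖ ^ 2,
    H.sm_ext (Φ := fun t => β t * ‖t‖ ^ 2) (β.contDiff.mul (contDiff_norm_sq ℝ))
      (ρ := (ρ + 1) / 2) (by linarith) fun t ht => ?_,
    indicator_nonneg fun x _ => mul_nonneg β.nonneg (sq_nonneg _),
    fun x => indicator_apply_le' (fun hx => mul_le_one₀ β.le_one (sq_nonneg _)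
      (pow_le_one₀ (norm_nonneg _) (H.lt x hx).le)) fun _ => zero_le_one, fun i x hi hx hρ ξ => ?_⟩
  · rw [β.zero_of_le_dist (by rw [dist_zero_right]; exact ht.le), zero_mul]
  · rw [H.hq_sq hx hi]
    · exact ⟨Finset.sum_nonneg fun _ _ => sq_nonneg _, fun j => Finset.single_le_sum
        (f := fun k => ‖∑ a, dp A i π x k a * ξ a‖ ^ 2) (fun _ _ => sq_nonneg _)
        (Finset.mem_univ j)⟩
    · filter_upwards [(H.isOpen_lt ρ).mem_nhds ⟨hx, hρ⟩] with y hy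
      rw [indicator_of_mem hy.1, β.one_of_mem_closedBall (mem_closedBall_zero_iff.2 hy.2.le),
        one_mul]

variable [Countable A.ι] [MeasurableSpace M] [BorelSpace M]

theorem norm_rr_prV (h : HM ((KB A)⁻¹ * N)) (vol : HM (KB A)⁻¹) (K : Kah A) (r : ℕ)
    (V : A.ι → M → FI n → ℂ) (x : M) : ‖rr h vol K (prV r V) x‖ ≤ ‖rr h vol K V x‖ := by
  have hi := ix_mem (A := A) x
  refine (pow_le_pow_iff_left₀ (norm_nonneg _) (norm_nonneg _) two_ne_zero).1 ?_
  rw [rr, rr, norm_tV h vol K hi, norm_tV h vol K hi, prV_eq]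
  refine mul_le_mul_of_nonneg_left (mul_le_mul_of_nonneg_left ?_ (h.pos _ x hi).le)
    (inv_nonneg.2 (vol.pos _ x hi).le)
  have h1 := congrArg Complex.re (pair_split (p := r) (K.g (ix A x) x)ᵀ (V (ix A x) x))
  have h2 := gq_nonneg K hi (V (ix A x) x - prj r (V (ix A x) x))
  rw [Complex.add_re] at h1
  unfold gq at *
  linarith

theorem memLp_prV (h : HM ((KB A)⁻¹ * N)) (vol : HM (KB A)⁻¹) (K : Kah A) (r : ℕ)
    {V : A.ι → M → FI n → ℂ} (hV : IsV N V) (hm : MemLp (rr h vol K V) 2 (vm vol)) :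
    MemLp (rr h vol K (prV r V)) 2 (vm vol) :=
  hm.of_le (aesm_rr h vol K (isV_prV r hV) _) (Eventually.of_forall (norm_rr_prV h vol K r V))

/-- **the datum of the first step** -/
theorem Tub.exists_v1 (H : Tub A T π) {r : ℕ} (hr : p + r = n) (F : Frm ((KB A)⁻¹ * N) T σ)
    (h : HM ((KB A)⁻¹ * N)) (vol : HM (KB A)⁻¹) (K : Kah A) {a : Cn p → ℂ}
    (ha : Differentiable ℂ a) {r₁ r₀ : ℝ} (h0 : 0 < r₁) (h1 : r₁ < r₀) (h2 : r₀ < 1) :
    ∃ v : MV N, Cs v.1 ∧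
      (∀ i, ∀ x ∈ {x | x ∈ T ∧ ‖π x‖ < r₁}, x ∈ (A.e i).source → ∀ k, dbV v.1 i k x = 0) ∧
      (∀ i, ∀ x ∈ T, ‖π x‖ < r₁ → x ∈ (A.e i).source →
        prj r (v.1 i x) = (a (π x) * σ i x) • tau A i π x) ∧
      ∀ u : M → ℝ, IntegrableOn u {x | x ∈ T ∧ ‖π x‖ ≤ r₀} (vm vol) →
        Integrable (fun x => u x * (gl vol (inG K h v.1 v.1) x).re) (vm vol) := by
  let β : ContDiffBump (0 : Cn p) := ⟨r₁, r₀, h0, h1⟩
  have hb : Tst A T (fun x => a (π x) * (β (π x) : ℂ)) {x | x ∈ T ∧ ‖π x‖ ≤ r₀} :=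
    ⟨(smT_hol H.opn (H.hol_comp ha)).mul (H.smT_comp (Φ := fun t => (β t : ℂ)) fun _ _ =>
      (Complex.ofRealCLM.contDiff.comp β.contDiff).contDiffAt), H.prop r₀ h2, fun _ hx => hx.1,
      fun x hx hxT => by
        rw [β.zero_of_le_dist (by
          rw [dist_zero_right]; exact le_of_not_ge fun h => hx ⟨hxT, h⟩), Complex.ofReal_zero,
          mul_zero]⟩
  have e : ∀ x, ‖π x‖ < r₁ → a (π x) * (β (π x) : ℂ) = a (π x) := fun x hx => by
    rw [β.one_of_mem_closedBall (mem_closedBall_zero_iff.2 hx.le), Complex.ofReal_one, mul_one]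
  refine ⟨fldM H.toSbm F hb, hb.cs, fun i x hx hi k => ?_, fun i x hx hρ hi => ?_, fun u hu => ?_⟩
  · exact dbV_fld H.toSbm F (H.isOpen_lt r₁) (fun _ h => h.1)
      (((H.hol_comp ha i).mono fun _ h => h.1).congr fun y _ hy => (e y hy.2).symm) hx hi k
  · rw [fldM_val, (dg_fld hr).prj_eq, fld_eq hx hi, e x hρ]
  · have h3 := isV (fldM H.toSbm F hb)
    refine (hu.mul_continuousOn (Complex.continuous_re.comp (sm_continuous
      (gl_sm (vol := vol) (inG_isD (K := K) h h3 h3)))).continuousOn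
      hb.cpt).integrable_of_forall_notMem_eq_zero fun x hx => ?_
    rw [Function.comp_apply, fldM_val, gl_pair_off h vol K (hb.off x hx), Complex.zero_re,
      mul_zero]

/-- **`S - φ` is very negative on a set of positive measure** -/
theorem Tub.posE (H : Tub A T π) (hp : 1 ≤ p) (vol : HM (KB A)⁻¹) {x₀ : M} (hx : x₀ ∈ T)
    (hπ : π x₀ = 0) {C : Set M} (hC : C ∈ 𝓝 x₀) {φ S : M → ℝ} {k c C' r₀ : ℝ} (hk : 0 ≤ k)
    (hkc : ((2 * (p + 1) : ℕ) : ℝ) ≤ k * c) (h0 : 0 < r₀)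
    (hS : ∀ᵐ x ∂(vm vol), x ∈ T → π x ≠ 0 → ‖π x‖ ≤ r₀ → S x ≤ c * Real.log ‖π x‖ + C')
    (hint : IntegrableOn (fun x => Real.exp (-(k * φ x))) {x | x ∈ T ∧ ‖π x‖ ≤ r₀} (vm vol))
    (B : ℝ) : vm vol (C ∩ {x | S x - φ x < B}) ≠ 0 := by
  intro hE
  obtain ⟨O, hO, hOo, hOx⟩ := _root_.mem_nhds_iff.1 (inter_mem hC
    ((H.isOpen_lt r₀).mem_nhds ⟨hx, by rwa [hπ, norm_zero]⟩))
  obtain ⟨W, hW, C₁, hC₁, hle⟩ := H.geG_of vol hx O (hOo.mem_nhds hOx)
  rw [hπ] at hW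
  refine one_ne_zero (jet_base hp (G := fun _ => 1) (differentiableAt_const _) hW
    (B := C₁ * (ENNReal.ofReal (Real.exp (k * C') * Real.exp (-(k * B))) *
      ∫⁻ x in {x | x ∈ T ∧ ‖π x‖ ≤ r₀}, ENNReal.ofReal (Real.exp (-(k * φ x))) ∂(vm vol)))
    (ENNReal.mul_lt_top hC₁ (ENNReal.mul_lt_top ENNReal.ofReal_lt_top hint.lintegral_lt_top))
    fun η hη => ?_).1
  refine (hle _).trans (mul_le_mul_right ?_ _)
  rw [← lintegral_const_mul' _ _ ENNReal.ofReal_ne_top]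
  refine le_trans (lintegral_mono_ae ?_)
    (lintegral_mono_set fun x hx => ⟨(hO hx).2.1, (hO hx).2.2.le⟩)
  filter_upwards [ae_restrict_mem hOo.measurableSet, ae_restrict_of_ae hS,
    ae_restrict_of_ae (measure_eq_zero_iff_ae_notMem.1 hE), ae_restrict_of_ae
      (measure_eq_zero_iff_ae_notMem.1 (H.fib_null hp vol (c := 0) (by simp)))] with x a1 a2 a3 a4
  obtain ⟨b1, b2, b3⟩ := hO a1
  have b4 : π x ≠ 0 := fun h => a4 ⟨b2, h⟩
  have b5 := exp_le (norm_pos_iff.2 b4) (H.lt x b2).le hk hkc (a2 b2 b4 b3.le)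
  have b6 : B ≤ S x - φ x := not_lt.1 fun h => a3 ⟨b1, h⟩
  have b7 : 1 ≤ Real.exp (k * S x) * (Real.exp (-(k * B)) * Real.exp (-(k * φ x))) := by
    rw [← Real.exp_add, ← Real.exp_add]
    refine Real.one_le_exp ?_
    have := mul_le_mul_of_nonneg_left b6 hk
    linarith
  rw [← ENNReal.ofReal_mul (by positivity), WithLp.toLp_ofLp, norm_one, one_pow, one_mul]
  refine ENNReal.ofReal_le_ofReal ?_
  rw [inv_le_iff_one_le_mul₀ (by positivity)]
  refine b7.trans ((mul_le_mul_of_nonneg_right b5 (by positivity)).trans ?_)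
  have b8 : ‖π x‖ ^ (2 * (p + 1)) ≤ (‖π x‖ ^ 2 + η) ^ (p + 1) := by
    rw [pow_mul]
    exact pow_le_pow_left₀ (sq_nonneg _) (le_add_of_nonneg_right hη.le) _
  refine le_trans (le_of_eq ?_) (mul_le_mul_of_nonneg_left b8 (by positivity))
  ring

end

end Crest.Agent.X261.Jet.Tb
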