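import Crest.Agent.X261.Jet.Pre
import Crest.Agent.X261.Jet.TbF
import Crest.Agent.X261.Jet.TbG
import Crest.Agent.X261.Jet.TbH
import Crest.Agent.X261.Hs.J
import Crest.Agent.X261.Hc.PoinD
import Crest.Agent.X261.Sk.Defs

/-!
# Row 261, package JET (helper6), file `Main`: `Top.JetStmt`
-/

set_option autoImplicit false
set_option linter.unusedSectionVars false
set_option linter.style.haveILetI false

open Set Filter Topology Complex Matrix MeasureTheory Metric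
open scoped ContDiff Matrix ComplexConjugate ComplexOrder ENNReal

namespace Crest.Agent.X261.Jet.Mn

open Crest.Agent.R275 Crest.Agent.R275.Geo Crest.Agent.R275.Core144
open Crest.Agent.R275.OmT75 (dl)
open Crest.Agent.R273.Defs_333 Crest.Agent.R273.HM_333 Crest.Agent.R273.Kah_333
open Crest.Agent.R273.Vm_333 Crest.Agent.R273.Fock_243 Crest.Agent.R273.UCov_914
open Crest.Agent.R273.BKNa_37 (IsV)
open Crest.Agent.R273.Berezin_505 (Sbi)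
open Crest.Agent.R273.RMan4_798 (pullKah)
open Crest.Agent.T223.Hm (hq Cut)
open Crest.Agent.X261.Hs Crest.Agent.X261.Jet.Fr Crest.Agent.X261.Jet.Tb Crest.Agent.X261.Jet.Pre

noncomputable section

/-- the frame of the pulled back line bundle over a tube -/
def EpsStmt : Prop :=
  ∀ {n p : ℕ} {X : Type} [TopologicalSpace X] {B : Atl n X} {G : Type} [Group G] {D : MonD B G}
    (F : Top.Fol D p) {x : D.cov G} (_ : x ∈ F.T.M0),
    ∃ u, Eps (D.pullLB G F.L) (F.T.T x) (F.T.π x) (Top.upF D F.e) u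

/-- fields that are killed by the `dπ_k` on a set of positive measure -/
def ParStmt : Prop :=
  ∀ {n p : ℕ} {M : Type} [TopologicalSpace M] {A : Atl n M} {T : Set M} {π : M → Cn p}
    {L N : LB A} {e : A.ι → M → FI n → ℂ} {u : A.ι → M → ℂ} [Countable A.ι] [T2Space M]
    [MeasurableSpace M] [BorelSpace M] [PreconnectedSpace M] (_ : Sbm A T π) (_ : Eps L T π e u)
    {r : ℕ} (_ : p + r = n) {L1 : LB A} (_ : ∀ i j, ∀ x ∈ (A.e i).source ∩ (A.e j).source,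
      L1.g i j x = ((KB A)⁻¹ * N).g i j x * L.g i j x)
    {V : A.ι → M → FI n → ℂ} (_ : IsV N V) (_ : ∀ i S, HolAt A i univ fun x => V i x S)
    (vol : HM (KB A)⁻¹) {E : Set M} (_ : vm vol E ≠ 0) {i : A.ι} (_ : E ⊆ T ∩ (A.e i).source)
    (_ : ∀ k, ∀ᵐ x ∂(vm vol), x ∈ E → iW (dp A i π x k) *ᵥ V i x = 0),
    ∃ s, IsHS L1 univ s ∧ ∀ i, ∀ x ∈ (A.e i).source,
      prj r (V i x) = s i x • (Sbi ℂ n *ᵥ e i x)

variable {n p : ℕ} {M : Type} [TopologicalSpace M] {A : Atl n M} {L : LB A} {T : Set M}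
  {π : M → Cn p} {e : A.ι → M → FI n → ℂ} {u : A.ι → M → ℂ}

theorem locCpt (A : Atl n M) {x : M} {O : Set M} (hO : O ∈ 𝓝 x) :
    ∃ C ∈ 𝓝 x, IsCompact C ∧ C ⊆ O := by
  obtain ⟨i, hi⟩ := A.cover x
  have h1 : (A.e i).target ∩ (A.e i).symm ⁻¹' O ∈ 𝓝 (A.e i x) :=
    inter_mem ((A.e i).open_target.mem_nhds ((A.e i).map_source hi)) (ev_read hi hO)
  obtain ⟨C, h2, h3, h4⟩ := local_compact_nhds h1
  refine ⟨(A.e i).symm '' C, ?_,
    h4.image_of_continuousOn ((A.e i).continuousOn_symm.mono fun z hz => (h3 hz).1), ?_⟩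
  · have := (A.e i).symm.image_mem_nhds ((A.e i).map_source hi) h2
    rwa [(A.e i).left_inv hi] at this
  · rintro _ ⟨z, hz, rfl⟩
    exact (h3 hz).2

variable [Countable A.ι] [T2Space M] [MeasurableSpace M] [BorelSpace M]

/-- one section with a prescribed `1`-jet along the fibre -/
theorem one (par1 : ParStmt) [PreconnectedSpace M] (P : Part A) {K : Kah A} (hcut : Cut K) (H : Tub A T π)
    (hp : 1 ≤ p) {r : ℕ} (hr : p + r = n) (E0 : Eps L T π e u) {h : HM L} {vol : HM (KB A)⁻¹}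
    {φ S : M → ℝ} {f lf g lg : ℕ → ℕ → M → ℝ} {eps : ℕ → ℝ} {cr : ℕ → M → ℝ} {C0 : ℝ}
    (F : Ap K h vol φ f lf eps cr C0) (G : Ap K h vol S g lg eps cr C0)
    (hle : ∀ᵐ x ∂(vm vol), S x ≤ φ x) {r₁ r₀ r₂ : ℝ} (h1 : 0 < r₁) (h10 : r₁ < r₀) (h0 : r₀ < 1)
    (h2 : 0 < r₂) {b : ℝ}
    (off : ∀ ν, ∀ᶠ μ in atTop, ∀ x ∉ {x | x ∈ T ∧ ‖π x‖ < r₁}, f ν μ x - b ≤ g ν μ x) {k : ℕ}
    (hint : IntegrableOn (fun x => Real.exp (-(((k : ℝ) + 1) * φ x))) {x | x ∈ T ∧ ‖π x‖ ≤ r₀}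
      (vm vol)) {c C' : ℝ} (hc : 0 ≤ c) (hkc : ((2 * (p + 1) : ℕ) : ℝ) ≤ k * c)
    (hS : ∀ᵐ x ∂(vm vol), x ∈ T → π x ≠ 0 → ‖π x‖ ≤ r₂ → S x ≤ c * Real.log ‖π x‖ + C')
    {x₀ : M} (hx : x₀ ∈ T) (hπ : π x₀ = 0) {q : A.ι} (hq : x₀ ∈ (A.e q).source) {L1 : LB A}
    (hL : ∀ i j, ∀ x ∈ (A.e i).source ∩ (A.e j).source, L1.g i j x = L.g i j x ^ (k + 1 + 1))
    {a : Cn p → ℂ} (ha : Differentiable ℂ a) :
    ∃ (V : A.ι → M → FI n → ℂ) (s : A.ι → M → ℂ), IsV (KB A * L ^ (k + 1)) V ∧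
      MemLp (rr (hP h (k + 1)) vol K V) 2 (vm vol) ∧ IsHS L1 univ s ∧
      (∀ i, ∀ y ∈ (A.e i).source, prj r (V i y) = s i y • (Sbi ℂ n *ᵥ e i y)) ∧
      qt s (fun i x => u i x ^ (k + 1 + 1)) x₀ = a (π x₀) ∧
      ∀ l, dl A q l (fun y => qt s (fun i x => u i x ^ (k + 1 + 1)) y - a (π y)) x₀ = 0 := by
  have hN : ∀ i j x, ((KB A)⁻¹ * (KB A * L ^ (k + 1))).g i j x = L.g i j x ^ (k + 1) :=
    fun i j x => by rw [inv_mul_cancel_left, LB_pow_g]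
  have Fσ := E0.frm.pow (k + 1) fun i j x _ => hN i j x
  have hk : (0 : ℝ) ≤ k := Nat.cast_nonneg k
  have hcur : ∀ i, ∀ x ∈ (A.e i).source, ∀ ξ,
      T223.Hm.hq (cur (hP h (k + 1)) i x) ξ = ((k : ℝ) + 1) * T223.Hm.hq (cur h i x) ξ :=
    fun i x hx ξ => by rw [cur_hP h _ i hx, Nat.cast_succ]
  obtain ⟨v, v1, v2, v3, v4⟩ := H.exists_v1 hr Fσ (hP h (k + 1)) vol K ha h1 h10 h0
  obtain ⟨D, hD, Λ, Y, a1, a2, a3, a4⟩ :=
    step1 P hcut F G hk (hP h (k + 1)) hcur hle v v1 _ v2 b off (v4 _ hint)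
  obtain ⟨θ, t1, t2, t3, t4⟩ := H.exists_theta h1 (h10.trans h0)
  obtain ⟨C, c1, c2, c3⟩ := locCpt A (inter_mem ((H.isOpen_lt r₁).mem_nhds
    ⟨hx, by rwa [hπ, norm_zero]⟩) ((A.e q).open_source.mem_nhds hq))
  obtain ⟨V, b1, b2, b3, b4, b5⟩ := St2.st2 P hcut F.toWS G.toWS (hP h (k + 1)) hk hcur F.um G.um
    (fun ν => by
      filter_upwards [F.ul ν, G.ul ν] with x p1 p2
      simpa only [add_sub_add_right_eq_sub] using p2.sub p1) F.le_f _ b off t1 t2 t3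
    (fun i x hi hx ξ => (t4 i x hi hx.1 hx.2 ξ).1) c2 (fun x hx => (c3 hx).2)
    (b := fun j x => dp A q π x j)
    (fun j => (H.contOn_dp q j).mono fun x hx => ⟨(c3 hx).1.1, (c3 hx).2⟩)
    (fun j x hx ξ => (t4 q x (c3 hx).2 (c3 hx).1.1 (c3 hx).1.2 ξ).2 j) Λ a1 hD a4
  obtain ⟨s, s1, s2⟩ := par1 (L1 := L1) H.toSbm E0 hr
    (fun i j x hx => by rw [hL i j x hx, hN, pow_succ]) b1 b2 vol
    (H.posE hp vol hx hπ c1 (k := (k : ℝ) + 1) (by linarith) (by linarith) (lt_min h2 h1)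
      (hS.mono fun x p1 p2 p3 p4 => p1 p2 p3 (p4.trans (min_le_left _ _)))
      (hint.mono_set fun x hx => ⟨hx.1, hx.2.trans ((min_le_right _ _).trans h10.le)⟩) (-(b + 3)))
    (fun x hx => ⟨(c3 hx.1).1.1, (c3 hx.1).2⟩) fun j => (b5 j).mono fun x p1 p2 => p1 p2.1 p2.2
  obtain ⟨j1, j2⟩ := jet_end (hP h (k + 1)) vol K H hp hr Fσ b1 (R273.DMetB_733.isV v)
    (lt_min h2 h1) (f := qt s fun i x => u i x ^ (k + 1 + 1)) (a := fun x => a (π x))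
    (fun i => ((E0.qt_hol hL s1 i).sub (H.hol_comp ha i)).mono fun x hx => hx.1)
    (fun i x hx _ hi => (s2 i x hi).trans (E0.rep hL s1 hx hi))
    (fun i x hx p1 hi => v3 i x hx (p1.trans_le (min_le_right _ _)) hi)
    (om := fun x => Real.exp (k * S x)) (fun x => (Real.exp_pos _).le) (C := Real.exp (k * C')) hD
    (hS.mono fun x p1 p2 p3 p4 => exp_le (norm_pos_iff.2 p3) (H.lt x p2).le hk hkc
      (p1 p2 p3 (p4.le.trans (min_le_left _ _))))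
    (fun w hw h0 => by
      rw [b4 w hw h0, a2 w hw, sub_sub_cancel_left, norm_neg]
      exact a3 w hw) hx hπ
  exact ⟨V, s, b1, b3, s1, s2, j1, j2 q hq⟩

/-- **JET** -/
theorem jetStmt_of (exists_eps : EpsStmt) (par1 : ParStmt) : Top.JetStmt := by
  intro n X _ _ _ _ A _ _ P K0 G _ D hconn p hp F h Q
  haveI : Countable G := Cov.A.countable D
  borelize (D.cov G)
  have H := tub_of_tube F.T Q.x₀_mem
  have hc := tube_conn F.T Q.x₀_mem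
  have hx := F.T.T_mem _ Q.x₀_mem
  have hπ := F.T.π_self _ Q.x₀_mem
  obtain ⟨u, E0⟩ := exists_eps F Q.x₀_mem
  obtain ⟨r, hr⟩ := Nat.exists_eq_add_of_le (H.le_dim hx)
  obtain ⟨k, hk⟩ := exists_nat_ge (((2 * (p + 1) : ℕ) : ℝ) / Q.c)
  rw [div_le_iff₀ Q.c_pos] at hk
  let vol := R273.Vol_333.volK (pullKah D G K0)
  have hk1 : (0 : ℝ) < k + 1 := by positivity
  obtain ⟨r₀, p1, p2, -, hint⟩ := int_tube H hc E0.frm (D.pullHM (F := G) h) Q.φ_psh vol hx hπ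
    Q.q_mem hk1 (Q.int _ hk1)
  have hρ : r₀ / 3 ∈ Ioo (0 : ℝ) 1 := ⟨by linarith, by linarith⟩
  obtain ⟨C, hC⟩ := Q.S_pole _ hρ
  obtain ⟨r₂, C', p3, -, hS⟩ := pole_tube H hc E0.frm (D.pullHM (F := G) h) (Q.S_psh _ hρ) hx hπ
    Q.q_mem Q.c_pos hC
  obtain ⟨f, lf, g, lg, eps, cr, C0, Fa, Ga, hb, -, hle, b, off⟩ := pol_ap P K0 hp Q hρ vol
    (H.isOpen_lt (r₀ / 2)) fun x hx => ⟨hx.1, hx.2.trans_lt (by linarith)⟩
  have hL : ∀ i j, ∀ x ∈ ((D.atl G).e i).source ∩ ((D.atl G).e j).source,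
      (D.pullLB G (F.L ^ (k + 1 + 1))).g i j x = (D.pullLB G F.L).g i j x ^ (k + 1 + 1) :=
    fun i j x _ => by rw [D.pullLB_pow, LB_pow_g]
  refine Hc.jet_end F K0 (Nat.succ_pos (k + 1)) (hP (D.pullHM (F := G) h) (k + 1)) vol
    (fun i x => h.w i x ^ (k + 1)) (fun i => (T223.Hm.contOn_smAt (h.sm i)).pow _)
    (fun i x hx => pow_pos (h.pos i x hx) _) (fun _ _ _ => le_rfl) H.toSbm
    (E0.frm.pow (k + 1 + 1) hL) hx Q.q_mem (r := r) fun t => ?_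
  refine one par1 (D.pullPart G P) (Cov.C.cut_pull D K0 P) H hp hr.symm E0 Fa Ga hle (half_pos p1)
    (half_lt_self p1) p2 p3 off hint (C' := C') Q.c_pos.le hk ?_ hx hπ Q.q_mem hL ?_
  · filter_upwards [hb] with x q1 q2 q3 q4
    have h1 := hS x q2 q3 q4
    have h2 := EReal.toReal_le_toReal h1 q1.2 (EReal.coe_ne_top _)
    rwa [EReal.toReal_coe] at h2
  · refine Fin.cases (differentiable_const 1) (fun l => ?_) t
    exact (EuclideanSpace.proj l : Cn p →L[ℂ] ℂ).differentiable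

theorem jetK_of (h1 : EpsStmt) (h2 : ParStmt) : Sk.JetK := Sk.jetK_of (jetStmt_of h1 h2)

end

end Crest.Agent.X261.Jet.Mn
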