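import Crest.Agent.X261.Jet.St2
import Crest.Agent.X261.Jet.TbC
import Crest.Agent.R273.FS_333

/-!
# Row 261, package JET (helper6), file `Pre`: powers of a metric, the function `|π|²`, and the set
where the pole is seen
-/

set_option autoImplicit false
set_option linter.unusedSectionVars false
set_option linter.style.haveILetI false

open Set Filter Topology Complex Matrix MeasureTheory Metric
open scoped ContDiff Matrix ComplexConjugate ComplexOrder ENNReal

namespace Crest.Agent.X261.Jet.Pre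

open Crest.Agent.R275 Crest.Agent.R275.Geo Crest.Agent.R275.Core144
open Crest.Agent.R273.Defs_333 Crest.Agent.R273.HM_333 Crest.Agent.R273.Kah_333
open Crest.Agent.R273.Vm_333 Crest.Agent.R273.Fock_243
open Crest.Agent.T223.Hm (hq)
open Crest.Agent.X277.AN (qf qf_csmul hsf_congr)
open Crest.Agent.X261.Hc (hq_eq_qf)
open Crest.Agent.X261.Jet.Tb
open Crest.Agent.X261.Top (eN)

noncomputable section

variable {n p : ℕ} {M : Type} [TopologicalSpace M] {A : Atl n M} {L : LB A}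

/-- the metric `h ^ k` -/
def hP (h : HM L) (k : ℕ) : HM ((KB A)⁻¹ * (KB A * L ^ k)) where
  w i x := h.w i x ^ k
  pos i x hx := pow_pos (h.pos i x hx) _
  sm i := (h.sm i).pow _
  tr i j x hx := by
    rw [inv_mul_cancel_left, LB_pow_g, h.tr i j x hx, norm_pow, mul_pow]
    ring

theorem cur_hP (h : HM L) (k : ℕ) (i : A.ι) {x : M} (hx : x ∈ (A.e i).source) (ξ : Fin n → ℂ) :
    hq (cur (hP h k) i x) ξ = k * hq (cur h i x) ξ := by
  have e : cur (hP h k) i x = cur (pow h k) i x := by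
    unfold cur HM.wt
    simp only [pow_w]
    rfl
  rw [e, cur_pow h k i hx, hq_eq_qf, hq_eq_qf, ← qf_csmul, Complex.ofReal_natCast]

variable {T : Set M} {π : M → Cn p}

theorem sm_ind [T2Space M] (H : Tub A T π) {W : Type*} [NormedAddCommGroup W] [NormedSpace ℝ W]
    {Φ : Cn p → W} (hΦ : ContDiff ℝ ∞ Φ) {r : ℝ} (hr : r < 1) (h0 : ∀ t, r < ‖t‖ → Φ t = 0) :
    A.Sm (T.indicator fun x => Φ (π x)) := by
  intro i z hz
  have hi := (A.e i).map_target hz
  rw [← (A.e i).right_inv hz]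
  refine ContDiffAt.contDiffWithinAt ?_
  by_cases hx : (A.e i).symm z ∈ T
  · refine (hΦ.contDiffAt.comp _
      (((H.anAt hx hi).contDiffAt (n := ∞)).restrict_scalars ℝ)).congr_of_eventuallyEq ?_
    filter_upwards [ev_read hi (H.opn.mem_nhds hx)] with w hw
    exact indicator_of_mem hw _
  · refine (contDiffAt_const (c := (0 : W))).congr_of_eventuallyEq ?_
    filter_upwards [ev_read hi ((H.prop r hr).isClosed.isOpen_compl.mem_nhds fun h => hx h.1)]
      with w hw
    by_cases h : (A.e i).symm w ∈ T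
    · rw [indicator_of_mem h]
      exact h0 _ (not_le.1 fun h' => hw ⟨h, h'⟩)
    · exact indicator_of_notMem h _

theorem hq_nsq (H : Sbm A T π) {θ : M → ℝ} {i : A.ι} {x : M} (hx : x ∈ T)
    (hi : x ∈ (A.e i).source) (e : θ =ᶠ[𝓝 x] fun y => ‖π y‖ ^ 2) (ξ : Fin n → ℂ) :
    hq (hsf A θ i x) ξ = ∑ k, ‖∑ a, dp A i π x k a * ξ a‖ ^ 2 := by
  rw [hsf_congr hi e, hq_eq_qf]
  have e1 : (fun z => ‖π ((A.e i).symm z)‖ ^ 2) =
      R273.FS_333.sq fun z k => π ((A.e i).symm z) k :=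
    funext fun z => EuclideanSpace.norm_sq_eq _
  have e2 : ∀ a b, hsf A (fun y => ‖π y‖ ^ 2) i x a b =
      ∑ k, dp A i π x k a * conj (dp A i π x k b) := fun a b => by
    refine Eq.trans (congrArg (fun u => R273.Hess_333.hess u (A.e i x) a b) e1) ?_
    refine (R273.FS_333.hess_sq (isOpen_ti H.opn) (fun k => H.holAt i k) (mem_ti hx hi) a b).trans
      (Finset.sum_congr rfl fun k _ => ?_)
    have h1 := ((H.holAt i k).diffAt H.opn hi hx)
    rw [← OmT75.dj_holo h1, ← OmT75.dj_holo h1]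
    rfl
  unfold qf
  simp only [e2, ← Complex.normSq_eq_norm_sq]
  rw [← Complex.ofReal_re (∑ _, _)]
  congr 1
  simp only [Complex.ofReal_sum, ← Complex.mul_conj, map_sum, map_mul, Finset.sum_mul,
    Finset.mul_sum]
  rw [Finset.sum_comm]
  refine (Finset.sum_congr rfl fun b _ => Finset.sum_comm).trans ?_
  rw [Finset.sum_comm]
  refine Finset.sum_congr rfl fun k _ => Finset.sum_congr rfl fun a _ =>
    Finset.sum_congr rfl fun b _ => ?_
  ring

/-- the function `|π|²`, cut off -/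
theorem exists_theta [T2Space M] (H : Tub A T π) {r : ℝ} (h0 : 0 < r) (hr : r < 1) :
    ∃ θ : M → ℝ, A.Sm θ ∧ (∀ x, 0 ≤ θ x) ∧ (∀ x, θ x ≤ 1) ∧ ∀ i, ∀ x ∈ (A.e i).source, x ∈ T →
      ‖π x‖ < r → ∀ ξ, hq (hsf A θ i x) ξ = ∑ k, ‖∑ a, dp A i π x k a * ξ a‖ ^ 2 := by
  let b : ContDiffBump (0 : Cn p) := ⟨r, (r + 1) / 2, h0, by linarith⟩
  refine ⟨T.indicator fun x => b (π x) * ‖π x‖ ^ 2,
    sm_ind H (Φ := fun t => b t * ‖t‖ ^ 2) (b.contDiff.mul (contDiff_norm_sq ℝ))
      (r := (r + 1) / 2) (by linarith) fun t ht => ?_,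
    fun x => indicator_nonneg (fun y _ => mul_nonneg b.nonneg (sq_nonneg _)) x, fun x => ?_,
    fun i x hi hx h1 ξ => hq_nsq H.toSbm hx hi ?_ ξ⟩
  · rw [b.zero_of_le_dist (by rw [dist_zero_right]; exact ht.le), zero_mul]
  · by_cases hx : x ∈ T
    · rw [indicator_of_mem hx]
      exact mul_le_one₀ b.le_one (sq_nonneg _) (pow_le_one₀ (norm_nonneg _) (H.lt x hx).le)
    · rw [indicator_of_notMem hx]
      exact zero_le_one
  · filter_upwards [H.opn.mem_nhds hx, (H.contAt hx).norm.eventually (gt_mem_nhds h1)] with y h2 h3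
    rw [indicator_of_mem h2, b.one_of_mem_closedBall (mem_closedBall_zero_iff.2 h3.le), one_mul]

/-! ### the pole is seen on a set of positive measure -/

theorem not_pole {E : Type*} [NormedAddCommGroup E] [NormedSpace ℝ E] [FiniteDimensional ℝ E]
    [Nontrivial E] [MeasurableSpace E] [BorelSpace E] (μ : Measure E) [μ.IsAddHaarMeasure] {z0 : E}
    {u : E → EReal} (hint : ∀ N : ℝ, 0 < N → ∃ V ∈ 𝓝 z0, ∫⁻ z in V, eN N (u z) ∂μ < ⊤) {c C : ℝ}
    (hc : 0 < c) {W : Set E} (hW : W ∈ 𝓝 z0)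
    (h : ∀ᵐ z ∂μ, z ∈ W → z ≠ z0 → u z ≤ ((c * Real.log ‖z - z0‖ + C : ℝ) : EReal)) : False := by
  set d := Module.finrank ℝ E with hd
  have hN : 0 < ((d + 1 : ℕ) : ℝ) / c := by positivity
  obtain ⟨V, hV, hI⟩ := hint _ hN
  set N := ((d + 1 : ℕ) : ℝ) / c with hN'
  obtain ⟨ε, hε, hB⟩ := Metric.mem_nhds_iff.1 (inter_mem hV hW)
  have key : ∀ r, 0 < r → r ≤ ε → ENNReal.ofReal (Real.exp (-(N * C)) / r) * μ (ball 0 1) ≤
      ∫⁻ z in V, eN N (u z) ∂μ := fun r hr hrε => by
    have h1 : ∫⁻ _ in ball z0 r, ENNReal.ofReal (Real.exp (-(N * (c * Real.log r + C)))) ∂μ ≤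
        ∫⁻ z in ball z0 r, eN N (u z) ∂μ := by
      refine lintegral_mono_ae ?_
      filter_upwards [ae_restrict_of_ae h, ae_restrict_mem measurableSet_ball,
        ae_restrict_of_ae (compl_mem_ae_iff.2 (measure_singleton z0))] with z a b e
      have h2 : u z ≤ ((c * Real.log r + C : ℝ) : EReal) := by
        refine (a (hB (ball_subset_ball hrε b)).2 e).trans (EReal.coe_le_coe_iff.2 ?_)
        have := Real.log_le_log (norm_pos_iff.2 (sub_ne_zero.2 e)) (mem_ball_iff_norm.1 b).le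
        nlinarith
      rw [eN, ← EReal.exp_coe, EReal.exp_le_exp_iff, EReal.coe_neg, EReal.neg_le_neg_iff,
        EReal.coe_mul]
      exact mul_le_mul_of_nonneg_left h2 (EReal.coe_nonneg.2 hN.le)
    refine le_trans (le_of_eq ?_) (h1.trans (lintegral_mono_set fun z hz =>
      (hB (ball_subset_ball hrε hz)).1))
    rw [setLIntegral_const, Measure.addHaar_ball μ z0 hr.le, ← mul_assoc,
      ← ENNReal.ofReal_mul (Real.exp_pos _).le]
    congr 2
    have e1 : -(N * (c * Real.log r + C)) = -(N * C) - (d + 1 : ℕ) * Real.log r := by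
      rw [hN']
      field_simp
      ring
    rw [e1, Real.exp_sub, ← Real.log_pow, Real.exp_log (pow_pos hr _), pow_succ]
    field_simp
    rfl
  have h3 : Tendsto (fun r : ℝ => ENNReal.ofReal (Real.exp (-(N * C)) / r) * μ (ball 0 1))
      (𝓝[>] 0) (𝓝 (⊤ * μ (ball 0 1))) :=
    ENNReal.Tendsto.mul_const (ENNReal.tendsto_ofReal_atTop.comp
      (tendsto_inv_nhdsGT_zero.const_mul_atTop (Real.exp_pos _))) (Or.inl ENNReal.top_ne_zero)
  rw [ENNReal.top_mul (measure_ball_pos μ 0 one_pos).ne'] at h3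
  refine hI.not_ge (le_of_tendsto h3 ?_)
  filter_upwards [Ioc_mem_nhdsGT hε] with r hr
  exact key r hr.1 hr.2

theorem ae_chart [Countable A.ι] [MeasurableSpace M] [BorelSpace M] (vol : HM (KB A)⁻¹)
    [MeasurableSpace (Cn n)] [BorelSpace (Cn n)] (μ : Measure (Cn n)) [μ.IsAddHaarMeasure]
    {P : M → Prop} (h : ∀ᵐ x ∂(vm vol), P x) (i : A.ι) :
    ∀ᵐ z ∂μ, z ∈ (A.e i).target → P ((A.e i).symm z) := by
  have h1 := (ae_restrict_iff' (T223.Hm.isOpen_Tz i).measurableSet).1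
    (T223.Hm.flat_of_ae vol (i := i) (ae_restrict_of_ae h))
  let e := EuclideanSpace.equiv (Fin n) ℂ
  haveI := e.isAddHaarMeasure_map μ
  exact ae_of_ae_map e.continuous.measurable.aemeasurable
    ((Measure.absolutelyContinuous_isAddHaarMeasure (μ.map e) volume).ae_le h1)

end

end Crest.Agent.X261.Jet.Pre
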