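import Crest.Agent.X261.Jet.HL
import Crest.Agent.X261.Hc.DemB
import Crest.Agent.X277.AN.LSE
import Crest.Agent.T223.Rich1_37

/-!
# Row 261, package JET (helper6), file `St2`: the weight `N f + max (g + a, f + θ)` and the
second step of the construction of sections
-/

set_option autoImplicit false
set_option linter.unusedSectionVars false
set_option linter.style.haveILetI false

open Set Filter Topology Complex Matrix MeasureTheory
open scoped ContDiff Matrix ComplexConjugate ComplexOrder ENNReal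

namespace Crest.Agent.X261.Jet.St2

open Crest.Agent.R275 Crest.Agent.R275.Geo Crest.Agent.R275.Core144
open Crest.Agent.R273.Defs_333 Crest.Agent.R273.HM_333 Crest.Agent.R273.Kah_333
open Crest.Agent.R273.Vm_333 Crest.Agent.R273.Fock_243
open Crest.Agent.R273.LamN127 Crest.Agent.R273.DVec_733 Crest.Agent.R273.DMetB_733
open Crest.Agent.R273.BKNa_37 (IsV)
open Crest.Agent.T223.Hm (gl Cs Cut hq)
open Crest.Agent.T223.Rich (SM ss SM_hasDerivAt SM_contDiff SM_mono SM_nonneg ss_contDiff ss_nonneg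
  ss_le_one ss_zero ss_one deriv_ss_nonneg)
open Crest.Agent.X277.AN (qf gq sm_add sm_sub sm_cmul sm_comp sm_const qh_add qh_sub qh_cmul
  qh_comp qh_add_const gq_nonneg qf_nonneg)
open Crest.Agent.X261.Hc (hq_eq_qf)
open Crest.Agent.X261.Hs Crest.Agent.X261.Jet.Fr Crest.Agent.X261.Jet.HL

noncomputable section

theorem smx_mono {a a' b b' : ℝ} (ha : a ≤ a') (hb : b ≤ b') :
    b + SM (a - b) ≤ b' + SM (a' - b') := by
  have hd : ∀ s, HasDerivAt (fun s => SM s - s) (ss s - 1) s := fun s =>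
    (SM_hasDerivAt s).sub (hasDerivAt_id s)
  have h1 : Antitone fun s => SM s - s :=
    antitone_of_deriv_nonpos (fun s => (hd s).differentiableAt) fun s => by
      rw [(hd s).deriv]; linarith [ss_le_one s]
  have h2 := h1 (show a - b' ≤ a - b by linarith)
  have h3 := SM_mono (show a - b' ≤ a' - b' by linarith)
  simp only at h2
  linarith

variable {n : ℕ} {M : Type} [TopologicalSpace M] {A : Atl n M} {N L : LB A}

/-- the argument of the regularised maximum -/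
def tt (f g θ : M → ℝ) (a : ℝ) (x : M) : ℝ := g x + a - (f x + θ x)

/-- the weight `k f + max (g + a, f + θ)` -/
def UU (k : ℝ) (f g θ : M → ℝ) (a : ℝ) (x : M) : ℝ := k * f x + (f x + θ x + SM (tt f g θ a x))

section pt

variable {f g θ : M → ℝ} (hf : A.Sm f) (hg : A.Sm g) (hθ : A.Sm θ) (k a : ℝ)
include hf hg hθ

theorem sm_tt : A.Sm (tt f g θ a) := sm_sub (sm_add hg (sm_const a)) (sm_add hf hθ)

theorem sm_UU : A.Sm (UU k f g θ a) :=
  sm_add (sm_cmul k hf) (sm_add (sm_add hf hθ) (sm_comp SM_contDiff (sm_tt hf hg hθ a)))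

theorem qf_UU {i : A.ι} {x : M} (hx : x ∈ (A.e i).source) (ξ : Fin n → ℂ) :
    qf (hsf A (UU k f g θ a) i x) ξ = (k + 1 - ss (tt f g θ a x)) * qf (hsf A f i x) ξ +
      ss (tt f g θ a x) * qf (hsf A g i x) ξ + (1 - ss (tt f g θ a x)) * qf (hsf A θ i x) ξ +
      deriv ss (tt f g θ a x) * gq A (tt f g θ a) i x ξ := by
  have h1 := qh_comp (φ := SM) (φ' := ss) (sm_tt hf hg hθ a) hx
    (Eventually.of_forall SM_hasDerivAt)
    ((ss_contDiff.differentiable (by simp)).differentiableAt.hasDerivAt) ξ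
  have h2 : qf (hsf A (tt f g θ a) i x) ξ =
      qf (hsf A g i x) ξ - (qf (hsf A f i x) ξ + qf (hsf A θ i x) ξ) := by
    rw [← qh_add hf hθ hx, ← qh_add_const hg a hx]
    exact qh_sub (sm_add hg (sm_const a)) (sm_add hf hθ) hx ξ
  have h3 := qh_add (sm_cmul k hf) (sm_add (sm_add hf hθ) (sm_comp SM_contDiff (sm_tt hf hg hθ a)))
    hx ξ
  rw [qh_add (sm_add hf hθ) (sm_comp SM_contDiff (sm_tt hf hg hθ a)) hx, qh_cmul k hf hx,
    qh_add hf hθ hx, h1, h2] at h3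
  refine Eq.trans h3 ?_
  ring

/-- the curvature of the weight -/
theorem Th_UU (K : Kah A) (h : HM L) {N' : LB A} (h' : HM N') (hk : 0 ≤ k) {i : A.ι} {x : M}
    (hx : x ∈ (A.e i).source) {ξ : Fin n → ℂ}
    (hc : hq (cur h' i x) ξ = (k + 1) * hq (cur h i x) ξ) {e l m : ℝ} (hl : 0 ≤ l) (hm : 0 ≤ m)
    (p1 : 0 ≤ Th K h f (e + l) i x ξ) (p2 : 0 ≤ Th K h g (e + m) i x ξ) :
    (1 - ss (tt f g θ a x)) * hq (hsf A θ i x) ξ ≤
      Th K h' (UU k f g θ a) ((k + 1) * e + ((k + 1) * l + m)) i x ξ := by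
  unfold Th at *
  rw [hc]
  simp only [hq_eq_qf] at *
  rw [qf_UU hf hg hθ k a hx]
  have s0 := ss_nonneg (tt f g θ a x)
  have s1 := ss_le_one (tt f g θ a x)
  have g0 := qf_nonneg (K.pos i x hx).posSemidef ξ
  have m1 := mul_nonneg (show 0 ≤ k + 1 - ss (tt f g θ a x) by linarith) p1
  have m2 := mul_nonneg s0 p2
  have m3 := mul_nonneg (deriv_ss_nonneg (tt f g θ a x)) (gq_nonneg (tt f g θ a) i x ξ)
  have m4 := mul_nonneg (mul_nonneg s0 hl) g0
  have m5 := mul_nonneg (mul_nonneg (sub_nonneg.2 s1) hm) g0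
  nlinarith

end pt

variable [Countable A.ι] [T2Space M] [MeasurableSpace M] [BorelSpace M]
  {K : Kah A} {h : HM L} {vol : HM (KB A)⁻¹} {f lf g lg : ℕ → ℕ → M → ℝ} {eps : ℕ → ℝ} {C0 : ℝ}

theorem shift (F : WS K h vol f lf eps C0) (m : ℕ → ℕ) :
    WS K h vol (fun ν μ => f ν (μ + m ν)) (fun ν μ => lf ν (μ + m ν)) eps C0 where
  sm ν _ := F.sm ν _
  anti ν x _ _ hab := F.anti ν x (Nat.add_le_add_right hab _)
  le ν x := (F.anti ν x (Nat.zero_le _)).trans (F.le ν x)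
  lm ν _ := F.lm ν _
  l0 ν _ := F.l0 ν _
  lb ν := (F.lb ν).imp fun _ hC _ => hC _
  lim ν := (F.lim ν).mono fun _ hx => hx.comp (tendsto_add_atTop_nat (m ν))
  e0 := F.e0
  elim := F.elim
  pos ν _ := F.pos ν _

theorem ws_UU (F : WS K h vol f lf eps C0) (G : WS K h vol g lg eps C0) {N' : LB A} (h' : HM N')
    {k : ℝ} (hk : 0 ≤ k)
    (hc : ∀ i, ∀ x ∈ (A.e i).source, ∀ ξ, hq (cur h' i x) ξ = (k + 1) * hq (cur h i x) ξ)
    {θ : M → ℝ} (hθ : A.Sm θ) (θ1 : ∀ x, θ x ≤ 1) (W : Set M) (a : ℝ)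
    (off : ∀ ν μ, ∀ x ∉ W, f ν μ x - a ≤ g ν μ x)
    (psh : ∀ i, ∀ x ∈ (A.e i).source, x ∈ W → ∀ ξ, 0 ≤ hq (hsf A θ i x) ξ) :
    WS K h' vol (fun ν μ => UU k (f ν μ) (g ν μ) θ (a + 2))
      (fun ν μ x => (k + 1) * lf ν μ x + lg ν μ x) (fun ν => (k + 1) * eps ν)
      (k * C0 + (C0 + 1 + SM (C0 + (a + 2) - (C0 + 1)))) where
  sm ν μ := sm_UU (F.sm ν μ) (G.sm ν μ) hθ k _
  anti ν x _ _ hab := add_le_add (mul_le_mul_of_nonneg_left (F.anti ν x hab) hk)
    (smx_mono (add_le_add (G.anti ν x hab) le_rfl) (add_le_add (F.anti ν x hab) le_rfl))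
  le ν x := add_le_add (mul_le_mul_of_nonneg_left (F.le ν x) hk)
    (smx_mono (add_le_add (G.le ν x) le_rfl) (add_le_add (F.le ν x) (θ1 x)))
  lm ν μ := ((F.lm ν μ).const_mul _).add (G.lm ν μ)
  l0 ν μ x := add_nonneg (mul_nonneg (by linarith) (F.l0 ν μ x)) (G.l0 ν μ x)
  lb ν := by
    obtain ⟨c, h1⟩ := F.lb ν
    obtain ⟨d, h2⟩ := G.lb ν
    exact ⟨(k + 1) * c + d, fun μ x =>
      add_le_add (mul_le_mul_of_nonneg_left (h1 μ x) (by linarith)) (h2 μ x)⟩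
  lim ν := by
    filter_upwards [F.lim ν, G.lim ν] with x h1 h2
    simpa using (h1.const_mul (k + 1)).add h2
  e0 ν := mul_nonneg (by linarith) (F.e0 ν)
  elim := by simpa using F.elim.const_mul (k + 1)
  pos ν μ i x hx ξ := by
    refine le_trans ?_ (Th_UU (F.sm ν μ) (G.sm ν μ) hθ k (a + 2) K h h' hk hx (hc i x hx ξ)
      (F.l0 ν μ x) (G.l0 ν μ x) (F.pos ν μ i x hx ξ) (G.pos ν μ i x hx ξ))
    by_cases hW : x ∈ W
    · exact mul_nonneg (sub_nonneg.2 (ss_le_one _)) (psh i x hx hW ξ)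
    · rw [ss_one, sub_self, zero_mul]
      have := off ν μ x hW
      have := θ1 x
      unfold tt
      linarith

theorem vm_diff {E : Set M} {G : ℕ → Set M} (hE : MeasurableSet E) (hG : ∀ μ, MeasurableSet (G μ))
    (hf : vm vol E ≠ ⊤) (hl : ∀ᵐ x ∂(vm vol), x ∈ E → ∀ᶠ μ in atTop, x ∈ G μ) :
    Tendsto (fun μ => vm vol (E \ G μ)) atTop (𝓝 0) := by
  have h1 := tendsto_lintegral_of_dominated_convergence (μ := vm vol)
    (F := fun μ => (E \ G μ).indicator 1) (f := fun _ => 0) (E.indicator 1)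
    (fun μ => measurable_one.indicator (hE.diff (hG μ)))
    (fun μ => Eventually.of_forall fun x => indicator_le_indicator_of_subset sdiff_subset
      (fun _ => zero_le) x) (by rwa [lintegral_indicator_one hE]) (hl.mono fun x hx => ?_)
  · simpa only [lintegral_indicator_one (hE.diff (hG _)), lintegral_zero] using h1
  · refine tendsto_const_nhds.congr' ?_
    by_cases hx' : x ∈ E
    · filter_upwards [hx hx'] with μ hμ
      rw [indicator_of_notMem fun h => h.2 hμ]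
    · exact Eventually.of_forall fun μ => (indicator_of_notMem (fun h => hx' h.1) _).symm

/-- **step (2)** : a closed functional bounded for the weight `(k+1) φ` is represented by a
holomorphic field which is killed by the covectors `b j` where `S - φ` is very negative -/
theorem st2 (P : Part A) (hcut : Cut K) (F : WS K h vol f lf eps C0) (G : WS K h vol g lg eps C0)
    (h' : HM ((KB A)⁻¹ * N)) {k : ℝ} (hk : 0 ≤ k)
    (hc : ∀ i, ∀ x ∈ (A.e i).source, ∀ ξ, hq (cur h' i x) ξ = (k + 1) * hq (cur h i x) ξ)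
    {φ S : M → ℝ} (hφ : Measurable φ) (hS : Measurable S)
    (lim : ∀ ν, ∀ᵐ x ∂(vm vol), Tendsto (fun μ => g ν μ x - f ν μ x) atTop (𝓝 (S x - φ x)))
    (lef : ∀ ν μ, ∀ᵐ x ∂(vm vol), φ x ≤ f ν μ x) (W : Set M) (a : ℝ)
    (off : ∀ ν, ∀ᶠ μ in atTop, ∀ x ∉ W, f ν μ x - a ≤ g ν μ x)
    {θ : M → ℝ} (hθ : A.Sm θ) (θ0 : ∀ x, 0 ≤ θ x) (θ1 : ∀ x, θ x ≤ 1)
    (psh : ∀ i, ∀ x ∈ (A.e i).source, x ∈ W → ∀ ξ, 0 ≤ hq (hsf A θ i x) ξ)
    {C : Set M} (hC : IsCompact C) {i : A.ι} (hi : C ⊆ (A.e i).source) {ι : Type}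
    {b : ι → M → Fin n → ℂ} (hb : ∀ j, ContinuousOn (b j) C)
    (hbθ : ∀ j, ∀ x ∈ C, ∀ ξ : Fin n → ℂ, ‖∑ a, b j x a * ξ a‖ ^ 2 ≤ hq (hsf A θ i x) ξ)
    (Λ : CS (BN N) →ₗ[ℂ] ℂ) (hΛ : ∀ u, Λ (TsC K h' u) = 0) {D : ℝ} (hD : 0 ≤ D)
    (hB : ∀ (w : MV N) (hw : Cs w.1) (U : M → ℝ), Continuous U →
      (∀ᵐ x ∂(vm vol), (k + 1) * φ x ≤ U x) → ‖Λ (lowC K w hw)‖ ^ 2 ≤ D * nW K h' vol U w.1) :
    ∃ V : A.ι → M → FI n → ℂ, IsV N V ∧ (∀ i T, HolAt A i univ fun x => V i x T) ∧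
      MemLp (rr h' vol K V) 2 (vm vol) ∧
      (∀ (w : MV N) (hw : Cs w.1), dlt h' w = 0 → pr K h' vol V w.1 = Λ (lowC K w hw)) ∧
      ∀ j, ∀ᵐ x ∂(vm vol), x ∈ C → S x - φ x < -(a + 3) → iW (b j x) *ᵥ V i x = 0 := by
  haveI := isLocallyFinite_vm vol
  choose m hm using fun ν => eventually_atTop.1 (off ν)
  have F' := shift F m
  have G' := shift G m
  have W' := ws_UU F' G' h' hk hc hθ θ1 W a (fun ν μ => hm ν _ (Nat.le_add_left _ _)) psh
  have hE : MeasurableSet (C ∩ {x | S x - φ x < -(a + 3)}) :=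
    hC.measurableSet.inter (measurableSet_lt (hS.sub hφ) measurable_const)
  have hG : ∀ ν μ, MeasurableSet {x | tt (f ν (μ + m ν)) (g ν (μ + m ν)) θ (a + 2) x ≤ -1} :=
    fun ν μ => measurableSet_le (sm_continuous (sm_tt (F.sm _ _) (G.sm _ _) hθ _)).measurable
      measurable_const
  obtain ⟨V, O⟩ := hl n M A P K hcut N h' vol _ _ _ _ W' Λ hΛ (Real.sqrt D) (Real.sqrt_nonneg D)
    (fun ν μ w hw => by
      rw [Real.sq_sqrt hD]
      refine hB w hw _ (sm_continuous (W'.sm ν μ)) ((lef ν (μ + m ν)).mono fun x hx => ?_)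
      have h1 := mul_le_mul_of_nonneg_left hx hk
      have h2 := SM_nonneg (tt (f ν (μ + m ν)) (g ν (μ + m ν)) θ (a + 2) x)
      have h3 := θ0 x
      unfold UU
      linarith) _ _ hE hG fun ν => vm_diff hE (hG ν)
      ((measure_mono inter_subset_left).trans_lt hC.measure_lt_top).ne ((lim ν).mono fun x hx hx' => by
        filter_upwards [(hx.comp (tendsto_add_atTop_nat (m ν))).eventually (gt_mem_nhds hx'.2)]
          with μ hμ
        have h3 := θ0 x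
        simp only [Function.comp_apply] at hμ
        show tt _ _ _ _ x ≤ -1
        unfold tt
        linarith)
  refine ⟨V, O.isV, O.hol, O.mem, O.rep, fun j => ?_⟩
  refine (O.null i C hC hi (b j) (hb j) fun ν μ x hx ξ => ?_).mono fun x hx h1 h2 =>
    hx ⟨⟨h1, h2⟩, h1⟩
  refine (hbθ j x hx.2 ξ).trans (le_trans (le_of_eq ?_) (Th_UU (F'.sm ν μ) (G'.sm ν μ) hθ k (a + 2)
    K h h' hk (hi hx.2) (hc i x (hi hx.2) ξ) (F'.l0 ν μ x) (G'.l0 ν μ x)
    (F'.pos ν μ i x (hi hx.2) ξ) (G'.pos ν μ i x (hi hx.2) ξ)))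
  rw [ss_zero hx.1.2, sub_zero, one_mul]

end

end Crest.Agent.X261.Jet.St2
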