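import Crest.Agent.X261.Jet.TbI

/-!
# Row 261, JET/Tube (helper66), file `TbD`: test fields along a submersion

* `tau A i π x`    : the polyvector dual to `dπ_1 ∧ … ∧ dπ_p`;
* `fld T π σ b`    : the field `b σ tau`; `fldM` : as an element of `MV N`;
* `dlt_fldM`       : `b σ tau / |σ|²` is co-closed if `b` is locally a function of `π`;
* `gl_fld`, `gl_pair` : norms and pairings; `mm` : the function `|σ tau|²`.
-/

set_option autoImplicit false
set_option linter.unusedSectionVars false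

open Set Filter Topology Complex Matrix MeasureTheory Metric
open scoped ContDiff Matrix ComplexConjugate ENNReal InnerProductSpace

namespace Crest.Agent.X261.Jet.Tb

open Crest.Agent.R275 Crest.Agent.R275.Geo Crest.Agent.R275.Core144
open Crest.Agent.R275.OmT75 (dl)
open Crest.Agent.R273.Defs_333 Crest.Agent.R273.Fock_243 Crest.Agent.R273.Vm_333
open Crest.Agent.R273.Kah_333
open Crest.Agent.R273.Berezin_505 (Sb Sbi)
open Crest.Agent.R273.DVec_733 (MV Jm_mul_symm)
open Crest.Agent.R273.DMetB_733 (dlt dlt_eq_delV isV mem_MV)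
open Crest.Agent.R273.BKNa_37 (IsV dbV delV)
open Crest.Agent.R273.BKNb_37 (inG)
open Crest.Agent.T223.Hm
open Crest.Agent.X261.Top (dW)
open Crest.Agent.X261.Jet.Fr

noncomputable section

variable {n p : ℕ} {M : Type} [TopologicalSpace M] {A : Atl n M} {T : Set M} {π : M → Cn p}
  {i j : A.ι} {x : M} {N : LB A} {σ : A.ι → M → ℂ} {b : M → ℂ}

/-- the polyvector dual to `dπ_1 ∧ … ∧ dπ_p` -/
def tau (A : Atl n M) (i : A.ι) (π : M → Cn p) (x : M) : FI n → ℂ := Sbi ℂ n *ᵥ dW A i π x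

theorem dg_tau {r : ℕ} (hr : p + r = n) : Dg r (tau A i π x) := dg_dW.Sbi hr

theorem holAt_mulVec {U : Set M} (B : Matrix (FI n) (FI n) ℂ) {v : M → FI n → ℂ}
    (hv : ∀ S, HolAt A i U fun y => v y S) (S : FI n) : HolAt A i U fun y => (B *ᵥ v y) S :=
  HolAt.sum (F := fun S' y => B S S' * v y S') Finset.univ fun S' _ => (hv S').const_mul (B S S')

theorem dd_mulVec {s : ℂ} {a : Fin n} (B : Matrix (FI n) (FI n) ℂ) {v : M → FI n → ℂ}
    (hv : ∀ S, SA A i x fun y => v y S) (hi : x ∈ (A.e i).source) :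
    (fun S => dd A s i a (fun y => (B *ᵥ v y) S) x) = B *ᵥ fun S => dd A s i a (fun y => v y S) x := by
  funext S
  simp only [Matrix.mulVec, dotProduct]
  rw [dd_sum _ fun S' _ => (sa_const _).mul (hv S')]
  refine Finset.sum_congr rfl fun S' _ => ?_
  rw [dd_mul (sa_const _) (hv S') hi, dd_const, zero_mul, zero_add]

namespace Sbm

variable (H : Sbm A T π)
include H

theorem tau_ne (hx : x ∈ T) (hi : x ∈ (A.e i).source) : tau A i π x ≠ 0 := fun h =>
  H.dW_ne hx hi (Sbi_eq_zero h)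

theorem tau_hol (i : A.ι) (S : FI n) : HolAt A i T fun y => tau A i π y S :=
  holAt_mulVec _ (H.dW_hol i) S

theorem tau_tr (hx : x ∈ T) (hij : x ∈ (A.e i).source ∩ (A.e j).source) :
    tau A i π x = (KB A).g i j x • (Gam (Jm A j i x) *ᵥ tau A j π x) := by
  rw [tau, H.dW_tr hx hij, Gam_Sbi (Jm_mul_symm ⟨hij.2, hij.1⟩), KB_g hij, tau]

theorem frm_tr (F : Frm ((KB A)⁻¹ * N) T σ) (hx : x ∈ T)
    (hij : x ∈ (A.e i).source ∩ (A.e j).source) (c : ℂ) :
    (c * σ i x) • tau A i π x =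
      N.g i j x • (Gam (Jm A j i x) *ᵥ ((c * σ j x) • tau A j π x)) := by
  rw [H.tau_tr hx hij, F.tr i j x hx hij, Matrix.mulVec_smul, smul_smul, smul_smul, LB.mul_g,
    LB.inv_g]
  congr 1
  have := (KB A).ne_zero i j x
  field_simp

/-- the divergence of `g · tau` -/
theorem div_tau (hx : x ∈ T) (hi : x ∈ (A.e i).source) {g : M → ℂ} (hg : SA A i x g) :
    ∑ l, iW (ep l) *ᵥ (fun S => dl A i l (fun y => g y * tau A i π y S) x) =
      - (Sbi ℂ n *ᵥ (eW (fun a => dl A i a g x) *ᵥ dW A i π x)) := by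
  have h1 : ∀ l, (fun S => dl A i l (fun y => g y * tau A i π y S) x) =
      Sbi ℂ n *ᵥ (dl A i l g x • dW A i π x +
        g x • fun S => dl A i l (fun y => dW A i π y S) x) := fun l => by
    simp only [dl_eq]
    rw [Matrix.mulVec_add, Matrix.mulVec_smul, Matrix.mulVec_smul,
      ← dd_mulVec _ (fun S => sa_hol (H.dW_hol i S) H.opn hi hx) hi]
    funext S
    exact dd_mul hg (sa_hol (H.tau_hol i S) H.opn hi hx) hi
  simp only [h1, iW_Sbi, Finset.sum_neg_distrib, ← Matrix.mulVec_sum, Matrix.mulVec_add,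
    Matrix.mulVec_smul, Finset.sum_add_distrib, ← Finset.smul_sum]
  rw [H.dW_closed hx hi, Matrix.mulVec_zero, neg_zero, smul_zero, add_zero,
    eW_eq_sum (fun a => dl A i a g x), Matrix.sum_mulVec, Matrix.mulVec_sum,
    ← Finset.sum_neg_distrib]
  simp only [Matrix.smul_mulVec, Matrix.mulVec_smul, smul_neg]

end Sbm

/-- smooth on `T` -/
def SmT (A : Atl n M) (T : Set M) (b : M → ℂ) : Prop :=
  ∀ i, ∀ x ∈ T, x ∈ (A.e i).source → SA A i x b

theorem SmT.mul {b' : M → ℂ} (h : SmT A T b) (h' : SmT A T b') : SmT A T fun x => b x * b' x :=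
  fun i x hx hi => (h i x hx hi).mul (h' i x hx hi)

theorem smT_hol (hT : IsOpen T) (h : ∀ i, HolAt A i T b) : SmT A T b := fun i _ hx hi =>
  sa_hol (h i) hT hi hx

theorem Sbm.smT_comp (H : Sbm A T π) {Φ : Cn p → ℂ} (hΦ : ∀ x ∈ T, ContDiffAt ℝ ∞ Φ (π x)) :
    SmT A T fun x => Φ (π x) := fun i x hx hi =>
  ContDiffAt.comp (g := Φ) (f := fun z => π ((A.e i).symm z)) (A.e i x)
    (by rw [(A.e i).left_inv hi]; exact hΦ x hx)
    (((H.anAt hx hi).contDiffAt (n := ∞)).restrict_scalars ℝ)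

theorem SmT.cont (h : SmT A T b) (hx : x ∈ T) : ContinuousAt b x := by
  obtain ⟨i, hi⟩ := A.cover x
  exact cont_of_chart hi (h i x hx hi).continuousAt

open Classical in
/-- the field `b σ tau` -/
def fld (T : Set M) (π : M → Cn p) (σ : A.ι → M → ℂ) (b : M → ℂ) (i : A.ι) (x : M) : FI n → ℂ :=
  if x ∈ T ∧ x ∈ (A.e i).source then (b x * σ i x) • tau A i π x else 0

theorem fld_eq (hx : x ∈ T) (hi : x ∈ (A.e i).source) :
    fld T π σ b i x = (b x * σ i x) • tau A i π x := if_pos ⟨hx, hi⟩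

theorem fld_off (hx : x ∈ T → b x = 0) : fld T π σ b i x = 0 := by
  unfold fld
  split_ifs with h
  · rw [hx h.1, zero_mul, zero_smul]
  · rfl

theorem fld_smul : fld T π σ b i x = b x • fld T π σ (fun _ => 1) i x := by
  unfold fld
  split_ifs
  · rw [smul_smul, one_mul]
  · rw [smul_zero]

theorem dg_fld {r : ℕ} (hr : p + r = n) : Dg r (fld T π σ b i x) := by
  unfold fld
  split_ifs
  · exact (dg_tau hr).smul _
  · exact fun _ _ => rfl

theorem fld_tr (H : Sbm A T π) (F : Frm ((KB A)⁻¹ * N) T σ)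
    (hij : x ∈ (A.e i).source ∩ (A.e j).source) :
    fld T π σ b i x = N.g i j x • (Gam (Jm A j i x) *ᵥ fld T π σ b j x) := by
  by_cases hx : x ∈ T
  · rw [fld_eq hx hij.1, fld_eq hx hij.2]
    exact H.frm_tr F hx hij _
  · rw [fld_off fun h => (hx h).elim, fld_off fun h => (hx h).elim, Matrix.mulVec_zero, smul_zero]

theorem fld_ev (hT : IsOpen T) (hx : x ∈ T) (hi : x ∈ (A.e i).source) (S : FI n) :
    (fun y => fld T π σ b i y S) =ᶠ[𝓝 x] fun y => b y * (σ i y * tau A i π y S) := by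
  filter_upwards [hT.mem_nhds hx, ev_src hi] with y h1 h2
  rw [fld_eq h1 h2, Pi.smul_apply, smul_eq_mul, mul_assoc]

/-- `∂̄` of the field vanishes where `b` is holomorphic -/
theorem dbV_fld (H : Sbm A T π) {L : LB A} (F : Frm L T σ) {W : Set M} (hW : IsOpen W)
    (hWT : W ⊆ T) (hb : HolAt A i W b) (hx : x ∈ W) (hi : x ∈ (A.e i).source) (k : Fin n) :
    dbV (fld T π σ b) i k x = 0 := by
  funext S
  refine (dd_congr hi (fld_ev H.opn (hWT hx) hi S)).trans ?_
  exact (hb.mul (((F.hol i).mul (H.tau_hol i S)).mono hWT)).db_zero hW hi hx k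

/-- smooth on `T` and vanishing off a compact subset of `T` -/
structure Tst (A : Atl n M) (T : Set M) (b : M → ℂ) (C : Set M) : Prop where
  sm : SmT A T b
  cpt : IsCompact C
  sub : C ⊆ T
  off : ∀ x ∉ C, x ∈ T → b x = 0

theorem Tst.mul {C : Set M} (h : Tst A T b C) {b' : M → ℂ} (h' : SmT A T b') :
    Tst A T (fun x => b x * b' x) C :=
  ⟨h.sm.mul h', h.cpt, h.sub, fun x hx hxT => by rw [h.off x hx hxT, zero_mul]⟩

variable [T2Space M] {C : Set M}

theorem Tst.ev_off (h : Tst A T b C) (hx : x ∉ C) : ∀ᶠ y in 𝓝 x, ∀ i, fld T π σ b i y = 0 := by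
  filter_upwards [h.cpt.isClosed.isOpen_compl.mem_nhds hx] with y hy i
  exact fld_off (h.off y hy)

theorem fld_isV (H : Sbm A T π) (F : Frm ((KB A)⁻¹ * N) T σ) (h : Tst A T b C) :
    IsV N (fld T π σ b) where
  sm i S := smAt_of_sa fun x hi => by
    by_cases hx : x ∈ T
    · exact ((h.sm i x hx hi).mul (sa_hol ((F.hol i).mul (H.tau_hol i S)) H.opn hi hx)).congr hi
        (fld_ev H.opn hx hi S)
    · refine (sa_const 0).congr hi ?_
      filter_upwards [h.ev_off (π := π) (σ := σ) fun hC => hx (h.sub hC)] with y hy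
      rw [hy i]
      rfl
  tr _ _ _ hij := fld_tr H F hij

/-- the field `b σ tau` as a smooth section -/
def fldM (H : Sbm A T π) (F : Frm ((KB A)⁻¹ * N) T σ) (h : Tst A T b C) : MV N :=
  ⟨fld T π σ b, mem_MV (fld_isV H F h) fun _ _ hx => if_neg fun h => hx h.2⟩

theorem fldM_val (H : Sbm A T π) (F : Frm ((KB A)⁻¹ * N) T σ) (h : Tst A T b C) :
    (fldM H F h).1 = fld T π σ b := rfl

theorem Tst.cs (h : Tst A T b C) : Cs (fld T π σ b) :=
  ⟨C, h.cpt, fun _ x hx => fld_off (h.off x hx)⟩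

variable [Countable A.ι]

theorem Frm.smT_inv {L : LB A} (F : Frm L T σ) (hT : IsOpen T) (h : HM L) :
    SmT A T fun x => ((nq h σ x : ℂ))⁻¹ := fun _ _ hx hi =>
  (F.nq_sa hT h hx hi).inv hi (Complex.ofReal_ne_zero.2 (F.nq_pos h hx).ne')

/-- **co-closed test fields** -/
theorem dlt_fldM (H : Sbm A T π) (F : Frm ((KB A)⁻¹ * N) T σ) (h : HM ((KB A)⁻¹ * N))
    (hb : Tst A T b C) (h0 : ∀ i, ∀ x ∈ T, x ∈ (A.e i).source →
      eW (fun a => dl A i a b x) *ᵥ dW A i π x = 0) :
    dlt h (fldM H F (hb.mul (F.smT_inv H.opn h))) = 0 := by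
  refine MV.ext fun i x hi => ?_
  rw [dlt_eq_delV h _ hi, fldM_val, delV]
  refine (congrArg _ ?_).trans (smul_zero _)
  by_cases hx : x ∈ T
  · have hs := ((F.hol i).inv fun y hy hyT => F.ne i y hyT hy)
    have hs' := sa_hol hs H.opn hi hx
    have h1 : ∀ l, (fun S => dl A i l (fun y => (h.w i y : ℂ) *
        fld T π σ (fun x => b x * ((nq h σ x : ℂ))⁻¹) i y S) x) =
        fun S => dl A i l (fun y => (b y * conj (σ i y)⁻¹) * tau A i π y S) x := fun l => by
      funext S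
      refine dl_congr' hi ?_ l
      filter_upwards [H.opn.mem_nhds hx, ev_src hi] with y h2 h3
      rw [fld_eq h2 h3, F.nq_eqC h h2 h3, Pi.smul_apply, smul_eq_mul, map_inv₀]
      have := w_ne h h3
      have := F.ne i y h2 h3
      have : conj (σ i y) ≠ 0 := (map_ne_zero _).2 this
      field_simp
    simp only [h1]
    rw [H.div_tau hx hi ((hb.sm i x hx hi).mul hs'.conj)]
    have h2 : (fun a => dl A i a (fun y => b y * conj (σ i y)⁻¹) x) =
        conj (σ i x)⁻¹ • fun a => dl A i a b x := by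
      funext a
      rw [dl_eq, dd_mul (hb.sm i x hx hi) hs'.conj hi, dl_conj', ← db_eq,
        hs.db_zero H.opn hi hx, map_zero, mul_zero, add_zero, ← dl_eq, mul_comm]
      rfl
    rw [h2, eW_smul, Matrix.smul_mulVec, h0 i x hx hi, smul_zero, Matrix.mulVec_zero, neg_zero]
  · refine Finset.sum_eq_zero fun l _ => (congrArg _ ?_).trans (Matrix.mulVec_zero _)
    funext S
    rw [dl_congr' (g := fun _ => 0) hi, dl_eq, dd_const]
    · rfl
    · filter_upwards [(hb.mul (F.smT_inv H.opn h)).ev_off (π := π) (σ := σ)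
        fun hC => hx (hb.sub hC)] with y hy
      rw [hy i, Pi.zero_apply, mul_zero]

/-! ### norms and pairings -/

variable (h : HM ((KB A)⁻¹ * N)) (vol : HM (KB A)⁻¹) (K : Kah A)

/-- the function `|σ tau|²` -/
def mm (T : Set M) (π : M → Cn p) (σ : A.ι → M → ℂ) (x : M) : ℝ :=
  ‖rr h vol K (fld T π σ fun _ => 1) x‖ ^ 2

theorem mm_nonneg : 0 ≤ mm h vol K T π σ x := sq_nonneg _

theorem rr_fld : rr h vol K (fld T π σ b) x = b x • rr h vol K (fld T π σ fun _ => 1) x := by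
  rw [rr, rr, fld_smul, tV_smul]

theorem gl_fld : (gl vol (inG K h (fld T π σ b) (fld T π σ b)) x).re =
    ‖b x‖ ^ 2 * mm h vol K T π σ x := by
  rw [← norm_rr, rr_fld, norm_smul, mul_pow, mm]

theorem mm_eq (H : Sbm A T π) (F : Frm ((KB A)⁻¹ * N) T σ) (hx : x ∈ T)
    (hi : x ∈ (A.e i).source) : mm h vol K T π σ x = (vol.w i x)⁻¹ * (h.w i x *
      (gq K i x (σ i x • tau A i π x) (σ i x • tau A i π x)).re) := by
  rw [mm, rr, tV_law h vol K ⟨hi, ix_mem x⟩, ← fld_tr H F ⟨hi, ix_mem x⟩, norm_tV h vol K hi,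
    fld_eq hx hi, one_mul]

theorem mm_pos (H : Sbm A T π) (F : Frm ((KB A)⁻¹ * N) T σ) (hx : x ∈ T) :
    0 < mm h vol K T π σ x := by
  have hi := ix_mem (A := A) x
  rw [mm_eq h vol K H F hx hi]
  exact mul_pos (inv_pos.2 (vol.pos _ x hi)) (mul_pos (h.pos _ x hi)
    (gq_pos K hi (smul_ne_zero (F.ne _ x hx hi) (H.tau_ne hx hi))))

theorem mm_cont (H : Sbm A T π) (F : Frm ((KB A)⁻¹ * N) T σ) (hx : x ∈ T) :
    ContinuousAt (mm h vol K T π σ) x := by
  obtain ⟨i, hi⟩ := A.cover x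
  have hO := H.opn.inter (A.e i).open_source
  have h1 : ContinuousOn (fun y => σ i y • tau A i π y) (T ∩ (A.e i).source) :=
    continuousOn_pi.2 fun S y hy => ContinuousAt.continuousWithinAt (cont_of_chart hy.2
      (sa_hol ((F.hol i).mul (H.tau_hol i S)) H.opn hy.2 hy.1).continuousAt)
  have h2 := (((contOn_smAt (vol.sm i)).inv₀ fun y hy => (vol.pos i y hy).ne').mono
    (inter_subset_right (s := T))).mul (((contOn_smAt (h.sm i)).mono inter_subset_right).mul
      (Complex.continuous_re.comp_continuousOn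
        (contOn_gq K continuousOn_id inter_subset_right h1 h1)))
  exact (h2.congr fun y hy => mm_eq h vol K H F hy.1 hy.2).continuousAt (hO.mem_nhds ⟨hx, hi⟩)

/-- pairing of a test field with a field whose part of degree `r` is `f σ tau` -/
theorem gl_pair {r : ℕ} (hr : p + r = n) {V : A.ι → M → FI n → ℂ} {c : ℂ} (hx : x ∈ T)
    (hV : prj r (V (ix A x) x) = (c * σ (ix A x) x) • tau A (ix A x) π x) :
    gl vol (inG K h (fld T π σ b) V) x = conj c * b x * (mm h vol K T π σ x : ℝ) := by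
  have h1 : gl vol (inG K h (fld T π σ b) V) x =
      gl vol (inG K h (fld T π σ b) (fld T π σ fun _ => c)) x := by
    rw [gl, gl, inG, inG, ← pair_prj (dg_fld hr), hV, fld_eq (b := fun _ => c) hx (ix_mem x)]
  rw [h1, ← inner_rr, rr_fld (b := b), rr_fld (b := fun _ => c), inner_smul_left, inner_smul_right,
    inner_self_eq_norm_sq_to_K, mm, mul_assoc]
  simp

theorem gl_pair_off {V : A.ι → M → FI n → ℂ} (hx : x ∈ T → b x = 0) :
    gl vol (inG K h (fld T π σ b) V) x = 0 := by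
  rw [gl, inG, fld_off hx, Matrix.mulVec_zero, dotProduct_zero, mul_zero, smul_zero]

end

end Crest.Agent.X261.Jet.Tb
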